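import Vale.Agent.P159.TM.H77.HI
import Vale.Agent.P159.TM.H859.Lin

/-!
The three numbers for the free arms in the window `ξ / (10001 A) ≤ t ≤ ξ / A`: the variance of the
average over a box of side `t` is large, its fourth moment is bounded by a universal multiple of the
square of the lower bound, and neighbouring boxes differ by a bounded amount.
-/

open Finset

set_option linter.unusedSectionVars false

namespace Vale.Agent.P159.TM.H77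

open Vale.Agent.P159 Vale.Agent.P159.H353
open Vale.Agent.P159.TM.H60 Vale.Agent.P159.TM.H504 Vale.Agent.P159.TM.H426
open Vale.Agent.P159.TM.SpecC (wT ms)
open Vale.Agent.P159.TM.H764 (frm H2)
open Vale.Agent.P159.TM.H859 (cstL fourth_box_lin)

/-- the weight of one copy on the torus -/
noncomputable def wo (N : ℕ) [NeZero N] (b : ℝ) (ξ : ℕ) (h : ZMod N × ZMod N → ℤ) : ℝ :=
  W1h (H459.tS (N := N)) H459.tT (fun _ => wI b) (ga (ms (ξ : ℝ))) h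

lemma wo_nonneg {N : ℕ} [NeZero N] {b : ℝ} (hb : 0 ≤ b) (ξ : ℕ) (h : ZMod N × ZMod N → ℤ) :
    0 ≤ wo N b ξ h :=
  mul_nonneg (prod_nonneg fun _ _ => wI_nonneg hb _) (prod_nonneg fun _ _ => (Real.exp_pos _).le)

/-- **THE THREE NUMBERS IN THE WINDOW** of any ratio `R`, with `K4` and `C1` chosen before `A` and
`W` -/
theorem winR {C2 bb : ℝ} (hC : 0 < C2) (hbb : 0 < bb) (R : ℕ) :
    ∃ K4 C1 : ℝ, 0 < K4 ∧ 0 < C1 ∧ ∀ V0 : ℝ, ∃ A1 : ℕ, 1 ≤ A1 ∧ ∀ A : ℕ, A1 ≤ A →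
    ∀ (N : ℕ) [NeZero N] (b : ℝ), 0 ≤ b → b ≤ bb → ∀ ξ K t : ℕ, ∀ W : ℝ, (A : ℝ) ≤ W →
    1 ≤ t → A * t ≤ ξ → ξ ≤ R * A * t → 1 ≤ K → N = K * ξ →
    H2 C2 W (ξ : ℝ) (Spec.GT N b ξ) → ∀ p q : ℤ, ∃ V : ℝ, V0 ≤ V ∧ 0 < V ∧
      (Summable fun h => wo N b ξ h) ∧
      (Summable fun h => wo N b ξ h * (bav N p q t fun x => (h x : ℝ)) ^ 2) ∧
      (Summable fun h => wo N b ξ h * (bav N p q t fun x => (h x : ℝ)) ^ 4) ∧
      (Summable fun h => wo N b ξ h *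
        ((bav N p q t fun x => (h x : ℝ)) - bav N (p + 3 * t) q t fun x => (h x : ℝ)) ^ 2) ∧
      V * ∑' h, wo N b ξ h ≤ ∑' h, wo N b ξ h * (bav N p q t fun x => (h x : ℝ)) ^ 2 ∧
      ∑' h, wo N b ξ h * (bav N p q t fun x => (h x : ℝ)) ^ 4 ≤
        K4 * V ^ 2 * ∑' h, wo N b ξ h ∧
      ∑' h, wo N b ξ h *
        ((bav N p q t fun x => (h x : ℝ)) - bav N (p + 3 * t) q t fun x => (h x : ℝ)) ^ 2 ≤
        C1 * ∑' h, wo N b ξ h := by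
  refine ⟨144 * ((128 * bb + 2 * (R : ℝ) ^ 2) * (804 * C2)) ^ 2, 4 * Real.exp (4 * bb), by positivity,
    by positivity, fun V0 => ?_⟩
  obtain ⟨k1, hk1⟩ := exists_nat_ge (804 * C2 * V0)
  obtain ⟨k2, hk2⟩ := exists_nat_ge (1 / bb)
  refine ⟨8 * 2 ^ (k1 + k2 + 1), Nat.mul_pos (by norm_num) (by positivity), ?_⟩
  intro A hA N _ b hb hb' ξ K t W hW ht hup hlo hK hN h2 p q
  -- the number of doublings
  set k : ℕ := Nat.log 2 (A / 8) with hk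
  have hA8 : 2 ^ (k1 + k2 + 1) ≤ A / 8 := by
    rw [Nat.le_div_iff_mul_le (by norm_num)]
    linarith
  have hA8' : A / 8 ≠ 0 := by
    have : 0 < 2 ^ (k1 + k2 + 1) := by positivity
    omega
  have hkk : k1 + k2 + 1 ≤ k := by
    rw [hk]
    exact Nat.le_log_of_pow_le (by norm_num) hA8
  have ha : 8 * 2 ^ k ≤ A := by
    have h1 : 2 ^ k ≤ A / 8 := Nat.pow_log_le_self 2 hA8'
    have h3 : 2 ^ k * 8 ≤ A := (Nat.le_div_iff_mul_le (by norm_num)).1 h1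
    linarith
  have hb2 : A < 16 * 2 ^ k := by
    have h1 : A / 8 < 2 ^ (k + 1) := Nat.lt_pow_succ_log_self (by norm_num) _
    have h3 : A < 2 ^ (k + 1) * 8 := (Nat.div_lt_iff_lt_mul (by norm_num)).1 h1
    rw [pow_succ] at h3
    linarith
  have h8 : 8 * 2 ^ k * t ≤ ξ := (Nat.mul_le_mul_right t ha).trans hup
  have hξ18 : ξ ≤ R * (16 * 2 ^ k) * t :=
    hlo.trans (Nat.mul_le_mul_right _ (Nat.mul_le_mul_left _ hb2.le))
  have hk1' : 1 ≤ k := by omega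
  have hkR : (1 : ℝ) ≤ k := by exact_mod_cast hk1'
  have ht0 : (0 : ℝ) < t := by exact_mod_cast ht
  have ht1 : (1 : ℝ) ≤ t := by exact_mod_cast ht
  have h2k : (0 : ℝ) < 2 ^ k := by positivity
  have hξ1 : 1 ≤ ξ := by
    have : 0 < 8 * 2 ^ k * t := by positivity
    omega
  have hξ0 : (0 : ℝ) < ξ := by exact_mod_cast hξ1
  have h8R : 8 * 2 ^ k * (t : ℝ) ≤ ξ := by exact_mod_cast h8
  have h18R : (ξ : ℝ) ≤ R * (16 * 2 ^ k) * t := by exact_mod_cast hξ18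
  have hξN : ξ ≤ N := by
    rw [hN]
    exact Nat.le_mul_of_pos_left _ hK
  have hn : t * 2 ^ (k + 3) ≤ N := by
    calc t * 2 ^ (k + 3) = 8 * 2 ^ k * t := by rw [pow_add]; ring
      _ ≤ ξ := h8
      _ ≤ N := hξN
  have hn4 : 4 * t ≤ N := by
    refine le_trans ?_ hn
    rw [pow_add, mul_comm t]
    have : 1 ≤ 2 ^ k := Nat.one_le_two_pow
    exact Nat.mul_le_mul_right _ (by omega)
  have hm0 : (0 : ℝ) < 1 / (ξ : ℝ) ^ 2 := by positivity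
  -- the constant
  have hceq : cstL bb (k + 3) (1 / (ξ : ℝ) ^ 2) t = 32 * ((k : ℝ) + 3) * bb +
      (ξ : ℝ) ^ 2 / (2 * (8 * 2 ^ k * (t : ℝ)) ^ 2) := by
    unfold cstL
    push_cast
    congr 1
    rw [show ((t : ℝ) * 2 ^ (k + 3)) = 8 * 2 ^ k * t by rw [pow_add]; ring]
    field_simp
  have hden : (0 : ℝ) < 2 * (8 * 2 ^ k * (t : ℝ)) ^ 2 := by positivity
  have hcu : cstL bb (k + 3) (1 / (ξ : ℝ) ^ 2) t ≤ (128 * bb + 2 * (R : ℝ) ^ 2) * k := by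
    rw [hceq]
    have h1 : (ξ : ℝ) ^ 2 / (2 * (8 * 2 ^ k * (t : ℝ)) ^ 2) ≤ 2 * (R : ℝ) ^ 2 := by
      rw [div_le_iff₀ hden]
      calc (ξ : ℝ) ^ 2 ≤ (R * (16 * 2 ^ k) * (t : ℝ)) ^ 2 := by gcongr
        _ = 2 * (R : ℝ) ^ 2 * (2 * (8 * 2 ^ k * (t : ℝ)) ^ 2) := by ring
    have h3 : 32 * ((k : ℝ) + 3) * bb ≤ 128 * bb * k := by nlinarith
    nlinarith
  have hcl : 4 ≤ (t : ℝ) ^ 2 * cstL bb (k + 3) (1 / (ξ : ℝ) ^ 2) t := by
    rw [hceq]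
    have h1 : 0 ≤ (ξ : ℝ) ^ 2 / (2 * (8 * 2 ^ k * (t : ℝ)) ^ 2) := by positivity
    have h3 : (k2 : ℝ) ≤ k := by
      have : k2 ≤ k := by omega
      exact_mod_cast this
    have h4 : 1 ≤ (k : ℝ) * bb := by
      rw [div_le_iff₀ hbb] at hk2
      nlinarith
    have h5 : 1 ≤ (t : ℝ) ^ 2 := by nlinarith
    have h6 : (4 : ℝ) ≤ 32 * ((k : ℝ) + 3) * bb +
        (ξ : ℝ) ^ 2 / (2 * (8 * 2 ^ k * (t : ℝ)) ^ 2) := by nlinarith
    nlinarith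
  have hc0 : 0 ≤ cstL bb (k + 3) (1 / (ξ : ℝ) ^ 2) t := by
    rw [hceq]
    positivity
  -- the moments
  obtain ⟨s0, s2, s4, l4⟩ := fourth_box_lin (s := H459.tS (N := N)) (t := H459.tT) ht (k + 3)
    (grid_tor N p q _) hn (b := fun _ => b) (fun _ => hb) (fun _ => hb') hbb.le
    (m := ms (ξ : ℝ)) hm0 (fun v => le_rfl) hcl
  obtain ⟨s5, l5⟩ := diff_box (s := H459.tS (N := N)) (t := H459.tT) (p := p) (q := q) ht
    (grid_tor N p q _) hn4 (b := fun _ => b) (fun _ => hb) (fun _ => hb') hbb.le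
    (m := ms (ξ : ℝ)) (fun v => hm0)
  have hZ0 : 0 ≤ ∑' h, wo N b ξ h := tsum_nonneg fun h => wo_nonneg hb ξ h
  refine ⟨(k : ℝ) / (804 * C2), ?_, by positivity, s0, s2, s4, s5, ?_, ?_, l5⟩
  · rw [le_div_iff₀ (by positivity)]
    have : (k1 : ℝ) ≤ k := by
      have : k1 ≤ k := by omega
      exact_mod_cast this
    linarith
  · exact var_tor (N := N) hb hC hξ1 hN (le_trans (by exact_mod_cast ha) hW) h2 ht h8 p q
  · refine l4.trans (mul_le_mul_of_nonneg_right ?_ hZ0)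
    calc 144 * cstL bb (k + 3) (1 / (ξ : ℝ) ^ 2) t ^ 2
        ≤ 144 * ((128 * bb + 2 * (R : ℝ) ^ 2) * k) ^ 2 := by gcongr
      _ = 144 * ((128 * bb + 2 * (R : ℝ) ^ 2) * (804 * C2)) ^ 2 * ((k : ℝ) / (804 * C2)) ^ 2 := by
          field_simp

/-- **THE THREE NUMBERS IN THE WINDOW**, ratio `10001` -/
theorem win {C2 bb : ℝ} (hC : 0 < C2) (hbb : 0 < bb) :
    ∃ K4 C1 : ℝ, 0 < K4 ∧ 0 < C1 ∧ ∀ V0 : ℝ, ∃ A1 : ℕ, 1 ≤ A1 ∧ ∀ A : ℕ, A1 ≤ A →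
    ∀ (N : ℕ) [NeZero N] (b : ℝ), 0 ≤ b → b ≤ bb → ∀ ξ K t : ℕ, ∀ W : ℝ, (A : ℝ) ≤ W →
    1 ≤ t → A * t ≤ ξ → ξ ≤ 10001 * A * t → 1 ≤ K → N = K * ξ →
    H2 C2 W (ξ : ℝ) (Spec.GT N b ξ) → ∀ p q : ℤ, ∃ V : ℝ, V0 ≤ V ∧ 0 < V ∧
      (Summable fun h => wo N b ξ h) ∧
      (Summable fun h => wo N b ξ h * (bav N p q t fun x => (h x : ℝ)) ^ 2) ∧
      (Summable fun h => wo N b ξ h * (bav N p q t fun x => (h x : ℝ)) ^ 4) ∧
      (Summable fun h => wo N b ξ h *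
        ((bav N p q t fun x => (h x : ℝ)) - bav N (p + 3 * t) q t fun x => (h x : ℝ)) ^ 2) ∧
      V * ∑' h, wo N b ξ h ≤ ∑' h, wo N b ξ h * (bav N p q t fun x => (h x : ℝ)) ^ 2 ∧
      ∑' h, wo N b ξ h * (bav N p q t fun x => (h x : ℝ)) ^ 4 ≤
        K4 * V ^ 2 * ∑' h, wo N b ξ h ∧
      ∑' h, wo N b ξ h *
        ((bav N p q t fun x => (h x : ℝ)) - bav N (p + 3 * t) q t fun x => (h x : ℝ)) ^ 2 ≤
        C1 * ∑' h, wo N b ξ h := winR hC hbb 10001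

end Vale.Agent.P159.TM.H77
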