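import Mathlib
import Vale.Agent.P159.H353.Coef
import Vale.Agent.P159.H353.Bij
import Vale.Agent.P159.H353.ProdSum
import Vale.Agent.P159.R2.H254.Laurent

/-!
Row A1: domination of sums over heights by their Fourier transforms.  `Dom C f g` : the Fourier
series of `f` is at most `C` times the Fourier series of `g`, which is nonnegative.
-/

open MeasureTheory Filter Topology

namespace Vale.Agent.P159.TM.H77

open Vale.Agent.P159 Vale.Agent.P159.H353 Vale.Agent.P159.R2.H254

/-- `f` is dominated by `C * g` on the Fourier side -/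
def Dom (C : ℝ) (f g : ℤ → ℝ) : Prop :=
  (Summable fun n => |f n|) ∧ (Summable fun n => |g n|) ∧
    ∀ x : T, ∃ r : ℝ, (∑' n : ℤ, (g n : ℂ) * (fourier n x : ℂ)) = (r : ℂ) ∧
      ‖∑' n : ℤ, (f n : ℂ) * (fourier n x : ℂ)‖ ≤ C * r

section rep

variable {V E : Type} [Fintype V] [DecidableEq V] [Fintype E] (s t : E → V)

/-- the divergence of a family of angles -/
noncomputable def dvT (θ : E → T) (x : V) : T :=
  ∑ e, ((if t e = x then θ e else 0) - (if s e = x then θ e else 0))

lemma fourier_sum {ι : Type} (S : Finset ι) (n : ℤ) (f : ι → T) :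
    (fourier n (∑ i ∈ S, f i) : ℂ) = ∏ i ∈ S, (fourier n (f i) : ℂ) := by
  classical
  induction S using Finset.induction_on with
  | empty => simp
  | insert a S ha ih => rw [Finset.sum_insert ha, Finset.prod_insert ha, fourier_add_arg, ih]

lemma fourier_sub_arg (n : ℤ) (x y : T) :
    (fourier n (x - y) : ℂ) = (fourier n x : ℂ) * (fourier (-n) y : ℂ) := by
  rw [sub_eq_add_neg, fourier_add_arg, fourier_neg_arg]

/-- summation by parts on the characters -/
lemma parts (θ : E → T) (h : V → ℤ) :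
    ∏ x, (fourier (h x) (dvT s t θ x) : ℂ) = ∏ e, (fourier (h (t e) - h (s e)) (θ e) : ℂ) := by
  unfold dvT
  simp only [fourier_sum]
  rw [Finset.prod_comm]
  refine Finset.prod_congr rfl fun e _ => ?_
  simp only [fourier_sub_arg]
  rw [Finset.prod_mul_distrib, sub_eq_add_neg, fourier_add]
  congr 1
  · have : ∀ x, (fourier (h x) (if t e = x then θ e else 0) : ℂ) =
        if t e = x then (fourier (h x) (θ e) : ℂ) else 1 := by
      intro x
      split_ifs
      · rfl
      · simp
    simp only [this, Finset.prod_ite_eq, Finset.mem_univ, if_true]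
  · have : ∀ x, (fourier (-h x) (if s e = x then θ e else 0) : ℂ) =
        if s e = x then (fourier (-h x) (θ e) : ℂ) else 1 := by
      intro x
      split_ifs
      · rfl
      · simp
    simp only [this, Finset.prod_ite_eq, Finset.mem_univ, if_true]

/-- Fourier series -/
noncomputable def FS (f : ℤ → ℝ) (x : T) : ℂ := ∑' n : ℤ, (f n : ℂ) * (fourier n x : ℂ)

lemma summable_FS {f : ℤ → ℝ} (hf : Summable fun n => |f n|) (x : T) :
    Summable fun n : ℤ => ‖(f n : ℂ) * (fourier n x : ℂ)‖ := by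
  refine hf.congr fun n => ?_
  rw [norm_mul, fourier_norm_one, mul_one, Complex.norm_real, Real.norm_eq_abs]

lemma continuous_FS {f : ℤ → ℝ} (hf : Summable fun n => |f n|) : Continuous (FS f) := by
  unfold FS
  refine continuous_tsum (fun n => continuous_const.mul (fourier n).continuous) hf fun n x => ?_
  rw [norm_mul, fourier_norm_one, mul_one, Complex.norm_real, Real.norm_eq_abs]

lemma norm_FS_le {f : ℤ → ℝ} (hf : Summable fun n => |f n|) (x : T) :
    ‖FS f x‖ ≤ ∑' n, |f n| := by
  unfold FS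
  refine (norm_tsum_le_tsum_norm (summable_FS hf x)).trans (le_of_eq ?_)
  refine tsum_congr fun n => ?_
  rw [norm_mul, fourier_norm_one, mul_one, Complex.norm_real, Real.norm_eq_abs]

/-- Fourier coefficients -/
lemma coef_FS {f : ℤ → ℝ} (hf : Summable fun n => |f n|) (n : ℤ) :
    ∫ x : T, FS f (-x) * (fourier n x : ℂ) ∂AddCircle.haarAddCircle = (f n : ℂ) := by
  have h1 : ∀ x : T, FS f (-x) * (fourier n x : ℂ) =
      ∑' k : ℤ, (f k : ℂ) * (fourier (n - k) x : ℂ) := by
    intro x
    unfold FS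
    rw [← tsum_mul_right]
    refine tsum_congr fun k => ?_
    rw [fourier_neg_arg, mul_assoc, ← fourier_add]
    congr 3
    ring
  simp only [h1]
  have hc : ∀ k : ℤ, Continuous fun x : T => (f k : ℂ) * (fourier (n - k) x : ℂ) := fun k =>
    continuous_const.mul (fourier (n - k)).continuous
  have h2 := hasSum_integral_of_summable_integral_norm (μ := AddCircle.haarAddCircle)
    (F := fun (k : ℤ) (x : T) => (f k : ℂ) * (fourier (n - k) x : ℂ))
    (fun k => (hc k).integrable_of_hasCompactSupport (HasCompactSupport.of_compactSpace _)) ?_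
  · rw [← h2.tsum_eq]
    simp only [integral_const_mul, integral_fourier]
    rw [tsum_eq_single n]
    · simp
    · intro k hk
      rw [if_neg (by omega), mul_zero]
  · refine hf.congr fun k => ?_
    have : ∀ x : T, ‖(f k : ℂ) * (fourier (n - k) x : ℂ)‖ = |f k| := fun x => by
      rw [norm_mul, fourier_norm_one, mul_one, Complex.norm_real, Real.norm_eq_abs]
    simp only [this]
    simp

/-- **the sum over heights as an integral over the dual angles** -/
theorem rep_sum {f : E → ℤ → ℝ} {φ : V → ℤ → ℝ} (hf : ∀ e, Summable fun n => |f e n|)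
    (hφ : ∀ x, Summable fun n => |φ x n|) :
    (Summable fun h : V → ℤ => |(∏ e, f e (h (t e) - h (s e))) * ∏ x, φ x (h x)|) ∧
    ((∑' h : V → ℤ, (∏ e, f e (h (t e) - h (s e))) * ∏ x, φ x (h x) : ℝ) : ℂ) =
      ∫ θ : E → T, (∏ e, FS (f e) (-θ e)) * ∏ x, FS (φ x) (dvT s t θ x) ∂torusHaar E := by
  set M : ℝ := ∏ e, ∑' n, |f e n| with hM
  have hfb : ∀ e n, |f e n| ≤ ∑' n, |f e n| := fun e n =>
    (hf e).le_tsum n fun _ _ => abs_nonneg _
  have M0 : 0 ≤ M := Finset.prod_nonneg fun e _ => tsum_nonneg fun n => abs_nonneg _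
  have hpr := prod_tsum_all ℤ V (fun x n => (φ x n : ℂ)) (fun x => (hφ x).congr fun n => by
    rw [Complex.norm_real, Real.norm_eq_abs])
  have hpn : Summable fun h : V → ℤ => ∏ x, |φ x (h x)| := by
    refine hpr.1.congr fun h => ?_
    rw [norm_prod]
    refine Finset.prod_congr rfl fun x _ => ?_
    rw [Complex.norm_real, Real.norm_eq_abs]
  have hs : Summable fun h : V → ℤ => |(∏ e, f e (h (t e) - h (s e))) * ∏ x, φ x (h x)| := by
    refine Summable.of_nonneg_of_le (fun h => abs_nonneg _) (fun h => ?_) (hpn.mul_left M)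
    rw [abs_mul, Finset.abs_prod, Finset.abs_prod]
    refine mul_le_mul_of_nonneg_right ?_ (Finset.prod_nonneg fun x _ => abs_nonneg _)
    exact Finset.prod_le_prod (fun e _ => abs_nonneg _) fun e _ => hfb e _
  refine ⟨hs, ?_⟩
  -- each term as an integral
  have hterm : ∀ h : V → ℤ, (((∏ e, f e (h (t e) - h (s e))) * ∏ x, φ x (h x) : ℝ) : ℂ) =
      ∫ θ : E → T, (∏ e, FS (f e) (-θ e)) * ∏ x, ((φ x (h x) : ℂ) *
        (fourier (h x) (dvT s t θ x) : ℂ)) ∂torusHaar E := by
    intro h
    have e1 : ∀ θ : E → T, (∏ e, FS (f e) (-θ e)) * ∏ x, ((φ x (h x) : ℂ) *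
        (fourier (h x) (dvT s t θ x) : ℂ)) =
        (∏ x, (φ x (h x) : ℂ)) * ∏ e, (FS (f e) (-θ e) *
          (fourier (h (t e) - h (s e)) (θ e) : ℂ)) := by
      intro θ
      rw [Finset.prod_mul_distrib, parts, Finset.prod_mul_distrib]
      ring
    simp only [e1]
    rw [integral_const_mul]
    unfold torusHaar
    rw [integral_fintype_prod_eq_prod (𝕜 := ℂ) (fun e (x : T) => FS (f e) (-x) *
          (fourier (h (t e) - h (s e)) x : ℂ))]
    simp only [coef_FS (hf _)]
    push_cast
    ring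
  have hdc : ∀ x : V, Continuous fun θ : E → T => dvT s t θ x := by
    intro x
    unfold dvT
    refine continuous_finsetSum _ fun e _ => Continuous.sub ?_ ?_
    · split_ifs
      · exact continuous_apply e
      · exact continuous_const
    · split_ifs
      · exact continuous_apply e
      · exact continuous_const
  have hcont : ∀ h : V → ℤ, Continuous fun θ : E → T => (∏ e, FS (f e) (-θ e)) *
      ∏ x, ((φ x (h x) : ℂ) * (fourier (h x) (dvT s t θ x) : ℂ)) := by
    intro h
    refine Continuous.mul (continuous_finsetProd _ fun e _ =>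
      (continuous_FS (hf e)).comp (continuous_apply e).neg) (continuous_finsetProd _ fun x _ =>
      continuous_const.mul ((fourier (h x)).continuous.comp (hdc x)))
  have hnorm : ∀ (h : V → ℤ) (θ : E → T), ‖(∏ e, FS (f e) (-θ e)) *
      ∏ x, ((φ x (h x) : ℂ) * (fourier (h x) (dvT s t θ x) : ℂ))‖ ≤
      M * ∏ x, |φ x (h x)| := by
    intro h θ
    rw [norm_mul, norm_prod, norm_prod]
    refine mul_le_mul (Finset.prod_le_prod (fun e _ => norm_nonneg _) fun e _ =>
      norm_FS_le (hf e) _) (le_of_eq (Finset.prod_congr rfl fun x _ => ?_))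
      (Finset.prod_nonneg fun x _ => norm_nonneg _) M0
    rw [norm_mul, fourier_norm_one, mul_one, Complex.norm_real, Real.norm_eq_abs]
  have : IsProbabilityMeasure (torusHaar E) := by
    unfold torusHaar; infer_instance
  have hint : ∀ h : V → ℤ, Integrable (fun θ : E → T => (∏ e, FS (f e) (-θ e)) *
      ∏ x, ((φ x (h x) : ℂ) * (fourier (h x) (dvT s t θ x) : ℂ))) (torusHaar E) := fun h =>
    (hcont h).integrable_of_hasCompactSupport (HasCompactSupport.of_compactSpace _)
  have hsum := hasSum_integral_of_summable_integral_norm (μ := torusHaar E)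
    (F := fun (h : V → ℤ) (θ : E → T) => (∏ e, FS (f e) (-θ e)) *
      ∏ x, ((φ x (h x) : ℂ) * (fourier (h x) (dvT s t θ x) : ℂ))) hint ?_
  · rw [Complex.ofReal_tsum]
    rw [tsum_congr hterm, hsum.tsum_eq]
    refine integral_congr_ae (Eventually.of_forall fun θ => ?_)
    simp only
    rw [tsum_mul_left]
    congr 1
    have h3 := prod_tsum_all ℤ V (fun x n => (φ x n : ℂ) * (fourier n (dvT s t θ x) : ℂ))
      (fun x => summable_FS (hφ x) _)
    exact h3.2
  · refine Summable.of_nonneg_of_le (fun h => integral_nonneg fun θ => norm_nonneg _)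
      (fun h => ?_) (hpn.mul_left M)
    calc ∫ θ : E → T, ‖(∏ e, FS (f e) (-θ e)) *
          ∏ x, ((φ x (h x) : ℂ) * (fourier (h x) (dvT s t θ x) : ℂ))‖ ∂torusHaar E
        ≤ ∫ _θ : E → T, M * ∏ x, |φ x (h x)| ∂torusHaar E :=
          integral_mono (hint h).norm (integrable_const _) fun θ => hnorm h θ
      _ = M * ∏ x, |φ x (h x)| := by simp

/-- **domination of sums over heights** -/
theorem dom_sum {f g : E → ℤ → ℝ} {φ ψ : V → ℤ → ℝ} {C : E → ℝ} {D : V → ℝ}
    (hE : ∀ e, Dom (C e) (f e) (g e)) (hV : ∀ x, Dom (D x) (φ x) (ψ x)) :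
    |∑' h : V → ℤ, (∏ e, f e (h (t e) - h (s e))) * ∏ x, φ x (h x)| ≤
      ((∏ e, C e) * ∏ x, D x) *
        ∑' h : V → ℤ, (∏ e, g e (h (t e) - h (s e))) * ∏ x, ψ x (h x) := by
  have h1 := (rep_sum s t (fun e => (hE e).1) fun x => (hV x).1).2
  have h2 := (rep_sum s t (fun e => (hE e).2.1) fun x => (hV x).2.1).2
  have : IsProbabilityMeasure (torusHaar E) := by
    unfold torusHaar; infer_instance
  choose rg hrg hrf using fun e => (hE e).2.2
  choose rp hrp hrq using fun x => (hV x).2.2
  have hrg' : ∀ e x, FS (g e) x = (rg e x : ℂ) := fun e x => hrg e x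
  have hrp' : ∀ y x, FS (ψ y) x = (rp y x : ℂ) := fun y x => hrp y x
  have hrf' : ∀ e x, ‖FS (f e) x‖ ≤ C e * rg e x := fun e x => hrf e x
  have hrq' : ∀ y x, ‖FS (φ y) x‖ ≤ D y * rp y x := fun y x => hrq y x
  have h3 : ∑' h : V → ℤ, (∏ e, g e (h (t e) - h (s e))) * ∏ x, ψ x (h x) =
      ∫ θ : E → T, (∏ e, rg e (-θ e)) * ∏ x, rp x (dvT s t θ x) ∂torusHaar E := by
    have h4 : ∀ θ : E → T, (∏ e, FS (g e) (-θ e)) * ∏ x, FS (ψ x) (dvT s t θ x) =
        (((∏ e, rg e (-θ e)) * ∏ x, rp x (dvT s t θ x) : ℝ) : ℂ) := by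
      intro θ
      push_cast
      congr 1
      · exact Finset.prod_congr rfl fun e _ => hrg' e _
      · exact Finset.prod_congr rfl fun x _ => hrp' x _
    simp only [h4] at h2
    rw [integral_complex_ofReal] at h2
    exact_mod_cast h2
  have hdc : ∀ x : V, Continuous fun θ : E → T => dvT s t θ x := by
    intro x
    unfold dvT
    refine continuous_finsetSum _ fun e _ => Continuous.sub ?_ ?_
    · split_ifs
      · exact continuous_apply e
      · exact continuous_const
    · split_ifs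
      · exact continuous_apply e
      · exact continuous_const
  have hcg : Continuous fun θ : E → T => (∏ e, rg e (-θ e)) * ∏ x, rp x (dvT s t θ x) := by
    have hg : ∀ e, Continuous (rg e) := fun e => by
      have : rg e = fun x => (FS (g e) x).re := by
        funext x; rw [hrg' e x, Complex.ofReal_re]
      rw [this]
      exact Complex.continuous_re.comp (continuous_FS (hE e).2.1)
    have hp : ∀ y, Continuous (rp y) := fun y => by
      have : rp y = fun x => (FS (ψ y) x).re := by
        funext x; rw [hrp' y x, Complex.ofReal_re]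
      rw [this]
      exact Complex.continuous_re.comp (continuous_FS (hV y).2.1)
    exact Continuous.mul (continuous_finsetProd _ fun e _ => (hg e).comp (continuous_apply e).neg)
      (continuous_finsetProd _ fun x _ => (hp x).comp (hdc x))
  have hcf : Continuous fun θ : E → T => (∏ e, FS (f e) (-θ e)) *
      ∏ x, FS (φ x) (dvT s t θ x) :=
    Continuous.mul (continuous_finsetProd _ fun e _ =>
      (continuous_FS (hE e).1).comp (continuous_apply e).neg)
      (continuous_finsetProd _ fun x _ => (continuous_FS (hV x).1).comp (hdc x))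
  rw [h3, ← integral_const_mul]
  calc |∑' h : V → ℤ, (∏ e, f e (h (t e) - h (s e))) * ∏ x, φ x (h x)|
      = ‖((∑' h : V → ℤ, (∏ e, f e (h (t e) - h (s e))) * ∏ x, φ x (h x) : ℝ) : ℂ)‖ := by
        rw [Complex.norm_real, Real.norm_eq_abs]
    _ ≤ ∫ θ : E → T, ‖(∏ e, FS (f e) (-θ e)) * ∏ x, FS (φ x) (dvT s t θ x)‖ ∂torusHaar E := by
        rw [h1]; exact norm_integral_le_integral_norm _
    _ ≤ _ := by
        refine integral_mono_of_nonneg (Eventually.of_forall fun θ => norm_nonneg _)
          ((continuous_const.mul hcg).integrable_of_hasCompactSupport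
            (HasCompactSupport.of_compactSpace _)) (Eventually.of_forall fun θ => ?_)
        simp only
        rw [norm_mul, norm_prod, norm_prod]
        calc (∏ e, ‖FS (f e) (-θ e)‖) * ∏ x, ‖FS (φ x) (dvT s t θ x)‖
            ≤ (∏ e, C e * rg e (-θ e)) * ∏ x, D x * rp x (dvT s t θ x) := by
              refine mul_le_mul (Finset.prod_le_prod (fun e _ => norm_nonneg _) fun e _ =>
                hrf' e _) (Finset.prod_le_prod (fun e _ => norm_nonneg _) fun e _ =>
                hrq' e _) (Finset.prod_nonneg fun x _ => norm_nonneg _) ?_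
              exact Finset.prod_nonneg fun e _ => (norm_nonneg _).trans (hrf' e _)
          _ = _ := by
              rw [Finset.prod_mul_distrib, Finset.prod_mul_distrib]
              ring

end rep

/-! ### instances -/

lemma fourier_one_re (x : T) : (fourier 1 x : ℂ).re = cosT x := by
  have h := congrArg Complex.re (cosT_eq x)
  have hn : ‖(fourier 1 x : ℂ)‖ = 1 := fourier_norm_one 1 x
  have hinv : (fourier 1 x : ℂ)⁻¹ = (starRingEnd ℂ) (fourier 1 x : ℂ) := by
    rw [Complex.inv_def, Complex.normSq_eq_norm_sq, hn]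
    simp
  rw [hinv, Complex.ofReal_re] at h
  rw [h]
  simp

/-- Bessel weights with a real tilt -/
theorem dom_wI {b : ℝ} (hb : 0 ≤ b) (a : ℝ) :
    Dom (Real.exp (b * (Real.cosh a - 1))) (fun n => wI b n * Real.exp (a * n)) (wI b) := by
  have hz0 : ∀ x : T, (Real.exp a : ℂ) * (fourier 1 x : ℂ) ≠ 0 := fun x =>
    mul_ne_zero (by exact_mod_cast (Real.exp_pos a).ne') (fourier_one_ne x)
  have hterm : ∀ (x : T) (n : ℤ), (((wI b n * Real.exp (a * n) : ℝ)) : ℂ) * (fourier n x : ℂ) =
      (wI b n : ℂ) * ((Real.exp a : ℂ) * (fourier 1 x : ℂ)) ^ n := by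
    intro x n
    rw [mul_zpow, ← fourier_zpow]
    have : Real.exp (a * n) = Real.exp a ^ n := by
      rw [Real.exp_mul, Real.rpow_intCast]
    rw [this]
    push_cast
    ring
  refine ⟨?_, ?_, ?_⟩
  · have h := (laurent hb (hz0 0)).summable.norm
    refine h.congr fun n => ?_
    rw [← hterm, norm_mul, fourier_norm_one, mul_one, Complex.norm_real, Real.norm_eq_abs]
  · exact (summable_wI hb).abs
  · intro x
    refine ⟨gS b x, (hasSum_gS hb x).tsum_eq, ?_⟩
    rw [tsum_congr (hterm x), (laurent hb (hz0 x)).tsum_eq, Complex.norm_exp]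
    unfold gS
    rw [← Real.exp_add]
    refine Real.exp_le_exp.2 ?_
    have hn : ‖(fourier 1 x : ℂ)‖ = 1 := fourier_norm_one 1 x
    have hinv : (fourier 1 x : ℂ)⁻¹ = (starRingEnd ℂ) (fourier 1 x : ℂ) := by
      rw [Complex.inv_def, Complex.normSq_eq_norm_sq, hn]
      simp
    have hre : ((b : ℂ) * (((Real.exp a : ℂ) * (fourier 1 x : ℂ) +
        ((Real.exp a : ℂ) * (fourier 1 x : ℂ))⁻¹) / 2)).re = b * (Real.cosh a * cosT x) := by
      rw [mul_inv, hinv, ← Complex.ofReal_inv, ← Real.exp_neg, Complex.re_ofReal_mul]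
      congr 1
      have e2 : (((Real.exp a : ℂ) * (fourier 1 x : ℂ) +
        ((Real.exp (-a) : ℝ) : ℂ) * (starRingEnd ℂ) (fourier 1 x : ℂ)) / 2).re =
        (Real.exp a * (fourier 1 x : ℂ).re + Real.exp (-a) * (fourier 1 x : ℂ).re) / 2 := by
        rw [show ((2 : ℂ)) = ((2 : ℝ) : ℂ) by norm_num, Complex.div_ofReal_re, Complex.add_re,
          Complex.re_ofReal_mul, Complex.re_ofReal_mul, Complex.conj_re]
      rw [e2, fourier_one_re, Real.cosh_eq]
      ring
    rw [hre]
    have h1 : cosT x ≤ 1 := by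
      rw [← fourier_one_re, ← hn]
      exact Complex.re_le_norm _
    have h2 := Real.one_le_cosh a
    nlinarith [mul_nonneg hb (mul_nonneg (sub_nonneg.2 h2) (sub_nonneg.2 h1))]

/-- the pin at `0` -/
theorem dom_zero : Dom 1 (fun n => if n = 0 then 1 else 0) (fun n => if n = 0 then 1 else 0) := by
  have hs : Summable fun n : ℤ => |(if n = 0 then (1 : ℝ) else 0)| := by
    refine (hasSum_ite_eq (0 : ℤ) (1 : ℝ)).summable.congr fun n => ?_
    split_ifs <;> simp
  refine ⟨hs, hs, fun x => ⟨1, ?_, ?_⟩⟩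
  · rw [tsum_eq_single 0]
    · simp
    · intro n hn
      simp [hn]
  · rw [tsum_eq_single 0]
    · simp
    · intro n hn
      simp [hn]

lemma summable_gauss_lin {m : ℝ} (hm : 0 < m) (ρ : ℝ) :
    Summable fun n : ℤ => Real.exp (-(m / 2) * (n : ℝ) ^ 2) * Real.exp (ρ * n) := by
  have h := (Complex.tsum_exp_neg_quadratic (a := ((m / (2 * Real.pi) : ℝ) : ℂ)) (by
    rw [Complex.ofReal_re]; positivity) ((ρ / (2 * Real.pi) : ℝ) : ℂ))
  have hs : Summable fun n : ℤ => Real.exp (-(m / 4) * ((n : ℤ) : ℝ) ^ 2) := by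
    have h1 : Summable fun n : ℤ => Real.exp (-(m / 4)) ^ (n.natAbs) := by
      have hlt : Real.exp (-(m / 4)) < 1 := Real.exp_lt_one_iff.2 (by linarith)
      refine Summable.of_nat_of_neg ?_ ?_
      · simpa using summable_geometric_of_lt_one (Real.exp_pos _).le hlt
      · simpa using summable_geometric_of_lt_one (Real.exp_pos _).le hlt
    refine Summable.of_nonneg_of_le (fun n => (Real.exp_pos _).le) (fun n => ?_) h1
    rw [← Real.exp_nat_mul]
    refine Real.exp_le_exp.2 ?_
    have hk : ((n.natAbs : ℕ) : ℝ) ≤ (n : ℝ) ^ 2 := by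
      have h3 : ((n.natAbs : ℕ) : ℝ) ≤ ((n.natAbs : ℕ) : ℝ) ^ 2 := by
        have := Nat.le_self_pow (n := 2) (by norm_num) n.natAbs
        exact_mod_cast this
      have h4 : ((n.natAbs : ℕ) : ℝ) ^ 2 = (n : ℝ) ^ 2 := by
        rw [Nat.cast_natAbs, Int.cast_abs, sq_abs]
      linarith
    nlinarith
  refine Summable.of_nonneg_of_le (fun n => by positivity) (fun n => ?_)
    (hs.mul_left (Real.exp (ρ ^ 2 / m)))
  rw [← Real.exp_add, ← Real.exp_add]
  refine Real.exp_le_exp.2 ?_
  have h5 : ρ * n ≤ ρ ^ 2 / m + m / 4 * (n : ℝ) ^ 2 := by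
    have h6 : ρ ^ 2 / m + m / 4 * (n : ℝ) ^ 2 - ρ * n = (ρ / m - n / 2) ^ 2 * m := by
      field_simp
      ring
    nlinarith [mul_nonneg (sq_nonneg (ρ / m - n / 2)) hm.le]
  linarith

/-- Gaussian site weights with a real tilt -/
theorem dom_gauss {m : ℝ} (hm : 0 < m) (ρ : ℝ) :
    Dom (Real.exp (ρ ^ 2 / (2 * m))) (fun n => Real.exp (-(m / 2) * (n : ℝ) ^ 2) * Real.exp (ρ * n))
      (fun n => Real.exp (-(m / 2) * (n : ℝ) ^ 2)) := by
  have hs1 := summable_gauss_lin hm ρ
  have hs0 : Summable fun n : ℤ => Real.exp (-(m / 2) * (n : ℝ) ^ 2) := by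
    refine (summable_gauss_lin hm 0).congr fun n => ?_
    rw [zero_mul, Real.exp_zero, mul_one]
  -- the Poisson formula
  have key : ∀ (ρ θ : ℝ), (∑' n : ℤ, ((Real.exp (-(m / 2) * (n : ℝ) ^ 2) * Real.exp (ρ * n) : ℝ) : ℂ) *
      (fourier n ((θ : ℝ) : T) : ℂ)) = 1 / (((m / (2 * Real.pi) : ℝ) : ℂ)) ^ (1 / 2 : ℂ) *
        ∑' n : ℤ, Complex.exp (-Real.pi / ((m / (2 * Real.pi) : ℝ) : ℂ) *
          (n + Complex.I * ((ρ + Complex.I * θ) / (2 * Real.pi))) ^ 2) := by
    intro ρ θ
    have h := (Complex.tsum_exp_neg_quadratic (a := ((m / (2 * Real.pi) : ℝ) : ℂ)) (by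
      rw [Complex.ofReal_re]; positivity) ((ρ + Complex.I * θ) / (2 * Real.pi)))
    rw [← h]
    refine tsum_congr fun n => ?_
    rw [fourier_coe, Complex.ofReal_mul, Complex.ofReal_exp, Complex.ofReal_exp, ← Complex.exp_add,
      ← Complex.exp_add]
    congr 1
    have hpi : (Real.pi : ℂ) ≠ 0 := by exact_mod_cast Real.pi_ne_zero
    push_cast
    field_simp
    ring
  refine ⟨hs1.congr fun n => (abs_of_pos (by positivity)).symm, hs0.congr fun n =>
    (abs_of_pos (by positivity)).symm, fun x => ?_⟩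
  induction x using QuotientAddGroup.induction_on with
  | H θ =>
    have k0 := key 0 θ
    have k1 := key ρ θ
    simp only [zero_mul, Real.exp_zero, mul_one] at k0
    set c : ℝ := (m / (2 * Real.pi)) ^ (1 / 2 : ℝ) with hc
    have hc0 : 0 < c := by positivity
    have hcc : (((m / (2 * Real.pi) : ℝ) : ℂ)) ^ (1 / 2 : ℂ) = (c : ℂ) := by
      rw [hc, Complex.ofReal_cpow (by positivity)]
      norm_num
    rw [hcc] at k0 k1
    have hpi := Real.pi_pos
    set u : ℤ → ℝ := fun n => Real.exp (-(2 * Real.pi ^ 2 / m) * ((n : ℝ) - θ / (2 * Real.pi)) ^ 2)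
      with hu
    have e0 : ∀ n : ℤ, Complex.exp (-Real.pi / ((m / (2 * Real.pi) : ℝ) : ℂ) *
          (n + Complex.I * (((0 : ℝ) + Complex.I * θ) / (2 * Real.pi))) ^ 2) = (u n : ℂ) := by
      intro n
      rw [hu, Complex.ofReal_exp]
      congr 1
      have hpi' : (Real.pi : ℂ) ≠ 0 := by exact_mod_cast Real.pi_ne_zero
      have hm' : (m : ℂ) ≠ 0 := by exact_mod_cast hm.ne'
      push_cast
      field_simp
      ring_nf
      simp only [Complex.I_sq, show Complex.I ^ 4 = 1 by
          rw [show (4 : ℕ) = 2 * 2 by norm_num, pow_mul, Complex.I_sq]; norm_num]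
      ring
    have e1 : ∀ n : ℤ, ‖Complex.exp (-Real.pi / ((m / (2 * Real.pi) : ℝ) : ℂ) *
          (n + Complex.I * ((ρ + Complex.I * θ) / (2 * Real.pi))) ^ 2)‖ =
          Real.exp (ρ ^ 2 / (2 * m)) * u n := by
      intro n
      rw [Complex.norm_exp, hu, ← Real.exp_add]
      congr 1
      have e2 : (-Real.pi / ((m / (2 * Real.pi) : ℝ) : ℂ) *
          (n + Complex.I * ((ρ + Complex.I * θ) / (2 * Real.pi))) ^ 2 : ℂ) =
          ((ρ ^ 2 / (2 * m) + -(2 * Real.pi ^ 2 / m) * ((n : ℝ) - θ / (2 * Real.pi)) ^ 2 : ℝ) : ℂ) +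
          ((-(2 * Real.pi / m) * ρ * (n - θ / (2 * Real.pi)) : ℝ) : ℂ) * Complex.I := by
        have hpi' : (Real.pi : ℂ) ≠ 0 := by exact_mod_cast Real.pi_ne_zero
        have hm' : (m : ℂ) ≠ 0 := by exact_mod_cast hm.ne'
        push_cast
        field_simp
        ring_nf
        simp only [Complex.I_sq, show Complex.I ^ 3 = -Complex.I by
          rw [pow_succ, Complex.I_sq]; ring, show Complex.I ^ 4 = 1 by
          rw [show (4 : ℕ) = 2 * 2 by norm_num, pow_mul, Complex.I_sq]; norm_num]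
        ring
      rw [e2, Complex.add_re, Complex.ofReal_re, Complex.re_ofReal_mul, Complex.I_re, mul_zero,
        add_zero]
    have hsu : Summable u := by
      have h := (summable_gauss_lin (m := 4 * Real.pi ^ 2 / m) (by positivity)
        (4 * Real.pi ^ 2 / m * (θ / (2 * Real.pi)))).mul_left
        (Real.exp (-(2 * Real.pi ^ 2 / m) * (θ / (2 * Real.pi)) ^ 2))
      refine h.congr fun n => ?_
      rw [hu, ← Real.exp_add, ← Real.exp_add]
      simp only
      congr 1
      ring
    refine ⟨1 / c * ∑' n, u n, ?_, ?_⟩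
    · rw [show (QuotientAddGroup.mk θ : T) = ((θ : ℝ) : T) from rfl, k0, tsum_congr e0,
        ← Complex.ofReal_tsum]
      push_cast
      ring
    · rw [show (QuotientAddGroup.mk θ : T) = ((θ : ℝ) : T) from rfl, k1, norm_mul]
      have h1 : ‖∑' n : ℤ, Complex.exp (-Real.pi / ((m / (2 * Real.pi) : ℝ) : ℂ) *
          (n + Complex.I * ((ρ + Complex.I * θ) / (2 * Real.pi))) ^ 2)‖ ≤
          Real.exp (ρ ^ 2 / (2 * m)) * ∑' n, u n := by
        refine (norm_tsum_le_tsum_norm ?_).trans ?_
        · simp only [e1]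
          exact hsu.mul_left _
        · simp only [e1]
          rw [tsum_mul_left]
      have h2 : ‖(1 / (c : ℂ))‖ = 1 / c := by
        rw [norm_div, norm_one, Complex.norm_real, Real.norm_eq_abs, abs_of_pos hc0]
      rw [h2]
      calc 1 / c * _ ≤ 1 / c * (Real.exp (ρ ^ 2 / (2 * m)) * ∑' n, u n) :=
            mul_le_mul_of_nonneg_left h1 (by positivity)
        _ = _ := by ring

/-! ### the bare domination -/

section bare

variable {V E : Type} [Fintype V] [DecidableEq V] [Fintype E] (s t : E → V)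

/-- the site weight: pinned at `0` on `A`, Gaussian mass off `A` -/
noncomputable def sA (A : Finset V) (m : V → ℝ) (x : V) (n : ℤ) : ℝ :=
  if x ∈ A then (if n = 0 then 1 else 0) else Real.exp (-(m x / 2) * (n : ℝ) ^ 2)

omit [Fintype V] in
lemma sA_nonneg (A : Finset V) (m : V → ℝ) (x : V) (n : ℤ) : 0 ≤ sA A m x n := by
  unfold sA
  split_ifs
  · exact zero_le_one
  · exact le_rfl
  · exact (Real.exp_pos _).le

omit [Fintype V] in
lemma dom_sA (A : Finset V) {m : V → ℝ} (ρ : V → ℝ) (x : V) (hm : x ∉ A → 0 < m x) :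
    Dom (if x ∈ A then 1 else Real.exp (ρ x ^ 2 / (2 * m x)))
      (fun n => sA A m x n * Real.exp (ρ x * n)) (sA A m x) := by
  by_cases h : x ∈ A
  · rw [if_pos h]
    have e1 : (fun n : ℤ => sA A m x n * Real.exp (ρ x * n)) =
        fun n : ℤ => if n = 0 then (1 : ℝ) else 0 := by
      funext n
      unfold sA
      rw [if_pos h]
      split_ifs with hn
      · rw [hn]; simp
      · rw [zero_mul]
    have e2 : sA A m x = fun n : ℤ => if n = 0 then (1 : ℝ) else 0 := by
      funext n
      unfold sA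
      rw [if_pos h]
    rw [e1, e2]
    exact dom_zero
  · rw [if_neg h]
    have e1 : (fun n : ℤ => sA A m x n * Real.exp (ρ x * n)) =
        fun n : ℤ => Real.exp (-(m x / 2) * (n : ℝ) ^ 2) * Real.exp (ρ x * n) := by
      funext n
      unfold sA
      rw [if_neg h]
    have e2 : sA A m x = fun n : ℤ => Real.exp (-(m x / 2) * (n : ℝ) ^ 2) := by
      funext n
      unfold sA
      rw [if_neg h]
    rw [e1, e2]
    exact dom_gauss (hm h) (ρ x)

/-- **bare domination with masses and a pinned set** -/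
theorem bare_le {c : E → ℝ} (hc : ∀ e, 0 ≤ c e) (A : Finset V) {m : V → ℝ}
    (hm : ∀ x, x ∉ A → 0 < m x) (a : E → ℝ) (ρ : V → ℝ) :
    (Summable fun h : V → ℤ => (∏ e, wI (c e) (h (t e) - h (s e))) * (∏ x, sA A m x (h x)) *
        Real.exp (∑ e, a e * ((h (t e) : ℝ) - h (s e)) + ∑ x, ρ x * h x)) ∧
    ∑' h : V → ℤ, (∏ e, wI (c e) (h (t e) - h (s e))) * (∏ x, sA A m x (h x)) *
        Real.exp (∑ e, a e * ((h (t e) : ℝ) - h (s e)) + ∑ x, ρ x * h x) ≤
      Real.exp (∑ e, c e * (Real.cosh (a e) - 1) + ∑ x ∈ Aᶜ, ρ x ^ 2 / (2 * m x)) *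
        ∑' h : V → ℤ, (∏ e, wI (c e) (h (t e) - h (s e))) * ∏ x, sA A m x (h x) := by
  have e1 : ∀ h : V → ℤ, (∏ e, wI (c e) (h (t e) - h (s e))) * (∏ x, sA A m x (h x)) *
        Real.exp (∑ e, a e * ((h (t e) : ℝ) - h (s e)) + ∑ x, ρ x * h x) =
      (∏ e, (fun n : ℤ => wI (c e) n * Real.exp (a e * n)) (h (t e) - h (s e))) *
        ∏ x, (fun n : ℤ => sA A m x n * Real.exp (ρ x * n)) (h x) := by
    intro h
    rw [Real.exp_add, Real.exp_sum, Real.exp_sum]
    simp only
    rw [Finset.prod_mul_distrib, Finset.prod_mul_distrib]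
    have : ∀ e, Real.exp (a e * ((h (t e) - h (s e) : ℤ) : ℝ)) =
        Real.exp (a e * ((h (t e) : ℝ) - h (s e))) := fun e => by push_cast; rfl
    simp only [this]
    ring
  have hE : ∀ e, Dom (Real.exp (c e * (Real.cosh (a e) - 1)))
      (fun n => wI (c e) n * Real.exp (a e * n)) (wI (c e)) := fun e => dom_wI (hc e) (a e)
  have hV : ∀ x, Dom (if x ∈ A then 1 else Real.exp (ρ x ^ 2 / (2 * m x)))
      (fun n => sA A m x n * Real.exp (ρ x * n)) (sA A m x) := fun x => dom_sA A ρ x (hm x)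
  have h1 := rep_sum s t (fun e => (hE e).1) fun x => (hV x).1
  have h2 := dom_sum s t hE hV
  simp only [← e1] at h1 h2
  refine ⟨h1.1.of_abs, (le_abs_self _).trans (h2.trans (le_of_eq ?_))⟩
  congr 1
  rw [Real.exp_add, Real.exp_sum, Real.exp_sum]
  congr 1
  rw [← Finset.prod_compl_mul_prod A]
  rw [Finset.prod_eq_one (s := A) (fun x hx => if_pos hx), mul_one]
  refine Finset.prod_congr rfl fun x hx => ?_
  rw [if_neg (Finset.mem_compl.1 hx)]

end bare

end Vale.Agent.P159.TM.H77
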