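import Vale.Agent.P159.TM.H77.Tail
import Vale.Agent.P159.TM.H504.Flow
import Vale.Agent.P159.TM.H312.Fat

/-!
Row A1: the tail of the rest of a cluster which crosses an annulus, on grid graphs (torus or free
box), in the letters of H312.
-/

open Finset
open scoped ENNReal

namespace Vale.Agent.P159.TM.H77

open Vale.Agent.P159 Vale.Agent.P159.H353
open Vale.Agent.P159.TM.H60 Vale.Agent.P159.TM.H504 Vale.Agent.P159.TM.H312
open Vale.Agent.P159.TM.H426

lemma cosh_sub_one_le {x : ℝ} (hx : |x| ≤ 1) : Real.cosh x - 1 ≤ x ^ 2 := by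
  have h1 := Real.cosh_le_exp_half_sq x
  have hx2 : x ^ 2 ≤ 1 := by
    rw [← sq_abs]
    nlinarith [abs_nonneg x]
  have h2 := Real.abs_exp_sub_one_le (x := x ^ 2 / 2) (by
    rw [abs_of_nonneg (by positivity)]
    linarith)
  rw [abs_of_nonneg (by positivity : (0 : ℝ) ≤ x ^ 2 / 2)] at h2
  have h3 := (abs_le.1 h2).2
  linarith

section transfer

variable {ι E : Type*} [Fintype E] [DecidableEq E]

/-- a flow indexed by `I`, carried to the edges by `j` -/
noncomputable def tr (I : Finset ι) (j : ι → E) (c : ι → ℝ) (e : E) : ℝ :=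
  ∑ i ∈ I, if j i = e then c i else 0

lemma sum_tr (I : Finset ι) (j : ι → E) (c : ι → ℝ) (g : E → ℝ) :
    ∑ e, tr I j c e * g e = ∑ i ∈ I, c i * g (j i) := by
  unfold tr
  simp only [Finset.sum_mul, ite_mul, zero_mul]
  rw [Finset.sum_comm]
  refine Finset.sum_congr rfl fun i _ => ?_
  rw [Finset.sum_ite_eq]
  simp

omit [Fintype E] in
lemma tr_cases {I : Finset ι} {j : ι → E} (hj : Set.InjOn j I) (c : ι → ℝ) (e : E) :
    (tr I j c e = 0 ∧ ∀ i ∈ I, j i ≠ e) ∨ ∃ i ∈ I, j i = e ∧ tr I j c e = c i ∧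
      ∀ i' ∈ I, j i' = e → i' = i := by
  by_cases h : ∃ i ∈ I, j i = e
  · right
    obtain ⟨i, hi, he⟩ := h
    refine ⟨i, hi, he, ?_, fun i' hi' he' => hj hi' hi (he'.trans he.symm)⟩
    unfold tr
    rw [Finset.sum_eq_single_of_mem i hi, if_pos he]
    intro i' hi' hne
    rw [if_neg]
    intro he'
    exact hne (hj hi' hi (he'.trans he.symm))
  · left
    push Not at h
    refine ⟨?_, h⟩
    unfold tr
    exact Finset.sum_eq_zero fun i hi => if_neg (h i hi)

omit [Fintype E] in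
lemma abs_tr_le {I : Finset ι} {j : ι → E} (hj : Set.InjOn j I) {c : ι → ℝ} {M : ℝ} (hM : 0 ≤ M)
    (hc : ∀ i ∈ I, |c i| ≤ M) (e : E) : |tr I j c e| ≤ M := by
  rcases tr_cases hj c e with h | ⟨i, hi, _, h, _⟩
  · rw [h.1, abs_zero]; exact hM
  · rw [h]; exact hc i hi

lemma sum_tr_sq {I : Finset ι} {j : ι → E} (hj : Set.InjOn j I) (c : ι → ℝ) :
    ∑ e, tr I j c e ^ 2 = ∑ i ∈ I, c i ^ 2 := by
  have h1 : ∀ e, tr I j c e ^ 2 = tr I j (fun i => c i ^ 2) e := by
    intro e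
    rcases tr_cases hj c e with h | ⟨i, hi, he, h, hu⟩
    · rw [h.1]
      unfold tr
      rw [Finset.sum_eq_zero fun i hi => if_neg (h.2 i hi)]
      simp
    · rw [h]
      unfold tr
      rw [Finset.sum_eq_single_of_mem i hi, if_pos he]
      intro i' hi' hne
      rw [if_neg]
      intro he'
      exact hne (hu i' hi' he')
  have h2 := sum_tr I j (fun i => c i ^ 2) (fun _ => 1)
  simp only [mul_one] at h2
  rw [← h2]
  exact Finset.sum_congr rfl fun e _ => h1 e

end transfer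

/-! ### grid charts -/

/-- the chart of the torus -/
def pt (n : ℕ) (z : ℤ × ℤ) : ZMod n × ZMod n := ((z.1 : ZMod n), (z.2 : ZMod n))

/-- horizontal edges of the box -/
noncomputable def Hz (p q : ℤ) (N : ℕ) : Finset (ℤ × ℤ) :=
  Ico p (p + N - 1) ×ˢ Ico q (q + N)

/-- vertical edges of the box -/
noncomputable def Vz (p q : ℤ) (N : ℕ) : Finset (ℤ × ℤ) :=
  Ico p (p + N) ×ˢ Ico q (q + N - 1)

lemma cast_inj_Ico {n : ℕ} {p x y : ℤ} (N : ℕ) (hN : N ≤ n) (hx : x ∈ Ico p (p + N))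
    (hy : y ∈ Ico p (p + N)) (h : (x : ZMod n) = (y : ZMod n)) : x = y := by
  rw [mem_Ico] at hx hy
  have h1 : (n : ℤ) ∣ y - x := (ZMod.intCast_eq_intCast_iff_dvd_sub _ _ _).1 h
  have h2 : |y - x| < n := by
    rw [abs_lt]
    constructor <;> omega
  have h3 := Int.eq_zero_of_abs_lt_dvd h1 h2
  omega

lemma pt_inj {n : ℕ} {p q : ℤ} {N : ℕ} (hN : N ≤ n) : Set.InjOn (pt n) (Bx p q N) := by
  intro z hz z' hz' h
  rw [mem_coe, Bx, mem_product] at hz hz'
  have h1 := congrArg Prod.fst h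
  have h2 := congrArg Prod.snd h
  exact Prod.ext (cast_inj_Ico N hN hz.1 hz'.1 h1) (cast_inj_Ico N hN hz.2 hz'.2 h2)

/-- the edges of a box of the grid are edges of the graph -/
structure Grid {n : ℕ} {E : Type} (s t : E → ZMod n × ZMod n) (p q : ℤ) (N : ℕ)
    (j : (ℤ × ℤ) × Bool → E) : Prop where
  /-- horizontal edges -/
  hor : ∀ z ∈ Hz p q N, s (j (z, false)) = pt n z ∧ t (j (z, false)) = pt n (z.1 + 1, z.2)
  /-- vertical edges -/
  ver : ∀ z ∈ Vz p q N, s (j (z, true)) = pt n z ∧ t (j (z, true)) = pt n (z.1, z.2 + 1)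

/-- the index set of the edges of the box -/
noncomputable def IB (p q : ℤ) (N : ℕ) : Finset ((ℤ × ℤ) × Bool) :=
  (Hz p q N ×ˢ {false}) ∪ (Vz p q N ×ˢ {true})

lemma Grid.injOn {n : ℕ} {E : Type} {s t : E → ZMod n × ZMod n} {p q : ℤ} {N : ℕ}
    {j : (ℤ × ℤ) × Bool → E} (G : Grid s t p q N j) (hN : N ≤ n) :
    Set.InjOn j (IB p q N) := by
  have hsub : ∀ z, z ∈ Hz p q N → z ∈ Bx p q N ∧ (z.1 + 1, z.2) ∈ Bx p q N := by
    intro z hz
    rw [Hz, mem_product, mem_Ico, mem_Ico] at hz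
    simp only [Bx, mem_product, mem_Ico]
    omega
  have hsub' : ∀ z, z ∈ Vz p q N → z ∈ Bx p q N ∧ (z.1, z.2 + 1) ∈ Bx p q N := by
    intro z hz
    rw [Vz, mem_product, mem_Ico, mem_Ico] at hz
    simp only [Bx, mem_product, mem_Ico]
    omega
  rintro ⟨z, c⟩ hz ⟨z', c'⟩ hz' h
  rw [mem_coe, IB, mem_union, mem_product, mem_product] at hz hz'
  simp only [mem_singleton] at hz hz'
  rcases hz with ⟨hz, rfl⟩ | ⟨hz, rfl⟩ <;> rcases hz' with ⟨hz', rfl⟩ | ⟨hz', rfl⟩
  · have h1 := congrArg s h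
    rw [(G.hor z hz).1, (G.hor z' hz').1] at h1
    rw [pt_inj hN (hsub z hz).1 (hsub z' hz').1 h1]
  · exfalso
    have h1 := congrArg s h
    have h2 := congrArg t h
    rw [(G.hor z hz).1, (G.ver z' hz').1] at h1
    rw [(G.hor z hz).2, (G.ver z' hz').2] at h2
    have h3 := pt_inj hN (hsub z hz).1 (hsub' z' hz').1 h1
    have h4 := pt_inj hN (hsub z hz).2 (hsub' z' hz').2 h2
    rw [h3] at h4
    have := congrArg Prod.fst h4
    simp at this
  · exfalso
    have h1 := congrArg s h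
    have h2 := congrArg t h
    rw [(G.ver z hz).1, (G.hor z' hz').1] at h1
    rw [(G.ver z hz).2, (G.hor z' hz').2] at h2
    have h3 := pt_inj hN (hsub' z hz).1 (hsub z' hz').1 h1
    have h4 := pt_inj hN (hsub' z hz).2 (hsub z' hz').2 h2
    rw [h3] at h4
    have := congrArg Prod.fst h4
    simp at this
  · have h1 := congrArg s h
    rw [(G.ver z hz).1, (G.ver z' hz').1] at h1
    rw [pt_inj hN (hsub' z hz).1 (hsub' z' hz').1 h1]

lemma sum_IB (p q : ℤ) (N : ℕ) (f : (ℤ × ℤ) × Bool → ℝ) :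
    ∑ i ∈ IB p q N, f i = ∑ z ∈ Hz p q N, f (z, false) + ∑ z ∈ Vz p q N, f (z, true) := by
  unfold IB
  rw [Finset.sum_union, Finset.sum_product, Finset.sum_product]
  · simp
  · rw [Finset.disjoint_left]
    rintro ⟨z, c⟩ h1 h2
    rw [mem_product, mem_singleton] at h1 h2
    simp only at h1 h2
    rw [h1.2] at h2
    exact absurd h2.2 (by decide)

/-- **a flow in the box, carried to the graph** -/
theorem grid_flow {n : ℕ} {E : Type} [Fintype E] [DecidableEq E] {s t : E → ZMod n × ZMod n}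
    {p q : ℤ} {N : ℕ} {j : (ℤ × ℤ) × Bool → E} (G : Grid s t p q N j) (hN : N ≤ n)
    (a b : ℤ × ℤ → ℝ) {M : ℝ} (hM : 0 ≤ M) (ha : ∀ z, |a z| ≤ M) (hb : ∀ z, |b z| ≤ M) :
    ∃ α : E → ℝ, (∀ u : ZMod n × ZMod n → ℝ, ∑ e, α e * (u (t e) - u (s e)) =
        Dv p q N a b fun z => u (pt n z)) ∧ (∀ e, |α e| ≤ M) ∧
      ∑ e, α e ^ 2 = Fe p q N a b := by
  have hj := G.injOn hN
  refine ⟨tr (IB p q N) j fun i => if i.2 then b i.1 else a i.1, fun u => ?_, fun e => ?_, ?_⟩
  · rw [sum_tr, sum_IB]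
    unfold Dv
    congr 1
    · rw [← Finset.sum_product']
      refine Finset.sum_congr rfl fun z hz => ?_
      rw [(G.hor z hz).1, (G.hor z hz).2]
      simp
    · rw [← Finset.sum_product']
      refine Finset.sum_congr rfl fun z hz => ?_
      rw [(G.ver z hz).1, (G.ver z hz).2]
      simp
  · refine abs_tr_le hj hM (fun i _ => ?_) e
    split_ifs
    · exact hb _
    · exact ha _
  · rw [sum_tr_sq hj, sum_IB]
    unfold Fe
    congr 1
    · rw [← Finset.sum_product']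
      exact Finset.sum_congr rfl fun z hz => by simp
    · rw [← Finset.sum_product']
      exact Finset.sum_congr rfl fun z hz => by simp

/-! ### exit of a cluster from a box -/

/-- every edge is a unit step -/
def Steps {n : ℕ} {E : Type} (s t : E → ZMod n × ZMod n) : Prop :=
  ∀ e, t e = s e + (1, 0) ∨ t e = s e + (0, 1)

lemma pt_add (n : ℕ) (z δ : ℤ × ℤ) : pt n (z + δ) = pt n z + pt n δ := by
  unfold pt
  ext <;> simp

/-- a path of a cluster, followed in the chart until it leaves the box -/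
theorem exit_path {n : ℕ} {E : Type} {s t : E → ZMod n × ZMod n} (hst : Steps s t)
    {p q : ℤ} {N : ℕ} {om : Finset E} {c0 : ℤ × ℤ} (h0 : c0 ∈ Bx p q N)
    {w : ZMod n × ZMod n} (hw : Conn s t om (pt n c0) w) :
    ∃ (c : ℕ → ℤ × ℤ) (m : ℕ), c 0 = c0 ∧ (∀ i ≤ m, c i ∈ Bx p q N) ∧
      (∀ i ≤ m, Conn s t om (pt n c0) (pt n (c i))) ∧
      (∀ i < m, |(c (i + 1)).1 - (c i).1| ≤ 1 ∧ |(c (i + 1)).2 - (c i).2| ≤ 1) ∧
      (pt n (c m) = w ∨ ∃ δ : ℤ × ℤ, |δ.1| ≤ 1 ∧ |δ.2| ≤ 1 ∧ c m + δ ∉ Bx p q N) := by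
  induction hw with
  | refl =>
    refine ⟨fun _ => c0, 0, rfl, fun i _ => h0, fun i _ => Conn.refl _, fun i hi => ?_, Or.inl rfl⟩
    omega
  | @tail y z hy hyz ih =>
    obtain ⟨c, m, hc0, hc1, hc2, hc3, hc4⟩ := ih
    rcases hc4 with hc4 | hc4
    · -- next step
      have hstep : ∃ δ : ℤ × ℤ, |δ.1| ≤ 1 ∧ |δ.2| ≤ 1 ∧ pt n (c m + δ) = z := by
        obtain ⟨e, _, he⟩ := hyz
        have key : ∀ δ : ℤ × ℤ, pt n (c m + δ) = y + pt n δ := fun δ => by rw [pt_add, hc4]
        rcases he with ⟨h1, h2⟩ | ⟨h1, h2⟩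
        · rcases hst e with h3 | h3
          · refine ⟨(1, 0), by simp, by simp, ?_⟩
            rw [key, ← h2, h3, h1]
            simp [pt]
          · refine ⟨(0, 1), by simp, by simp, ?_⟩
            rw [key, ← h2, h3, h1]
            simp [pt]
        · rcases hst e with h3 | h3
          · refine ⟨(-1, 0), by simp, by simp, ?_⟩
            rw [key, ← h2, h3, h1]
            ext <;> simp [pt]
          · refine ⟨(0, -1), by simp, by simp, ?_⟩
            rw [key, ← h2, h3, h1]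
            ext <;> simp [pt]
      obtain ⟨δ, hd1, hd2, hd3⟩ := hstep
      by_cases hin : c m + δ ∈ Bx p q N
      · refine ⟨fun i => if i ≤ m then c i else c m + δ, m + 1, ?_, fun i hi => ?_, fun i hi => ?_,
          fun i hi => ?_, ?_⟩
        · simp [hc0]
        · beta_reduce
          split_ifs with h
          · exact hc1 i h
          · exact hin
        · beta_reduce
          split_ifs with h
          · exact hc2 i h
          · rw [hd3]
            exact Relation.ReflTransGen.tail hy hyz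
        · beta_reduce
          rcases Nat.lt_or_ge i m with h | h
          · rw [if_pos (by omega), if_pos h.le]
            exact hc3 i h
          · have him : i = m := by omega
            subst him
            rw [if_neg (by omega), if_pos le_rfl]
            simpa using ⟨hd1, hd2⟩
        · left
          beta_reduce
          rw [if_neg (by omega)]
          exact hd3
      · exact ⟨c, m, hc0, hc1, hc2, hc3, Or.inr ⟨δ, hd1, hd2, hin⟩⟩
    · exact ⟨c, m, hc0, hc1, hc2, hc3, Or.inr hc4⟩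

/-- **Tail of the rest of a cluster which goes from the inner box to the outside of the box.**
`N` side of the box, `ℓ` thickness of its boundary layer; `τ ≤ ℓ`. -/
theorem grid_tail {n : ℕ} [NeZero n] {E : Type} [Fintype E] [DecidableEq E]
    {s t : E → ZMod n × ZMod n} (hst : Steps s t)
    {p q : ℤ} {N ℓ : ℕ} {j : (ℤ × ℤ) × Bool → E} (G : Grid s t p q N j) (hN : N ≤ n)
    (hl : 1 ≤ ℓ) {b : E → ℝ} {bb : ℝ} (hb : ∀ e, 0 ≤ b e) (hbb : ∀ e, b e ≤ bb)
    {m : ZMod n × ZMod n → ℝ} (hm : ∀ v, 0 < m v) {A : Finset (ZMod n × ZMod n)}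
    {u : ZMod n × ZMod n} {om : Finset E} (hA : clus s t om u = A)
    {c0 : ℤ × ℤ} (hc0 : c0 ∈ Ico (p + ℓ) (p + N - ℓ) ×ˢ Ico (q + ℓ) (q + N - ℓ))
    (hcA : pt n c0 ∈ A) {w : ZMod n × ZMod n} (hwA : w ∈ A) (hwB : w ∉ (Bx p q N).image (pt n))
    {k : ZMod n × ZMod n → ℤ} (hk : ∀ x ∈ A, 0 < k x) {τ H : ℝ} (hτ : 0 ≤ τ) (hτl : τ ≤ ℓ) :
    ∑' g, RW s t (fun e => wI (b e)) (fun x n => Real.exp (-(m x / 2) * (n : ℝ) ^ 2)) A
        (glue A k g) * (if H * (N : ℝ) ^ 2 ≤ ∑ x ∈ (Bx p q N).image (pt n) \ A,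
          (glue A k g x : ℝ) then 1 else 0) ≤
      ENNReal.ofReal (Real.exp (bb * (τ ^ 2 * (N / ℓ + 1)) - τ * H)) *
        ∑' g, RW s t (fun e => wI (b e)) (fun x n => Real.exp (-(m x / 2) * (n : ℝ) ^ 2)) A
          (glue A k g) := by
  classical
  set B := (Bx p q N).image (pt n) with hB
  have hl0 : (0 : ℝ) < ℓ := by exact_mod_cast hl
  have hc0' : c0 ∈ Bx p q N := by
    rw [mem_product, mem_Ico, mem_Ico] at hc0
    simp only [Bx, mem_product, mem_Ico]
    omega
  have hNpos : (0 : ℝ) < N := by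
    rw [Bx, mem_product, mem_Ico, mem_Ico] at hc0'
    have : 0 < N := by omega
    exact_mod_cast this
  -- the path in the chart
  have hconn : Conn s t om (pt n c0) w := by
    rw [← hA, mem_clus] at hcA hwA
    exact hcA.symm.trans hwA
  obtain ⟨c, M, hcc, hc1, hc2, hc3, hc4⟩ := exit_path hst hc0' hconn
  have hcA' : ∀ i ≤ M, pt n (c i) ∈ A := by
    intro i hi
    rw [← hA, mem_clus] at hcA ⊢
    exact hcA.trans (hc2 i hi)
  have hdist : (ℓ : ℤ) ≤ |(c M).1 - (c 0).1| ∨ (ℓ : ℤ) ≤ |(c M).2 - (c 0).2| := by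
    rcases hc4 with h | ⟨δ, hd1, hd2, hd3⟩
    · exfalso
      exact hwB (h ▸ Finset.mem_image_of_mem _ (hc1 M le_rfl))
    · rw [hcc]
      have h1 := hc1 M le_rfl
      rw [Bx, mem_product, mem_Ico, mem_Ico] at h1 hd3
      rw [mem_product, mem_Ico, mem_Ico] at hc0
      simp only [Prod.fst_add, Prod.snd_add] at hd3
      rw [abs_le] at hd1 hd2
      rcases abs_cases ((c M).1 - c0.1) with h2 | h2 <;>
        rcases abs_cases ((c M).2 - c0.2) with h3 | h3 <;> omega
  obtain ⟨a', b', hf1, hf2, hf3, hf4⟩ := flow_of_path hl c M hc1 hc3 hdist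
  set θ : ℝ := τ / (N : ℝ) ^ 2 with hθ
  have hθ0 : 0 ≤ θ := by positivity
  have hMb : ∀ x : ℝ, |x| ≤ (N : ℝ) ^ 2 / ℓ → |θ * x| ≤ 1 := by
    intro x hx
    rw [abs_mul, abs_of_nonneg hθ0]
    calc θ * |x| ≤ θ * ((N : ℝ) ^ 2 / ℓ) := mul_le_mul_of_nonneg_left hx hθ0
      _ = τ / ℓ := by rw [hθ]; field_simp
      _ ≤ 1 := (div_le_one hl0).2 hτl
  obtain ⟨α, hα1, hα2, hα3⟩ := grid_flow G hN (fun z => θ * a' z) (fun z => θ * b' z) zero_le_one
    (fun z => hMb _ (hf2 z)) (fun z => hMb _ (hf3 z))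
  have hDv : ∀ u : ℤ × ℤ → ℝ, Dv p q N (fun z => θ * a' z) (fun z => θ * b' z) u =
      θ * Dv p q N a' b' u := by
    intro u
    unfold Dv
    rw [mul_add, Finset.mul_sum, Finset.mul_sum]
    congr 1
    · refine Finset.sum_congr rfl fun x _ => ?_
      rw [Finset.mul_sum]
      exact Finset.sum_congr rfl fun y _ => by ring
    · refine Finset.sum_congr rfl fun x _ => ?_
      rw [Finset.mul_sum]
      exact Finset.sum_congr rfl fun y _ => by ring
  have hFe : Fe p q N (fun z => θ * a' z) (fun z => θ * b' z) = θ ^ 2 * Fe p q N a' b' := by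
    unfold Fe
    rw [mul_add, Finset.mul_sum, Finset.mul_sum]
    congr 1
    · refine Finset.sum_congr rfl fun x _ => ?_
      rw [Finset.mul_sum]
      exact Finset.sum_congr rfl fun y _ => by ring
    · refine Finset.sum_congr rfl fun x _ => ?_
      rw [Finset.mul_sum]
      exact Finset.sum_congr rfl fun y _ => by ring
  have hdiv : ∀ v : ZMod n × ZMod n → ℤ, (∀ x ∈ A, v x = 0) → θ * ∑ x ∈ B, (v x : ℝ) =
      ∑ e, α e * ((v (t e) : ℝ) - v (s e)) + ∑ x, (0 : ZMod n × ZMod n → ℝ) x * v x := by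
    intro v hv
    have h1 := hα1 fun x => (v x : ℝ)
    rw [h1, hDv, ← hf1 (fun z => (v (pt n z) : ℝ)) (fun i hi => by
      rw [hv _ (hcA' i hi)]; simp)]
    rw [hB, Finset.sum_image (fun x hx y hy h => pt_inj hN hx hy h)]
    simp
  have henergy : ∑ e, b e * (Real.cosh (α e) - 1) ≤ bb * (τ ^ 2 * (N / ℓ + 1)) := by
    calc ∑ e, b e * (Real.cosh (α e) - 1) ≤ ∑ e, bb * α e ^ 2 := by
          refine Finset.sum_le_sum fun e _ => ?_
          exact mul_le_mul (hbb e) (cosh_sub_one_le (hα2 e))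
            (by linarith [Real.one_le_cosh (α e)]) ((hb e).trans (hbb e))
      _ = bb * (θ ^ 2 * Fe p q N a' b') := by rw [← Finset.mul_sum, hα3, hFe]
      _ ≤ bb * (θ ^ 2 * ((N : ℝ) ^ 4 * (N / ℓ + 1))) := by
          refine mul_le_mul_of_nonneg_left (mul_le_mul_of_nonneg_left hf4 (sq_nonneg _)) ?_
          obtain ⟨e, -⟩ : ∃ e : E, True := ⟨j (c0, false), trivial⟩
          exact (hb e).trans (hbb e)
      _ = bb * (τ ^ 2 * (N / ℓ + 1)) := by
          rw [hθ]
          field_simp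
  have key := rest_tail s t hb (A := A) (m := m) (fun v _ => hm v) (x := k)
    (fun v hv => (hk v hv).ne') α 0 (B := B) (θ := θ) (H := H * (N : ℝ) ^ 2)
    (κ := Real.exp (bb * (τ ^ 2 * (N / ℓ + 1)) - τ * H)) hθ0 hdiv (by
      refine Real.exp_le_exp.2 ?_
      have h1 : θ * (H * (N : ℝ) ^ 2) = τ * H := by rw [hθ]; field_simp
      rw [h1]
      simp only [Pi.zero_apply]
      have h2 : ∑ v ∈ Aᶜ, (0 : ℝ) ^ 2 / (2 * m v) = 0 :=
        Finset.sum_eq_zero fun v _ => by simp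
      rw [h2]
      linarith)
  have hRW : ∀ g, RW s t (fun e => wI (b e)) (fun x n => Real.exp (-(m x / 2) * (n : ℝ) ^ 2)) A
        (glue A k g) = restw1 s t b m A k g := by
    intro g
    unfold RW restw1
    congr 1
    rw [Finset.prod_subtype (p := fun v => v ∉ A) Aᶜ (fun v => Finset.mem_compl)]
    refine Finset.prod_congr rfl fun v _ => ?_
    rw [glue_not_mem v.2]
  have hT : ∀ g : {x // x ∉ A} → ℤ, ∑ x ∈ B \ A, (glue A k g x : ℝ) =
      ∑ x ∈ B, (gl A 0 g x : ℝ) := by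
    intro g
    rw [← Finset.sum_subset (Finset.sdiff_subset : B \ A ⊆ B) (f := fun x => (gl A 0 g x : ℝ))
      (fun x hx hx' => by
        have hxA : x ∈ A := by
          by_contra h
          exact hx' (Finset.mem_sdiff.2 ⟨hx, h⟩)
        rw [gl_mem hxA]
        simp)]
    refine Finset.sum_congr rfl fun x hx => ?_
    rw [gl_not_mem (Finset.mem_sdiff.1 hx).2, glue_not_mem (Finset.mem_sdiff.1 hx).2]
  simp only [hRW, hT]
  exact key

end Vale.Agent.P159.TM.H77
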