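import Vale.Agent.P159.TM.H77.Pz
import Vale.Agent.P159.TM.H312.Fat4
import Vale.Agent.P159.T1.H598.R1b

/-!
Row A1: fatness of the cluster of one copy on a grid graph (torus or free box), from a lower bound
of the variance of the average over the box.
-/

open Finset
open scoped ENNReal

namespace Vale.Agent.P159.TM.H77

open Vale.Agent.P159 Vale.Agent.P159.H353
open Vale.Agent.P159.TM.H60 Vale.Agent.P159.TM.H504 Vale.Agent.P159.TM.H312
open Vale.Agent.P159.TM.H426 Vale.Agent.P159.TM.H576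

lemma bav_neg (n : ℕ) (p q : ℤ) (N : ℕ) (h : ZMod n × ZMod n → ℤ) :
    (bav n p q N fun x => (((-h) x : ℤ) : ℝ)) = -bav n p q N fun x => (h x : ℝ) := by
  unfold bav
  rw [← neg_div, ← sum_neg_distrib]
  congr 1
  refine sum_congr rfl fun z _ => ?_
  simp

lemma sum_img {n : ℕ} {p q : ℤ} {L : ℕ} (hL : L ≤ n) (hL0 : 1 ≤ L) (u : ZMod n × ZMod n → ℝ) :
    ∑ x ∈ (Bx p q L).image (pt n), u x = (L : ℝ) ^ 2 * bav n p q L u := by
  have h0 : (0 : ℝ) < L := by exact_mod_cast hL0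
  unfold bav
  rw [sum_image (fun x hx y hy h => pt_inj hL hx hy h)]
  field_simp

section

variable {n : ℕ} [NeZero n] {E : Type} [Fintype E] [DecidableEq E]
  {s t : E → ZMod n × ZMod n}

lemma E1_fst {V E : Type*} [Fintype V] [Fintype E] [DecidableEq E] {s t : E → V}
    {w : E → ℤ → ℝ} (hw : ∀ e n, 0 ≤ w e n) {a : V → ℤ → ℝ}
    (ha : ∀ x n, 0 ≤ a x n) (F : (V → ℤ) → ℝ≥0∞) :
    E1 s t w a (fun h _ => F h) = ∑' h, ENNReal.ofReal (W1h s t w a h) * F h := by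
  unfold E1
  refine tsum_congr fun h => ?_
  rw [← sum_mul, ← ENNReal.ofReal_sum_of_nonneg fun S _ => W1_nonneg hw ha h S, sum_W1]

/-- probability of a large average, from the variance and the fourth moment -/
theorem pz_box {p q : ℤ} {L : ℕ} (hL : 1 ≤ L) (κ : ℕ) {j : (ℤ × ℤ) × Bool → E}
    (G : Grid s t p q (L * 2 ^ κ) j) (hn : L * 2 ^ κ ≤ n)
    {b : E → ℝ} {bb : ℝ} (hb : ∀ e, 0 ≤ b e) (hbb : ∀ e, b e ≤ bb) (hbb0 : 0 ≤ bb)
    {m : ZMod n × ZMod n → ℝ} {m0 : ℝ} (hm0 : 0 < m0) (hm : ∀ v, m0 ≤ m v)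
    (hC : 4 ≤ (L : ℝ) ^ 2 * cst bb κ m0 L) {cc : ℝ} (hcc : cst bb κ m0 L ≤ cc) {v : ℝ}
    (hv : 0 < v)
    (hvar : v * ∑' h : ZMod n × ZMod n → ℤ, W1h s t (fun e => wI (b e)) (ga m) h ≤
      ∑' h : ZMod n × ZMod n → ℤ, W1h s t (fun e => wI (b e)) (ga m) h *
        (bav n p q L fun x => (h x : ℝ)) ^ 2) :
    ENNReal.ofReal (v ^ 2 / (1152 * cc ^ 2)) *
        ∑' h : ZMod n × ZMod n → ℤ, ENNReal.ofReal (W1h s t (fun e => wI (b e)) (ga m) h) ≤
      ∑' h : ZMod n × ZMod n → ℤ, ENNReal.ofReal (W1h s t (fun e => wI (b e)) (ga m) h) *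
        (if Real.sqrt (v / 2) ≤ bav n p q L (fun x => (h x : ℝ)) then 1 else 0) := by
  obtain ⟨s0, s2, s4, h4⟩ := fourth_box hL κ G hn hb hbb hbb0 hm0 hm hC
  set C := cst bb κ m0 L with hCd
  have hL0 : (0 : ℝ) < L := by exact_mod_cast hL
  have hC0 : 0 < C := by
    by_contra h
    have : (L : ℝ) ^ 2 * C ≤ 0 := mul_nonpos_of_nonneg_of_nonpos (by positivity) (not_lt.1 h)
    linarith
  have hcc0 : 0 < cc := lt_of_lt_of_le hC0 hcc
  have hW : ∀ h : ZMod n × ZMod n → ℤ, 0 ≤ W1h s t (fun e => wI (b e)) (ga m) h := fun h =>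
    mul_nonneg (prod_nonneg fun e _ => wI_nonneg (hb e) _)
      (prod_nonneg fun x _ => (Real.exp_pos _).le)
  have key := pz (fun h : ZMod n × ZMod n → ℤ =>
      ENNReal.ofReal (W1h s t (fun e => wI (b e)) (ga m) h))
    (fun h => bav n p q L fun x => (h x : ℝ)) (Equiv.neg _) (v := v) (K := 144 * cc ^ 2 / v ^ 2)
    ?_ ?_ hv (by positivity) ?_ ?_ ?_
  · have e1 : 1 / (8 * (144 * cc ^ 2 / v ^ 2)) = v ^ 2 / (1152 * cc ^ 2) := by
      field_simp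
      norm_num
    rw [e1] at key
    exact key
  · intro h
    congr 1
    unfold W1h
    congr 1
    · refine prod_congr rfl fun e _ => ?_
      simp only [Equiv.neg_apply, Pi.neg_apply]
      rw [← wI_neg]
      congr 1
      ring
    · refine prod_congr rfl fun x _ => ?_
      unfold ga
      simp
  · intro h
    exact bav_neg n p q L h
  · rw [← ENNReal.ofReal_tsum_of_nonneg hW s0]
    exact ENNReal.ofReal_ne_top
  · rw [← ENNReal.ofReal_tsum_of_nonneg hW s0, ← ENNReal.ofReal_mul hv.le]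
    have : ∀ h : ZMod n × ZMod n → ℤ, ENNReal.ofReal (W1h s t (fun e => wI (b e)) (ga m) h) *
        ENNReal.ofReal ((bav n p q L fun x => (h x : ℝ)) ^ 2) =
        ENNReal.ofReal (W1h s t (fun e => wI (b e)) (ga m) h *
          (bav n p q L fun x => (h x : ℝ)) ^ 2) := fun h => (ENNReal.ofReal_mul (hW h)).symm
    simp only [this]
    rw [← ENNReal.ofReal_tsum_of_nonneg (fun h => mul_nonneg (hW h) (sq_nonneg _)) s2]
    exact ENNReal.ofReal_le_ofReal hvar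
  · have : ∀ h : ZMod n × ZMod n → ℤ, ENNReal.ofReal (W1h s t (fun e => wI (b e)) (ga m) h) *
        ENNReal.ofReal ((bav n p q L fun x => (h x : ℝ)) ^ 4) =
        ENNReal.ofReal (W1h s t (fun e => wI (b e)) (ga m) h *
          (bav n p q L fun x => (h x : ℝ)) ^ 4) := fun h => (ENNReal.ofReal_mul (hW h)).symm
    simp only [this]
    rw [← ENNReal.ofReal_tsum_of_nonneg (fun h => mul_nonneg (hW h) (by positivity)) s4,
      ← ENNReal.ofReal_tsum_of_nonneg hW s0, ← ENNReal.ofReal_mul (by positivity)]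
    refine ENNReal.ofReal_le_ofReal (h4.trans ?_)
    have e2 : 144 * cc ^ 2 / v ^ 2 * v ^ 2 = 144 * cc ^ 2 := by field_simp
    rw [e2]
    refine mul_le_mul_of_nonneg_right ?_ (tsum_nonneg hW)
    have : C ^ 2 ≤ cc ^ 2 := by gcongr
    linarith

/-- **fatness on a grid graph.** `ℓ` = thickness of the boundary layer, `3ℓ` = side of the box. -/
theorem fat_grid (hst : Steps s t) {p q : ℤ} {ℓ : ℕ} (hl : 1 ≤ ℓ) (κ : ℕ)
    {j : (ℤ × ℤ) × Bool → E}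
    (G : Grid s t p q (3 * ℓ * 2 ^ κ) j) (hn : 3 * ℓ * 2 ^ κ ≤ n)
    {b : E → ℝ} {bb : ℝ} (hb : ∀ e, 0 < b e) (hbb : ∀ e, b e ≤ bb) (hbb0 : 0 < bb)
    (hw0 : ∀ e n, 0 ≤ (fun e => wI (b e)) e n)
    (he : ∀ e n, (fun e => wI (b e)) e (-n) = (fun e => wI (b e)) e n)
    (hLC : ∀ e, T1.H897.LogC ((fun e => wI (b e)) e))
    {m : ZMod n × ZMod n → ℝ} {m0 : ℝ} (hm0 : 0 < m0) (hm : ∀ v, m0 ≤ m v)
    (ha : ∀ x n, 0 ≤ ga m x n) (hae : ∀ x n, ga m x (-n) = ga m x n)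
    (hC : 4 ≤ ((3 * ℓ : ℕ) : ℝ) ^ 2 * cst bb κ m0 (3 * ℓ)) {cc : ℝ}
    (hcc : cst bb κ m0 (3 * ℓ) ≤ cc) {v : ℝ} (hv : 0 < v)
    (hvar : v * ∑' h : ZMod n × ZMod n → ℤ, W1h s t (fun e => wI (b e)) (ga m) h ≤
      ∑' h : ZMod n × ZMod n → ℤ, W1h s t (fun e => wI (b e)) (ga m) h *
        (bav n p q (3 * ℓ) fun x => (h x : ℝ)) ^ 2)
    (hτ : Real.sqrt (v / 8) / (8 * bb) ≤ ℓ)
    (hexp : Real.exp (-(v / (128 * bb))) ≤ v ^ 2 / (2304 * cc ^ 2))
    (u : ZMod n × ZMod n) {Γ : (ZMod n × ZMod n → ℕ) → ℝ≥0∞} (hΓ : Monotone Γ)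
    (hΓ0 : ∀ m, m u = 0 → Γ m = 0)
    (hin : ∀ m, Γ m ≠ 0 → ∃ z ∈ Ico (p + ℓ) (p + 2 * ℓ) ×ˢ Ico (q + ℓ) (q + 2 * ℓ),
      m (pt n z) ≠ 0)
    (hout : ∀ m, Γ m ≠ 0 → ∃ w, w ∉ (Bx p q (3 * ℓ)).image (pt n) ∧ m w ≠ 0)
    (hfin : Ex (one s t (fun e => wI (b e)) hw0 he hLC (ga m) ha hae)
      (fun x om => Γ (mf (one s t (fun e => wI (b e)) hw0 he hLC (ga m) ha hae) x om u)) ≠ ⊤) :
    ENNReal.ofReal (v ^ 2 / (2304 * cc ^ 2) * (Real.sqrt (v / 8) * (3 * ℓ) ^ 2)) *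
      Ex (one s t (fun e => wI (b e)) hw0 he hLC (ga m) ha hae)
        (fun x om => Γ (mf (one s t (fun e => wI (b e)) hw0 he hLC (ga m) ha hae) x om u)) ≤
      Ex (one s t (fun e => wI (b e)) hw0 he hLC (ga m) ha hae)
        (fun x om => Γ (mf (one s t (fun e => wI (b e)) hw0 he hLC (ga m) ha hae) x om u) *
          ∑ z ∈ (Bx p q (3 * ℓ)).image (pt n),
            (mf (one s t (fun e => wI (b e)) hw0 he hLC (ga m) ha hae) x om u z : ℝ≥0∞)) := by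
  classical
  have hl0 : (0 : ℝ) < ℓ := by exact_mod_cast hl
  have hL1 : 1 ≤ 3 * ℓ := by omega
  have hLn : 3 * ℓ ≤ n := (Nat.le_mul_of_pos_right _ (by positivity)).trans hn
  obtain ⟨s0, -, -, -⟩ := fourth_box hL1 κ G hn (fun e => (hb e).le) hbb hbb0.le hm0 hm hC
  have hpz := pz_box hL1 κ G hn (fun e => (hb e).le) hbb hbb0.le hm0 hm hC hcc hv hvar
  have hcc0 : 0 < cc := by
    refine lt_of_lt_of_le ?_ hcc
    by_contra h
    have : (((3 * ℓ : ℕ) : ℝ)) ^ 2 * cst bb κ m0 (3 * ℓ) ≤ 0 :=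
      mul_nonpos_of_nonneg_of_nonpos (by positivity) (not_lt.1 h)
    linarith
  set H : ℝ := Real.sqrt (v / 2) * ((3 * ℓ : ℕ) : ℝ) ^ 2 with hH
  have hH0 : 0 < H := by
    rw [hH]
    have : (0 : ℝ) < ((3 * ℓ : ℕ) : ℝ) := by exact_mod_cast hL1
    have h2 : 0 < Real.sqrt (v / 2) := Real.sqrt_pos.2 (by positivity)
    positivity
  have hsq : Real.sqrt (v / 2) / 2 = Real.sqrt (v / 8) := by
    rw [show v / 2 = 4 * (v / 8) by ring, Real.sqrt_mul (by norm_num),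
      show (4 : ℝ) = 2 ^ 2 by norm_num, Real.sqrt_sq (by norm_num)]
    ring
  have hH2 : H / 2 = Real.sqrt (v / 8) * ((3 * ℓ : ℕ) : ℝ) ^ 2 := by
    rw [hH, ← hsq]
    ring
  have hp2 : ENNReal.ofReal (v ^ 2 / (1152 * cc ^ 2)) / 2 =
      ENNReal.ofReal (v ^ 2 / (2304 * cc ^ 2)) := by
    rw [show (2 : ℝ≥0∞) = ENNReal.ofReal 2 by simp, ← ENNReal.ofReal_div_of_pos (by norm_num)]
    congr 1
    field_simp
    norm_num
  have main := fatS (w := fun e => wI (b e)) (fun e n => T1.H598.wI_pos (hb e) n) hw0 he hLC ha hae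
    s0 ((Bx p q (3 * ℓ)).image (pt n)) u hΓ hΓ0 hH0
    (p := ENNReal.ofReal (v ^ 2 / (1152 * cc ^ 2))) ENNReal.ofReal_ne_top ?_ ?_ hfin
  · rw [hp2, hH2, ← ENNReal.ofReal_mul (by positivity)] at main
    have e1 : ((3 * ℓ : ℕ) : ℝ) = 3 * (ℓ : ℝ) := by push_cast; ring
    rw [e1] at main
    exact main
  · rw [Ex_eq, Ex_eq, E1_fst hw0 ha fun _ => 1, E1_fst hw0 ha
      fun h => if H ≤ ∑ x ∈ (Bx p q (3 * ℓ)).image (pt n), (h x : ℝ) then 1 else 0]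
    simp only [mul_one]
    refine hpz.trans (le_of_eq (tsum_congr fun h => ?_))
    congr 1
    rw [sum_img hLn hL1 (fun x => (h x : ℝ))]
    refine if_congr ?_ rfl rfl
    rw [hH, mul_comm (Real.sqrt (v / 2))]
    have : (0 : ℝ) < ((3 * ℓ : ℕ) : ℝ) ^ 2 := by
      have : (0 : ℝ) < ((3 * ℓ : ℕ) : ℝ) := by exact_mod_cast hL1
      positivity
    exact (mul_le_mul_iff_right₀ this).symm
  · rintro A k ⟨om, hA⟩ hk hne
    obtain ⟨c0, hc0, hc1⟩ := hin _ hne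
    obtain ⟨w, hwB, hw1⟩ := hout _ hne
    have hcA : pt n c0 ∈ A := by
      by_contra h
      exact hc1 (if_neg h)
    have hwA : w ∈ A := by
      by_contra h
      exact hw1 (if_neg h)
    have hc0' : c0 ∈ Ico (p + ℓ) (p + ((3 * ℓ : ℕ) : ℤ) - ℓ) ×ˢ
        Ico (q + ℓ) (q + ((3 * ℓ : ℕ) : ℤ) - ℓ) := by
      rw [mem_product, mem_Ico, mem_Ico] at hc0 ⊢
      push_cast
      constructor <;> constructor <;> omega
    have hG3 : Grid s t p q (3 * ℓ) j := G.mono (Nat.le_mul_of_pos_right _ (by positivity))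
    have ht := grid_tail hst hG3 hLn hl (fun e => (hb e).le) hbb (fun v => lt_of_lt_of_le hm0 (hm v))
      hA hc0' hcA hwA hwB hk (τ := Real.sqrt (v / 8) / (8 * bb)) (H := Real.sqrt (v / 8))
      (by positivity) hτ
    rw [hH2, hp2]
    refine ht.trans (mul_le_mul_left (ENNReal.ofReal_le_ofReal (le_trans (le_of_eq ?_) hexp)) _)
    congr 1
    have h8 : Real.sqrt (v / 8) ^ 2 = v / 8 := Real.sq_sqrt (by positivity)
    have e3 : ((3 * ℓ : ℕ) : ℝ) / ℓ = 3 := by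
      push_cast
      field_simp
    rw [e3, div_pow, h8]
    have h9 : Real.sqrt (v / 8) / (8 * bb) * Real.sqrt (v / 8) = v / 8 / (8 * bb) := by
      rw [div_mul_eq_mul_div, ← pow_two, h8]
    rw [h9]
    field_simp
    ring

end

end Vale.Agent.P159.TM.H77
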