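import Vale.Agent.P159.TM.H77.Var
import Vale.Agent.P159.TM.H77.FatGrid
import Vale.Agent.P159.TM.Spec.Tor

/-!
Row A1: fatness of the clusters of one copy on the torus, from `(H2)`, in the letters of
`Spec/Tor.lean`.
-/

open Finset
open scoped ENNReal

namespace Vale.Agent.P159.TM.H77

open Vale.Agent.P159 Vale.Agent.P159.H353
open Vale.Agent.P159.TM.H60 Vale.Agent.P159.TM.H504 Vale.Agent.P159.TM.H312
open Vale.Agent.P159.TM.H426 Vale.Agent.P159.TM.H576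
open Vale.Agent.P159.TM.SpecC (wT ms)
open Vale.Agent.P159.TM.H870 (gr lin Zr)
open Vale.Agent.P159.TM.H764 (frm H2)

section dict

variable {N : ℕ} [NeZero N] {b : ℝ}

lemma W1h_eq (ξ : ℝ) (h : ZMod N × ZMod N → ℤ) :
    W1h (H459.tS (N := N)) H459.tT (fun _ => wI b) (ga (ms ξ)) h = wT b N h * gr (ms ξ) h 0 := by
  rw [H41.wT_eq_Wk]
  unfold W1h T1.H897.Wk gr ga
  congr 1
  rw [← Real.exp_sum]
  congr 1
  rw [← sum_neg_distrib]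
  refine sum_congr rfl fun x _ => ?_
  simp

/-- **variance of the average over a box of the torus, from `(H2)`** -/
theorem var_tor (hb : 0 ≤ b) {C2 W : ℝ} (hC : 0 < C2) {ξ K : ℕ} (hξ : 1 ≤ ξ) (hK : N = K * ξ)
    {k : ℕ} (hW : 8 * 2 ^ k ≤ W) (h2 : H2 C2 W (ξ : ℝ) (H41.G b N ξ)) {L : ℕ} (hL1 : 1 ≤ L)
    (hL : 8 * 2 ^ k * L ≤ ξ) (p q : ℤ) :
    (k : ℝ) / (804 * C2) *
        ∑' h : ZMod N × ZMod N → ℤ, W1h H459.tS H459.tT (fun _ => wI b) (ga (ms (ξ : ℝ))) h ≤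
      ∑' h : ZMod N × ZMod N → ℤ, W1h H459.tS H459.tT (fun _ => wI b) (ga (ms (ξ : ℝ))) h *
        (bav N p q L fun x => (h x : ℝ)) ^ 2 := by
  classical
  have hξ0 : (0 : ℝ) < ξ := by exact_mod_cast hξ
  have hL0 : (0 : ℝ) < L := by exact_mod_cast hL1
  have hN0 : 0 < N := NeZero.pos N
  have hLN : L ≤ N := by
    have hK0 : 0 < K := by
      rcases Nat.eq_zero_or_pos K with h | h
      · rw [h, zero_mul] at hK; omega
      · exact h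
    have h1 : L ≤ 8 * 2 ^ k * L := Nat.le_mul_of_pos_left _ (by positivity)
    have h2 : ξ ≤ K * ξ := Nat.le_mul_of_pos_left _ hK0
    omega
  have hW0 : ∀ h : ZMod N × ZMod N → ℤ,
      0 ≤ W1h H459.tS H459.tT (fun _ => wI b) (ga (ms (ξ : ℝ))) h := fun h =>
    mul_nonneg (prod_nonneg fun e _ => wI_nonneg hb _)
      (prod_nonneg fun x _ => (Real.exp_pos _).le)
  set Z := ∑' h : ZMod N × ZMod N → ℤ, W1h H459.tS H459.tT (fun _ => wI b) (ga (ms (ξ : ℝ))) h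
    with hZ
  set u : ZMod N × ZMod N → ℝ := fun x => if x ∈ (Bx p q L).image (pt N) then (1 : ℝ) else 0
    with hu
  have hlin : ∀ h : ZMod N × ZMod N → ℤ, lin (ms (ξ : ℝ)) u h =
      (L : ℝ) ^ 2 / (ξ : ℝ) ^ 2 * bav N p q L fun x => (h x : ℝ) := by
    intro h
    unfold lin
    have e1 : ∀ x : ZMod N × ZMod N, ms (ξ : ℝ) x * u x * (h x : ℝ) =
        1 / (ξ : ℝ) ^ 2 * (if x ∈ (Bx p q L).image (pt N) then (h x : ℝ) else 0) := by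
      intro x
      simp only [hu, SpecC.ms]
      split_ifs <;> ring
    rw [sum_congr rfl fun x _ => e1 x, ← mul_sum, sum_ite_mem, univ_inter,
      sum_img hLN hL1 (fun x => (h x : ℝ))]
    ring
  have h3 := H41.Cf_frm (N := N) hb hξ0 u
  unfold H104.Cf at h3
  rw [H41.Ex_lin H41.even_wT, mul_zero, sub_zero] at h3
  unfold H870.Ex at h3
  have h4 : Zr (wT b N) (ms (ξ : ℝ)) 0 = Z := by
    unfold Zr
    exact tsum_congr fun h => (W1h_eq (ξ : ℝ) h).symm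
  have h5 : ∑' h : ZMod N × ZMod N → ℤ, wT b N h * gr (ms (ξ : ℝ)) h 0 *
      (lin (ms (ξ : ℝ)) u h * lin (ms (ξ : ℝ)) u h) = ((L : ℝ) ^ 4 / (ξ : ℝ) ^ 4) *
      ∑' h : ZMod N × ZMod N → ℤ, W1h H459.tS H459.tT (fun _ => wI b) (ga (ms (ξ : ℝ))) h *
        (bav N p q L fun x => (h x : ℝ)) ^ 2 := by
    rw [← tsum_mul_left]
    refine tsum_congr fun h => ?_
    rw [hlin, W1h_eq]
    field_simp
  rw [h4, h5] at h3
  have h6 := frm_box_low (H41.Gh_nonneg hb hξ0) hC hξ hK hW h2 hL p q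
  rcases (tsum_nonneg hW0).eq_or_lt with hZ0 | hZ0
  · rw [← hZ] at hZ0
    rw [← hZ0, mul_zero]
    exact tsum_nonneg fun h => mul_nonneg (hW0 h) (sq_nonneg _)
  · rw [← hZ] at hZ0
    set S := ∑' h : ZMod N × ZMod N → ℤ, W1h H459.tS H459.tT (fun _ => wI b) (ga (ms (ξ : ℝ))) h *
        (bav N p q L fun x => (h x : ℝ)) ^ 2 with hS
    have h7 : (L : ℝ) ^ 4 * S = frm (H41.G b N ξ) u * Z := by
      have h8 : (L : ℝ) ^ 4 / (ξ : ℝ) ^ 4 * S = 1 / (ξ : ℝ) ^ 4 * frm (H41.G b N ξ) u * Z := by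
        rw [← h3]
        field_simp
      field_simp at h8
      linarith
    have h9 : (k : ℝ) / (804 * C2) * (L : ℝ) ^ 4 * Z ≤ (L : ℝ) ^ 4 * S := by
      rw [h7]
      exact mul_le_mul_of_nonneg_right h6 hZ0.le
    have h10 : (0 : ℝ) < (L : ℝ) ^ 4 := by positivity
    refine le_of_mul_le_mul_left ?_ h10
    linarith

end dict

/-- the torus is a grid everywhere -/
lemma grid_tor (N : ℕ) [NeZero N] (p q : ℤ) (M : ℕ) :
    Grid (H459.tS (N := N)) H459.tT p q M (fun z => (pt N z.1, !z.2)) where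
  hor := fun z _ => by
    refine ⟨rfl, ?_⟩
    unfold H459.tT H459.dir pt
    ext <;> simp
  ver := fun z _ => by
    refine ⟨rfl, ?_⟩
    unfold H459.tT H459.dir pt
    ext <;> simp

lemma steps_tor (N : ℕ) [NeZero N] : Steps (H459.tS (N := N)) H459.tT := by
  rintro ⟨x, c⟩
  unfold H459.tT H459.tS H459.dir
  cases c
  · right
    simp
  · left
    simp

/-- choice of the number of doublings -/
lemma k0_ex {C2 bb : ℝ} (hC : 0 < C2) (hbb : 0 < bb) : ∃ k0 : ℕ, 1 ≤ k0 ∧ ∀ k, k0 ≤ k →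
    Real.exp (-((k : ℝ) / (804 * C2) / (128 * bb))) ≤
      ((k : ℝ) / (804 * C2)) ^ 2 / (2304 * (3 * ((k : ℝ) + 4) ^ 2 * bb + 1) ^ 2) := by
  set c : ℝ := 1 / (804 * C2) / (128 * bb) with hc
  have hc0 : 0 < c := by positivity
  set M : ℝ := 2304 * (3 * bb + 1) ^ 2 * (804 * C2) ^ 2 with hM
  have hM0 : 0 < M := by positivity
  obtain ⟨k0, hk0⟩ := exists_nat_ge (75000 * M / c ^ 5)
  refine ⟨k0 + 1, by omega, fun k hk => ?_⟩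
  have hk1 : (1 : ℝ) ≤ k := by
    have : 1 ≤ k := by omega
    exact_mod_cast this
  have hk2 : 75000 * M / c ^ 5 ≤ k := by
    have : (k0 : ℝ) ≤ k := by
      have : k0 ≤ k := by omega
      exact_mod_cast this
    linarith
  have hk3 : 75000 * M ≤ k * c ^ 5 := by
    rwa [div_le_iff₀ (by positivity)] at hk2
  have h1 : (c * k) ^ 5 / 120 ≤ Real.exp (c * k) := by
    have := Real.pow_div_factorial_le_exp (c * k) (by positivity) 5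
    simpa [Nat.factorial] using this
  have h2 : M * 625 * (k : ℝ) ^ 4 ≤ Real.exp (c * k) := by
    refine le_trans ?_ h1
    rw [le_div_iff₀ (by norm_num)]
    calc M * 625 * (k : ℝ) ^ 4 * 120 = 75000 * M * (k : ℝ) ^ 4 := by ring
      _ ≤ k * c ^ 5 * (k : ℝ) ^ 4 := by gcongr
      _ = (c * k) ^ 5 := by ring
  have e1 : (k : ℝ) / (804 * C2) / (128 * bb) = c * k := by
    rw [hc]
    field_simp
  rw [e1, Real.exp_neg, le_div_iff₀ (by positivity), inv_mul_le_iff₀ (Real.exp_pos _)]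
  have h3 : 3 * ((k : ℝ) + 4) ^ 2 * bb + 1 ≤ (3 * bb + 1) * (5 * k) ^ 2 := by
    have h4 : ((k : ℝ) + 4) ^ 2 ≤ (5 * k) ^ 2 := by
      have : (k : ℝ) + 4 ≤ 5 * k := by linarith
      gcongr
    have h5 : (1 : ℝ) ≤ (5 * k) ^ 2 := by nlinarith
    nlinarith [mul_le_mul_of_nonneg_right h4 hbb.le]
  have h6 : (3 * ((k : ℝ) + 4) ^ 2 * bb + 1) ^ 2 ≤ ((3 * bb + 1) * (5 * k) ^ 2) ^ 2 := by
    gcongr
  calc 2304 * (3 * ((k : ℝ) + 4) ^ 2 * bb + 1) ^ 2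
      ≤ 2304 * ((3 * bb + 1) * (5 * k) ^ 2) ^ 2 := by linarith
    _ = (M * 625 * (k : ℝ) ^ 4) * (1 / (804 * C2)) ^ 2 := by
        rw [hM]
        field_simp
        ring
    _ ≤ Real.exp (c * k) * ((k : ℝ) / (804 * C2)) ^ 2 := by
        have h7 : (1 / (804 * C2)) ^ 2 ≤ ((k : ℝ) / (804 * C2)) ^ 2 := by
          gcongr
        exact mul_le_mul h2 h7 (by positivity) (Real.exp_pos _).le

lemma aT_eq {N : ℕ} (ξ : ℝ) : Spec.aT (N := N) ξ 0 = ga (ms ξ) := by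
  funext v n
  unfold Spec.aT ga
  congr 1
  simp

/-- side of the inner box -/
def ell (ξ k : ℕ) : ℕ := ξ / (32 * 2 ^ k)

/-- **FATNESS ON THE TORUS FROM `(H2)`** (one copy, `Spec.σ1`). `ell ξ k = ⌊ξ / (32 · 2^k)⌋`. -/
theorem fatTor {C2 bb : ℝ} (hC : 0 < C2) (hbb : 0 < bb) : ∃ k0 : ℕ, ∀ k, k0 ≤ k →
    ∃ X0 : ℕ, ∃ c : ℝ, 0 < c ∧ ∀ (N : ℕ) [NeZero N] (b : ℝ) (hb : 0 < b), b ≤ bb →
    ∀ ξ K : ℕ, X0 ≤ ξ → 2 ≤ K → N = K * ξ →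
    ∀ W : ℝ, 8 * 2 ^ k ≤ W → H2 C2 W (ξ : ℝ) (Spec.GT N b ξ) →
    ∀ (p q : ℤ) (u : ZMod N × ZMod N) (Γ : (ZMod N × ZMod N → ℕ) → ℝ≥0∞), Monotone Γ →
    (∀ m, m u = 0 → Γ m = 0) →
    (∀ m, Γ m ≠ 0 → ∃ z ∈ Ico (p + ell ξ k) (p + 2 * ell ξ k) ×ˢ
      Ico (q + ell ξ k) (q + 2 * ell ξ k), m (pt N z) ≠ 0) →
    (∀ m, Γ m ≠ 0 → ∃ w, w ∉ (Bx p q (3 * ell ξ k)).image (pt N) ∧ m w ≠ 0) →
    Ex (Spec.σ1 N b ξ hb.le) (fun x om => Γ (mf (Spec.σ1 N b ξ hb.le) x om u)) ≠ ⊤ →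
    ENNReal.ofReal (c * (ξ : ℝ) ^ 2) *
      Ex (Spec.σ1 N b ξ hb.le) (fun x om => Γ (mf (Spec.σ1 N b ξ hb.le) x om u)) ≤
      Ex (Spec.σ1 N b ξ hb.le) (fun x om => Γ (mf (Spec.σ1 N b ξ hb.le) x om u) *
        ∑ z ∈ (Bx p q (3 * ell ξ k)).image (pt N),
          (mf (Spec.σ1 N b ξ hb.le) x om u z : ℝ≥0∞)) := by
  obtain ⟨k0, hk0, hex⟩ := k0_ex hC hbb
  refine ⟨k0, fun k hk => ?_⟩
  have hk1 : 1 ≤ k := hk0.trans hk
  set v : ℝ := (k : ℝ) / (804 * C2) with hv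
  have hkR : (0 : ℝ) < k := by exact_mod_cast hk1
  have hv0 : 0 < v := by positivity
  set cc : ℝ := 3 * ((k : ℝ) + 4) ^ 2 * bb + 1 with hcc
  have hcc0 : 0 < cc := by positivity
  set τ : ℝ := Real.sqrt (v / 8) / (8 * bb) with hτ
  obtain ⟨T, hT⟩ := exists_nat_ge τ
  refine ⟨64 * 2 ^ k * (T + 2), v ^ 2 / (2304 * cc ^ 2) * (Real.sqrt (v / 8) *
    (9 / (64 * 2 ^ k) ^ 2)), by
      have := Real.sqrt_pos.2 (by positivity : 0 < v / 8)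
      positivity, ?_⟩
  intro N _ b hb hb' ξ K hξ hK hN W hW h2 p q u Γ hΓ hΓ0 hin hout hfin
  set ℓ := ell ξ k with hℓ
  have hD : 0 < 32 * 2 ^ k := by positivity
  have hup : 32 * 2 ^ k * ℓ ≤ ξ := by
    rw [hℓ]
    exact Nat.mul_div_le _ _
  have hlo : T + 2 ≤ ℓ := by
    rw [hℓ]
    unfold ell
    rw [Nat.le_div_iff_mul_le hD]
    calc (T + 2) * (32 * 2 ^ k) ≤ 64 * 2 ^ k * (T + 2) := by nlinarith
      _ ≤ ξ := hξ
  have hlo2 : ξ ≤ 64 * 2 ^ k * ℓ := by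
    have h1 : ξ < (32 * 2 ^ k) * (ℓ + 1) := by
      rw [hℓ]
      exact Nat.lt_mul_div_succ ξ hD
    have h2 : ℓ + 1 ≤ 2 * ℓ := by omega
    calc ξ ≤ (32 * 2 ^ k) * (ℓ + 1) := h1.le
      _ ≤ (32 * 2 ^ k) * (2 * ℓ) := Nat.mul_le_mul_left _ h2
      _ = 64 * 2 ^ k * ℓ := by ring
  have hl1 : 1 ≤ ℓ := by omega
  have hξ1 : 1 ≤ ξ := by
    have : 1 * 1 ≤ 32 * 2 ^ k * ℓ := Nat.mul_le_mul hD hl1
    omega
  have hξ0 : (0 : ℝ) < ξ := by exact_mod_cast hξ1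
  have hn : 3 * ℓ * 2 ^ (k + 4) ≤ N := by
    calc 3 * ℓ * 2 ^ (k + 4) = 48 * 2 ^ k * ℓ := by rw [pow_add]; ring
      _ ≤ 2 * (32 * 2 ^ k * ℓ) := by nlinarith
      _ ≤ 2 * ξ := by omega
      _ ≤ K * ξ := Nat.mul_le_mul_right _ hK
      _ = N := hN.symm
  have hm0 : (0 : ℝ) < 1 / (ξ : ℝ) ^ 2 := by positivity
  have hupR : 32 * 2 ^ k * (ℓ : ℝ) ≤ ξ := by exact_mod_cast hup
  have hlo2R : (ξ : ℝ) ≤ 64 * 2 ^ k * (ℓ : ℝ) := by exact_mod_cast hlo2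
  have hloR : (T : ℝ) + 2 ≤ ℓ := by exact_mod_cast hlo
  have hl0 : (0 : ℝ) < ℓ := by exact_mod_cast hl1
  have hcsteq : cst bb (k + 4) (1 / (ξ : ℝ) ^ 2) (3 * ℓ) = 3 * ((k : ℝ) + 4) ^ 2 * bb +
      (ξ : ℝ) ^ 2 / (2 * (48 * 2 ^ k * (ℓ : ℝ)) ^ 2) := by
    unfold cst
    push_cast
    congr 1
    rw [show (3 * (ℓ : ℝ) * 2 ^ (k + 4)) = 48 * 2 ^ k * ℓ by rw [pow_add]; ring]
    field_simp
  have hden : (0 : ℝ) < 2 * (48 * 2 ^ k * (ℓ : ℝ)) ^ 2 := by positivity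
  have hcc1 : cst bb (k + 4) (1 / (ξ : ℝ) ^ 2) (3 * ℓ) ≤ cc := by
    rw [hcsteq, hcc]
    have : (ξ : ℝ) ^ 2 / (2 * (48 * 2 ^ k * (ℓ : ℝ)) ^ 2) ≤ 1 := by
      rw [div_le_one hden]
      calc (ξ : ℝ) ^ 2 ≤ (64 * 2 ^ k * (ℓ : ℝ)) ^ 2 := by gcongr
        _ = 4096 * (2 ^ k * (ℓ : ℝ)) ^ 2 := by ring
        _ ≤ 4608 * (2 ^ k * (ℓ : ℝ)) ^ 2 := by
            have : (0 : ℝ) ≤ (2 ^ k * (ℓ : ℝ)) ^ 2 := by positivity
            nlinarith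
        _ = _ := by ring
    linarith
  have hC4 : 4 ≤ ((3 * ℓ : ℕ) : ℝ) ^ 2 * cst bb (k + 4) (1 / (ξ : ℝ) ^ 2) (3 * ℓ) := by
    rw [hcsteq]
    have h1 : (2 : ℝ) / 9 ≤ (ξ : ℝ) ^ 2 / (2 * (48 * 2 ^ k * (ℓ : ℝ)) ^ 2) := by
      rw [le_div_iff₀ hden]
      calc (2 : ℝ) / 9 * (2 * (48 * 2 ^ k * (ℓ : ℝ)) ^ 2) = (32 * 2 ^ k * (ℓ : ℝ)) ^ 2 := by
            ring
        _ ≤ (ξ : ℝ) ^ 2 := by gcongr
    have h2 : (6 : ℝ) ≤ ((3 * ℓ : ℕ) : ℝ) := by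
      have : 6 ≤ 3 * ℓ := by omega
      exact_mod_cast this
    have h3 : (36 : ℝ) ≤ ((3 * ℓ : ℕ) : ℝ) ^ 2 := by nlinarith
    have h4 : (2 : ℝ) / 9 ≤ 3 * ((k : ℝ) + 4) ^ 2 * bb +
        (ξ : ℝ) ^ 2 / (2 * (48 * 2 ^ k * (ℓ : ℝ)) ^ 2) := by
      have : 0 ≤ 3 * ((k : ℝ) + 4) ^ 2 * bb := by positivity
      linarith
    calc (4 : ℝ) ≤ 36 * (2 / 9) := by norm_num
      _ ≤ _ := mul_le_mul h3 h4 (by norm_num) (by positivity)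
  have hvar := var_tor (N := N) hb.le hC hξ1 hN hW h2 (L := 3 * ℓ) (by omega) (by
    calc 8 * 2 ^ k * (3 * ℓ) = 24 * 2 ^ k * ℓ := by ring
      _ ≤ 32 * 2 ^ k * ℓ := by nlinarith
      _ ≤ ξ := hup) p q
  have hae : ∀ (x : ZMod N × ZMod N) (n : ℤ), ga (ms (ξ : ℝ)) x (-n) = ga (ms (ξ : ℝ)) x n := by
    intro x n
    unfold ga
    simp
  have hσ : Spec.σ1 N b ξ hb.le = one (H459.tS (N := N)) H459.tT (fun _ => wI b)
      (fun _ n => wI_nonneg hb.le n) (fun _ n => wI_neg _ n) (fun _ => T1.H897.logC_wI hb.le)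
      (ga (ms (ξ : ℝ))) (fun x n => (Real.exp_pos _).le) hae := by
    unfold Spec.σ1 Spec.kT
    simp only [aT_eq]
  rw [hσ] at hfin ⊢
  have main := fat_grid (steps_tor N) hl1 (k + 4) (grid_tor N p q _) hn (b := fun _ => b)
    (fun _ => hb) (fun _ => hb') hbb (fun _ n => wI_nonneg hb.le n) (fun _ n => wI_neg _ n)
    (fun _ => T1.H897.logC_wI hb.le) hm0 (fun v => le_rfl)
    (fun x n => (Real.exp_pos _).le) hae hC4 hcc1 hv0 hvar (by linarith)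
    (hex k hk) u hΓ hΓ0 hin hout hfin
  refine le_trans (mul_le_mul_left (ENNReal.ofReal_le_ofReal ?_) _) main
  rw [mul_assoc, mul_assoc]
  refine mul_le_mul_of_nonneg_left ?_ (by positivity)
  refine mul_le_mul_of_nonneg_left ?_ (Real.sqrt_nonneg _)
  rw [div_mul_eq_mul_div, div_le_iff₀ (by positivity)]
  calc 9 * (ξ : ℝ) ^ 2 ≤ 9 * (64 * 2 ^ k * (ℓ : ℝ)) ^ 2 := by gcongr
    _ = (3 * (ℓ : ℝ)) ^ 2 * (64 * 2 ^ k) ^ 2 := by ring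

end Vale.Agent.P159.TM.H77
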