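import Vale.Agent.P159.TM.H77.PosF
import Vale.Agent.P159.TM.H131.Bridge
import Vale.Agent.P159.TM.H60.Clus
import Vale.Agent.P159.T1.H934.Markov

/-!
Row A1: sub-Gaussian tail of the rest of a cluster (one copy, zero background).
-/

open MeasureTheory Filter Topology Finset
open scoped ENNReal

namespace Vale.Agent.P159.TM.H77

open Vale.Agent.P159 Vale.Agent.P159.H353 Vale.Agent.P159.R2.H254
open Vale.Agent.P159.TM.H131 Vale.Agent.P159.TM.H60

section tail

variable {V E : Type} [Fintype V] [DecidableEq V] [Fintype E] [DecidableEq E]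

/-- heights `x` on `A` and `y` off `A` -/
def gl (A : Finset V) (x : V → ℤ) (y : {v // v ∉ A} → ℤ) (v : V) : ℤ :=
  if h : v ∈ A then x v else y ⟨v, h⟩

omit [Fintype V] in
lemma gl_mem {A : Finset V} {x : V → ℤ} {y : {v // v ∉ A} → ℤ} {v : V} (h : v ∈ A) :
    gl A x y v = x v := by
  unfold gl
  rw [dif_pos h]

omit [Fintype V] in
lemma gl_not_mem {A : Finset V} {x : V → ℤ} {y : {v // v ∉ A} → ℤ} {v : V} (h : v ∉ A) :
    gl A x y v = y ⟨v, h⟩ := by
  unfold gl
  rw [dif_neg h]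

/-- the weight of the heights off `A` given the heights `x` on the cluster `A` (one copy): closed
boundary edges, full edges outside, Gaussian sites -/
noncomputable def restw1 (s t : E → V) (b : E → ℝ) (m : V → ℝ) (A : Finset V) (x : V → ℤ)
    (y : {v // v ∉ A} → ℤ) : ℝ≥0∞ :=
  (∏ e ∈ bdE s t A, ENNReal.ofReal (min (wI (b e) (gl A x y (t e) - gl A x y (s e)))
      (wI (b e) (gl A x y (t e) + gl A x y (s e))))) *
    (∏ e ∈ outE s t A, ENNReal.ofReal (wI (b e) (gl A x y (t e) - gl A x y (s e)))) *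
    ∏ v : {v // v ∉ A}, ENNReal.ofReal (Real.exp (-(m v / 2) * (y v : ℝ) ^ 2))

variable (s t : E → V)

/-- the couplings with the boundary edges cut at the times `ω` -/
noncomputable def cpin (b : E → ℝ) (A : Finset V) (ω : E → ℝ) (e : E) : ℝ :=
  if e ∈ bdE s t A then b e * (1 - ω e) else if e ∈ outE s t A then b e else 0

omit [Fintype V] in
lemma cpin_nonneg {b : E → ℝ} (hb : ∀ e, 0 ≤ b e) (A : Finset V) {ω : E → ℝ}
    (hω : ∀ e ∈ bdE s t A, ω e ∈ Set.Icc (0 : ℝ) 1) (e : E) : 0 ≤ cpin s t b A ω e := by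
  unfold cpin
  split_ifs with h1 h2
  · exact mul_nonneg (hb e) (by linarith [(hω e h1).2])
  · exact hb e
  · exact le_rfl

omit [Fintype V] in
lemma cpin_le {b : E → ℝ} (hb : ∀ e, 0 ≤ b e) (A : Finset V) {ω : E → ℝ}
    (hω : ∀ e ∈ bdE s t A, ω e ∈ Set.Icc (0 : ℝ) 1) (e : E) : cpin s t b A ω e ≤ b e := by
  unfold cpin
  split_ifs with h1 h2
  · nlinarith [(hω e h1).1, hb e]
  · exact le_rfl
  · exact hb e

/-- the weight of the heights which vanish on `A`, boundary edges cut at the times `ω` -/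
noncomputable def wpin (b : E → ℝ) (m : V → ℝ) (A : Finset V) (ω : E → ℝ) (h : V → ℤ) : ℝ :=
  (∏ e, wI (cpin s t b A ω e) (h (t e) - h (s e))) * ∏ x, sA A m x (h x)

lemma wpin_nonneg {b : E → ℝ} (hb : ∀ e, 0 ≤ b e) (m : V → ℝ) (A : Finset V) {ω : E → ℝ}
    (hω : ∀ e ∈ bdE s t A, ω e ∈ Set.Icc (0 : ℝ) 1) (h : V → ℤ) : 0 ≤ wpin s t b m A ω h :=
  mul_nonneg (Finset.prod_nonneg fun e _ => wI_nonneg (cpin_nonneg s t hb A hω e) _)
    (Finset.prod_nonneg fun x _ => sA_nonneg A m x _)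

lemma wpin_eq_zero {b : E → ℝ} {m : V → ℝ} {A : Finset V} {ω : E → ℝ} {h : V → ℤ}
    (hh : ¬ ∀ v ∈ A, h v = 0) : wpin s t b m A ω h = 0 := by
  push Not at hh
  obtain ⟨v, hv, h0⟩ := hh
  unfold wpin
  rw [Finset.prod_eq_zero (Finset.mem_univ v) (f := fun x => sA A m x (h x)), mul_zero]
  unfold sA
  rw [if_pos hv, if_neg h0]

/-- sums over the heights off `A` and sums over heights which vanish on `A` -/
lemma tsum_gl (A : Finset V) (F : (V → ℤ) → ℝ≥0∞) (hF : ∀ h, (¬ ∀ v ∈ A, h v = 0) → F h = 0) :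
    ∑' y : {v // v ∉ A} → ℤ, F (gl A 0 y) = ∑' h, F h := by
  have hinj : Function.Injective (fun y : {v // v ∉ A} → ℤ => gl A (0 : V → ℤ) y) := by
    intro y y' h
    funext v
    have := congrFun h v.1
    simp only at this
    rwa [gl_not_mem v.2, gl_not_mem v.2] at this
  rw [← hinj.tsum_eq (f := F)]
  intro h hh
  rw [Function.mem_support] at hh
  have h0 : ∀ v ∈ A, h v = 0 := by
    by_contra hc
    exact hh (hF h hc)
  refine ⟨fun v => h v.1, ?_⟩
  funext v
  simp only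
  by_cases hv : v ∈ A
  · rw [gl_mem hv, h0 v hv]; rfl
  · rw [gl_not_mem hv]

/-- the pinned weight, factorised -/
lemma wpin_gl {b : E → ℝ} (hb : ∀ e, 0 ≤ b e) (m : V → ℝ) (A : Finset V) {ω : E → ℝ}
    (hω : ∀ e ∈ bdE s t A, ω e ∈ Set.Icc (0 : ℝ) 1) (y : {v // v ∉ A} → ℤ) :
    ENNReal.ofReal (wpin s t b m A ω (gl A 0 y)) =
      (∏ e ∈ bdE s t A, Ib (b e * (1 - ω e)) (gl A 0 y (t e) - gl A 0 y (s e))) *
      (∏ e ∈ outE s t A, ENNReal.ofReal (wI (b e) (gl A 0 y (t e) - gl A 0 y (s e)))) *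
      ∏ v : {v // v ∉ A}, ENNReal.ofReal (Real.exp (-(m v / 2) * (y v : ℝ) ^ 2)) := by
  have hc := cpin_nonneg s t hb A hω
  unfold wpin
  rw [ENNReal.ofReal_mul (Finset.prod_nonneg fun e _ => wI_nonneg (hc e) _),
    ENNReal.ofReal_prod_of_nonneg fun e _ => wI_nonneg (hc e) _,
    ENNReal.ofReal_prod_of_nonneg fun x _ => sA_nonneg A m x _]
  congr 1
  · rw [← Finset.prod_subset (Finset.subset_univ (bdE s t A ∪ outE s t A)),
      Finset.prod_union (disj_bd_out s t A)]
    · congr 1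
      · refine Finset.prod_congr rfl fun e he => ?_
        unfold cpin
        rw [if_pos he, Ib_eq]
        exact mul_nonneg (hb e) (by linarith [(hω e he).2])
      · refine Finset.prod_congr rfl fun e he => ?_
        unfold cpin
        rw [if_neg (fun h => Finset.disjoint_left.1 (disj_bd_out s t A) h he), if_pos he]
    · intro e _ he
      rw [Finset.mem_union, not_or] at he
      unfold cpin
      rw [if_neg he.1, if_neg he.2]
      have h1 : e ∈ inE s t A ∪ bdE s t A ∪ outE s t A := by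
        rw [union_three]; exact Finset.mem_univ e
      have h2 : e ∈ inE s t A := by
        simp only [Finset.mem_union] at h1
        tauto
      rw [mem_inE] at h2
      rw [gl_mem h2.1, gl_mem h2.2, T1.H934.wI_zero_left]
      simp
  · rw [← Finset.prod_mul_prod_compl A, Finset.prod_eq_one (s := A), one_mul]
    · rw [Finset.prod_subtype (p := fun v => v ∉ A) Aᶜ (fun v => Finset.mem_compl)]
      refine Finset.prod_congr rfl fun v _ => ?_
      unfold sA
      rw [if_neg v.2, gl_not_mem v.2]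
    · intro x hx
      unfold sA
      rw [if_pos hx, gl_mem hx]
      simp

/-- **exponential moments of the rest of a cluster** -/
theorem rest_exp {b : E → ℝ} (hb : ∀ e, 0 ≤ b e) {A : Finset V} {m : V → ℝ}
    (hm : ∀ v, v ∉ A → 0 < m v) {x : V → ℤ} (hx : ∀ v ∈ A, x v ≠ 0) (a : E → ℝ) (ρ : V → ℝ) :
    ∑' y : {v // v ∉ A} → ℤ, restw1 s t b m A x y * ENNReal.ofReal (Real.exp
      (∑ e, a e * ((gl A 0 y (t e) : ℝ) - gl A 0 y (s e)) + ∑ v, ρ v * gl A 0 y v)) ≤
      ENNReal.ofReal (Real.exp (∑ e, b e * (Real.cosh (a e) - 1) +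
        ∑ v ∈ Aᶜ, ρ v ^ 2 / (2 * m v))) * ∑' y : {v // v ∉ A} → ℤ, restw1 s t b m A x y := by
  classical
  set K : ℝ≥0∞ := ENNReal.ofReal (Real.exp (∑ e, b e * (Real.cosh (a e) - 1) +
        ∑ v ∈ Aᶜ, ρ v ^ 2 / (2 * m v))) with hK
  set ex : (V → ℤ) → ℝ≥0∞ := fun h => ENNReal.ofReal (Real.exp
      (∑ e, a e * ((h (t e) : ℝ) - h (s e)) + ∑ v, ρ v * h v)) with hex
  -- the height on the boundary edge in `A` and off `A`
  set dA : E → ℤ := fun e => if s e ∈ A then x (s e) else x (t e) with hdA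
  set I : Set ℝ := Set.Icc (0 : ℝ) 1 with hI
  set G : E → ℝ → ({v // v ∉ A} → ℤ) → ℝ≥0∞ := fun e τ y => I.indicator (fun τ =>
    ker1 (b e) τ (dA e) * Ib (b e * (1 - τ)) (gl A 0 y (t e) - gl A 0 y (s e))) τ with hG
  set P : ({v // v ∉ A} → ℤ) → ℝ≥0∞ := fun y =>
    (∏ e ∈ outE s t A, ENNReal.ofReal (wI (b e) (gl A 0 y (t e) - gl A 0 y (s e)))) *
    ∏ v : {v // v ∉ A}, ENNReal.ofReal (Real.exp (-(m v / 2) * (y v : ℝ) ^ 2)) with hP
  have hGm : ∀ e y, Measurable fun τ => G e τ y := by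
    intro e y
    exact (meas_pin1 (b e) (dA e) _).indicator measurableSet_Icc
  -- the rest weight in terms of the mixture
  have hrest : ∀ y, restw1 s t b m A x y = P y * ∏ e ∈ bdE s t A, ∫⁻ τ, G e τ y := by
    intro y
    unfold restw1
    have h1 : ∏ e ∈ bdE s t A, ENNReal.ofReal (min (wI (b e) (gl A x y (t e) - gl A x y (s e)))
      (wI (b e) (gl A x y (t e) + gl A x y (s e)))) = ∏ e ∈ bdE s t A, ∫⁻ τ, G e τ y := by
      refine Finset.prod_congr rfl fun e he => ?_
      simp only [hG]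
      rw [lintegral_indicator measurableSet_Icc]
      rw [mem_bdE] at he
      by_cases hs : s e ∈ A
      · have ht : t e ∉ A := fun h => he ⟨fun _ => h, fun _ => hs⟩
        have hd : dA e = x (s e) := if_pos hs
        rw [gl_mem hs, gl_not_mem ht, gl_mem hs, gl_not_mem ht, hd, Pi.zero_apply, sub_zero,
          ← closed1_wI (hb e) _ _ (hx _ hs)]
      · have ht : t e ∈ A := by
          by_contra h
          exact he ⟨fun h' => absurd h' hs, fun h' => absurd h' h⟩
        have hd : dA e = x (t e) := if_neg hs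
        rw [gl_mem ht, gl_not_mem hs, gl_mem ht, gl_not_mem hs, hd, Pi.zero_apply, zero_sub]
        have h2 : ∀ τ : ℝ, Ib (b e * (1 - τ)) (-y ⟨s e, hs⟩) = Ib (b e * (1 - τ)) (y ⟨s e, hs⟩) :=
          fun τ => Ib_neg _ _
        simp only [h2]
        rw [← closed1_wI (hb e) _ _ (hx _ ht)]
        congr 2
        · rw [← wI_neg]; congr 1; ring
        · congr 1; ring
    have h2 : ∏ e ∈ outE s t A, ENNReal.ofReal (wI (b e) (gl A x y (t e) - gl A x y (s e))) =
        ∏ e ∈ outE s t A, ENNReal.ofReal (wI (b e) (gl A 0 y (t e) - gl A 0 y (s e))) := by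
      refine Finset.prod_congr rfl fun e he => ?_
      rw [mem_outE] at he
      rw [gl_not_mem he.1, gl_not_mem he.2, gl_not_mem he.1, gl_not_mem he.2]
    rw [h1, h2]
    simp only [hP]
    ring
  have key := mix (bdE s t A) (fun _ => (volume : Measure ℝ)) G hGm
    (fun y => P y * ex (gl A 0 y)) (fun y => K * P y) 1 (fun _ => 0) ?_
  · rw [one_mul] at key
    have e1 : ∀ y, restw1 s t b m A x y * ex (gl A 0 y) =
        P y * ex (gl A 0 y) * ∏ e ∈ bdE s t A, ∫⁻ τ, G e τ y := fun y => by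
      rw [hrest]; ring
    have e2 : ∀ y, K * restw1 s t b m A x y =
        K * P y * ∏ e ∈ bdE s t A, ∫⁻ τ, G e τ y := fun y => by
      rw [hrest]; ring
    rw [← ENNReal.tsum_mul_left]
    simp only [e2]
    refine le_trans (le_of_eq ?_) key
    exact tsum_congr fun y => e1 y
  · intro ω
    rw [one_mul]
    by_cases hω : ∀ e ∈ bdE s t A, ω e ∈ I
    · set k : ℝ≥0∞ := ∏ e ∈ bdE s t A, ker1 (b e) (ω e) (dA e) with hk
      have hprod : ∀ y, P y * ∏ e ∈ bdE s t A, G e (ω e) y =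
          k * ENNReal.ofReal (wpin s t b m A ω (gl A 0 y)) := by
        intro y
        rw [wpin_gl s t hb m A hω]
        have h1 : ∏ e ∈ bdE s t A, G e (ω e) y = k * ∏ e ∈ bdE s t A,
            Ib (b e * (1 - ω e)) (gl A 0 y (t e) - gl A 0 y (s e)) := by
          rw [hk, ← Finset.prod_mul_distrib]
          refine Finset.prod_congr rfl fun e he => ?_
          simp only [hG]
          rw [Set.indicator_of_mem (hω e he)]
        rw [h1]
        simp only [hP]
        ring
      have e1 : ∀ y, P y * ex (gl A 0 y) * ∏ e ∈ bdE s t A, G e (ω e) y =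
          k * (ENNReal.ofReal (wpin s t b m A ω (gl A 0 y)) * ex (gl A 0 y)) := by
        intro y
        rw [← mul_assoc, ← hprod]; ring
      have e2 : ∀ y, K * P y * ∏ e ∈ bdE s t A, G e (ω e) y =
          k * (K * ENNReal.ofReal (wpin s t b m A ω (gl A 0 y))) := by
        intro y
        rw [mul_assoc, hprod]; ring
      rw [tsum_congr e1, tsum_congr e2, ENNReal.tsum_mul_left, ENNReal.tsum_mul_left,
        ENNReal.tsum_mul_left]
      refine mul_le_mul' le_rfl ?_
      have hz : ∀ h : V → ℤ, (¬ ∀ v ∈ A, h v = 0) → wpin s t b m A ω h = 0 :=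
        fun h hh => wpin_eq_zero s t hh
      rw [tsum_gl A (fun h => ENNReal.ofReal (wpin s t b m A ω h) * ex h) (fun h hh => by
          rw [hz h hh, ENNReal.ofReal_zero, zero_mul]),
        tsum_gl A (fun h => ENNReal.ofReal (wpin s t b m A ω h)) (fun h hh => by
          rw [hz h hh, ENNReal.ofReal_zero])]
      have hc := cpin_nonneg s t hb A hω
      obtain ⟨hsum, hle⟩ := bare_le s t hc A hm a ρ
      have hsum0 : Summable fun h : V → ℤ => wpin s t b m A ω h := by
        have := (bare_le s t hc A hm 0 0).1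
        refine this.congr fun h => ?_
        simp [wpin]
      have h3 : ∀ h : V → ℤ, ENNReal.ofReal (wpin s t b m A ω h) * ex h =
          ENNReal.ofReal (wpin s t b m A ω h *
        Real.exp (∑ e, a e * ((h (t e) : ℝ) - h (s e)) + ∑ x, ρ x * h x)) := fun h =>
        (ENNReal.ofReal_mul (wpin_nonneg s t hb m A hω h)).symm
      have hsum' : Summable fun h : V → ℤ => wpin s t b m A ω h *
        Real.exp (∑ e, a e * ((h (t e) : ℝ) - h (s e)) + ∑ x, ρ x * h x) := hsum
      rw [tsum_congr h3, ← ENNReal.ofReal_tsum_of_nonneg (fun h => mul_nonneg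
        (wpin_nonneg s t hb m A hω h) (Real.exp_pos _).le) hsum',
        ← ENNReal.ofReal_tsum_of_nonneg (fun h => wpin_nonneg s t hb m A hω h) hsum0, hK,
        ← ENNReal.ofReal_mul (Real.exp_pos _).le]
      refine ENNReal.ofReal_le_ofReal (hle.trans ?_)
      refine mul_le_mul_of_nonneg_right (Real.exp_le_exp.2 ?_)
        (tsum_nonneg fun h => wpin_nonneg s t hb m A hω h)
      refine add_le_add (Finset.sum_le_sum fun e _ => ?_) le_rfl
      exact mul_le_mul_of_nonneg_right (cpin_le s t hb A hω e)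
        (by linarith [Real.one_le_cosh (a e)])
    · push Not at hω
      obtain ⟨e, he, h0⟩ := hω
      have hz : ∀ y, ∏ e ∈ bdE s t A, G e (ω e) y = 0 := by
        intro y
        refine Finset.prod_eq_zero he ?_
        simp only [hG]
        exact Set.indicator_of_notMem h0 _
      simp only [hz, mul_zero]
      exact le_rfl

/-- **tail of the rest of a cluster** -/
theorem rest_tail {b : E → ℝ} (hb : ∀ e, 0 ≤ b e) {A : Finset V} {m : V → ℝ}
    (hm : ∀ v, v ∉ A → 0 < m v) {x : V → ℤ} (hx : ∀ v ∈ A, x v ≠ 0) (a : E → ℝ) (ρ : V → ℝ)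
    {B : Finset V} {θ H κ : ℝ} (hθ : 0 ≤ θ)
    (hdiv : ∀ u : V → ℤ, (∀ v ∈ A, u v = 0) → θ * ∑ v ∈ B, (u v : ℝ) =
      ∑ e, a e * ((u (t e) : ℝ) - u (s e)) + ∑ v, ρ v * u v)
    (hκ : Real.exp (∑ e, b e * (Real.cosh (a e) - 1) + ∑ v ∈ Aᶜ, ρ v ^ 2 / (2 * m v) - θ * H) ≤
      κ) :
    ∑' y : {v // v ∉ A} → ℤ, restw1 s t b m A x y *
      (if H ≤ ∑ v ∈ B, (gl A 0 y v : ℝ) then 1 else 0) ≤
      ENNReal.ofReal κ * ∑' y : {v // v ∉ A} → ℤ, restw1 s t b m A x y := by
  have h1 := rest_exp s t hb hm hx a ρ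
  have h2 : ∀ y : {v // v ∉ A} → ℤ, restw1 s t b m A x y *
      (if H ≤ ∑ v ∈ B, (gl A 0 y v : ℝ) then 1 else 0) ≤
      ENNReal.ofReal (Real.exp (-(θ * H))) * (restw1 s t b m A x y * ENNReal.ofReal (Real.exp
      (∑ e, a e * ((gl A 0 y (t e) : ℝ) - gl A 0 y (s e)) + ∑ v, ρ v * gl A 0 y v))) := by
    intro y
    rw [← hdiv (gl A 0 y) (fun v hv => by rw [gl_mem hv]; rfl), mul_left_comm,
      ← ENNReal.ofReal_mul (Real.exp_pos _).le, ← Real.exp_add]
    refine mul_le_mul' le_rfl ?_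
    split_ifs with h
    · rw [← ENNReal.ofReal_one]
      refine ENNReal.ofReal_le_ofReal (Real.one_le_exp ?_)
      nlinarith [mul_le_mul_of_nonneg_left h hθ]
    · exact zero_le
  refine (ENNReal.tsum_le_tsum h2).trans ?_
  rw [ENNReal.tsum_mul_left]
  refine (mul_le_mul' le_rfl h1).trans ?_
  rw [← mul_assoc, ← ENNReal.ofReal_mul (Real.exp_pos _).le, ← Real.exp_add]
  refine mul_le_mul' (ENNReal.ofReal_le_ofReal ?_) le_rfl
  refine le_trans (le_of_eq ?_) hκ
  congr 1
  ring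

end tail

end Vale.Agent.P159.TM.H77
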