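import Vale.Agent.P159.TM.H77.FatBk
import Vale.Agent.P159.TM.H352.GFat

/-!
Row A1 / A34I: `H352.FATH` on the torus, from `(H2)`.
-/

open scoped ENNReal NNReal

namespace Vale.Agent.P159.TM.H77

open Vale.Agent.P159.TM.H764 (H2)

/-- **`FATH` on the torus from `(H2)`, general block side** -/
theorem fath_gen {C2 bb : ℝ} (hC : 0 < C2) (hbb : 0 < bb) (A : ℕ) :
    ∃ W0 : ℝ, ∃ X0 : ℕ, ∃ K : ℝ≥0, 1 ≤ K ∧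
    ∀ (N n : ℕ) [NeZero N] [NeZero n] (b : ℝ) (hb : 0 ≤ b), 0 < b → b ≤ bb →
    ∀ ξ l : ℕ, X0 ≤ ξ → ξ ∣ N → 2 * ξ ≤ N → N = n * l → l ≤ ξ → ξ ≤ A * l →
    ∀ W : ℝ, W0 ≤ W → H2 C2 W (ξ : ℝ) (Spec.GT N b ξ) → ∀ ε : ℝ≥0, 1 ≤ (ε : ℝ) * (ξ : ℝ) ^ 2 →
    ∀ D, 4 ≤ D → H352.FATH (Spec.σ1 N b ξ hb) n l ε K D := by
  obtain ⟨W0, X0, K, hK, h⟩ := fatBk hC hbb A
  refine ⟨W0, X0, K, hK, ?_⟩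
  intro N n _ _ b hb hb0 hb' ξ l hξ hd h2N hN hl hl' W hW h2 ε hε D hD
  exact h N n b hb0 hb' ξ l hξ hd h2N hN hl hl' W hW h2 ε hε D hD

/-- **`FATH` on the torus from `(H2)`, blocks of side `ξ`, masses in units `ξ²`** -/
theorem fath {C2 bb : ℝ} (hC : 0 < C2) (hbb : 0 < bb) :
    ∃ W0 : ℝ, ∃ X0 : ℕ, ∃ K : ℝ≥0, 1 ≤ K ∧
    ∀ (N n : ℕ) [NeZero N] [NeZero n] (b : ℝ) (hb : 0 ≤ b), 0 < b → b ≤ bb →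
    ∀ ξ : ℕ, X0 ≤ ξ → 0 < ξ → 2 ≤ n → N = n * ξ →
    ∀ W : ℝ, W0 ≤ W → H2 C2 W (ξ : ℝ) (Spec.GT N b ξ) →
    ∀ D, 4 ≤ D → H352.FATH (Spec.σ1 N b ξ hb) n ξ (((ξ : ℝ≥0) ^ 2)⁻¹) K D := by
  obtain ⟨W0, X0, K, hK, h⟩ := fath_gen hC hbb 1
  refine ⟨W0, X0, K, hK, ?_⟩
  intro N n _ _ b hb hb0 hb' ξ hξ hξ0 hn hN W hW h2 D hD
  refine h N n b hb hb0 hb' ξ ξ hξ ⟨n, by rw [hN, mul_comm]⟩ ?_ hN le_rfl (by omega) W hW h2 _ ?_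
    D hD
  · rw [hN]
    exact Nat.mul_le_mul_right _ hn
  · have : (0 : ℝ) < ξ := by exact_mod_cast hξ0
    push_cast
    rw [inv_mul_cancel₀ (by positivity)]

end Vale.Agent.P159.TM.H77
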