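import Mathlib

/-!
# Derivative bound from two constants (complex analysis step of C3)

`bern`: a polynomial of degree `≤ n` bounded by `A` on `[-1,1]` has `|P'(0)| ≤ 7 n A`
(proof: lift to the unit circle, maximum principle, growth `|z|^(2n)`, Cauchy estimate).
`deriv_two`: `f` holomorphic and bounded by `C₀` on `|z| < ρ`, bounded by `δ` on the real diameter,
then `|f'(0)| ≤ (K/ρ) δ (1 + log (C₀/δ))`.
-/

open Complex Finset Metric Set

namespace Vale.Agent.P159.TM.H77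

/-- the lift of a polynomial to the circle -/
noncomputable def lift (n : ℕ) (p : ℕ → ℂ) (s : ℂ) (z : ℂ) : ℂ :=
  ∑ j ∈ range (n + 1), p j * z ^ (n - j) * (s * (z ^ 2 - 1) / (2 * I)) ^ j

theorem lift_diff (n : ℕ) (p : ℕ → ℂ) (s : ℂ) : Differentiable ℂ (lift n p s) := by
  unfold lift
  fun_prop

/-- value of the lift at a unit complex number -/
theorem lift_eq (n : ℕ) (p : ℕ → ℂ) (s : ℂ) {z : ℂ} (hz : z ≠ 0) :
    lift n p s z = z ^ n * ∑ j ∈ range (n + 1), p j * (s * (z - z⁻¹) / (2 * I)) ^ j := by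
  unfold lift
  rw [Finset.mul_sum]
  refine Finset.sum_congr rfl fun j hj => ?_
  have hj' : j ≤ n := by simpa [Nat.lt_succ_iff] using hj
  have h1 : s * (z ^ 2 - 1) / (2 * I) = z * (s * (z - z⁻¹) / (2 * I)) := by
    field_simp
  rw [h1, mul_pow]
  have h2 : z ^ n = z ^ (n - j) * z ^ j := by rw [← pow_add, Nat.sub_add_cancel hj']
  rw [h2]
  ring

theorem inv_eq_conj {z : ℂ} (hz : ‖z‖ = 1) : z⁻¹ = (starRingEnd ℂ) z := by
  rw [Complex.inv_def, Complex.normSq_eq_norm_sq, hz]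
  simp

theorem lift_circle (n : ℕ) (p : ℕ → ℂ) {s : ℝ} (hs : |s| ≤ 1) {A : ℝ}
    (hA : ∀ x : ℝ, |x| ≤ 1 → ‖∑ j ∈ range (n + 1), p j * (x : ℂ) ^ j‖ ≤ A) {z : ℂ}
    (hz : ‖z‖ = 1) : ‖lift n p (s : ℂ) z‖ ≤ A := by
  have hz0 : z ≠ 0 := by
    intro h; rw [h] at hz; simp at hz
  rw [lift_eq n p _ hz0, norm_mul, norm_pow, hz, one_pow, one_mul]
  have h1 : (s : ℂ) * (z - z⁻¹) / (2 * I) = ((s * z.im : ℝ) : ℂ) := by
    rw [inv_eq_conj hz, Complex.sub_conj]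
    push_cast
    field_simp
  rw [h1]
  apply hA
  rw [abs_mul]
  have h2 : |z.im| ≤ 1 := by
    have := Complex.abs_im_le_norm z
    rwa [hz] at this
  calc |s| * |z.im| ≤ 1 * 1 := mul_le_mul hs h2 (abs_nonneg _) zero_le_one
    _ = 1 := one_mul 1

theorem lift_disc (n : ℕ) (p : ℕ → ℂ) {s : ℝ} (hs : |s| ≤ 1) {A : ℝ}
    (hA : ∀ x : ℝ, |x| ≤ 1 → ‖∑ j ∈ range (n + 1), p j * (x : ℂ) ^ j‖ ≤ A) {z : ℂ}
    (hz : ‖z‖ ≤ 1) : ‖lift n p (s : ℂ) z‖ ≤ A := by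
  have h1 : DiffContOnCl ℂ (lift n p (s : ℂ)) (ball (0 : ℂ) 1) :=
    (lift_diff n p s).diffContOnCl
  refine Complex.norm_le_of_forall_mem_frontier_norm_le (isBounded_ball) h1 ?_ ?_
  · intro w hw
    rw [frontier_ball (0 : ℂ) one_ne_zero, mem_sphere_zero_iff_norm] at hw
    exact lift_circle n p hs hA hw
  · rw [closure_ball (0 : ℂ) one_ne_zero, mem_closedBall_zero_iff]
    exact hz

/-- reflection -/
theorem lift_inv (n : ℕ) (p : ℕ → ℂ) (s : ℂ) {z : ℂ} (hz : z ≠ 0) :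
    lift n p s z = z ^ (2 * n) * lift n p (-s) z⁻¹ := by
  rw [lift_eq n p s hz, lift_eq n p (-s) (inv_ne_zero hz), inv_inv, ← mul_assoc]
  have h1 : z ^ (2 * n) * z⁻¹ ^ n = z ^ n := by
    rw [two_mul, pow_add, mul_assoc, ← mul_pow, mul_inv_cancel₀ hz, one_pow, mul_one]
  rw [h1]
  congr 1
  refine Finset.sum_congr rfl fun j _ => ?_
  congr 2
  ring

theorem lift_out (n : ℕ) (p : ℕ → ℂ) {A : ℝ}
    (hA : ∀ x : ℝ, |x| ≤ 1 → ‖∑ j ∈ range (n + 1), p j * (x : ℂ) ^ j‖ ≤ A) {z : ℂ}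
    (hz : 1 ≤ ‖z‖) : ‖lift n p 1 z‖ ≤ ‖z‖ ^ (2 * n) * A := by
  have hz0 : z ≠ 0 := by
    intro h; rw [h] at hz; simp at hz; linarith
  rw [lift_inv n p 1 hz0, norm_mul, norm_pow]
  refine mul_le_mul_of_nonneg_left ?_ (by positivity)
  have := lift_disc n p (s := -1) (by simp) hA (z := z⁻¹) (by
    rw [norm_inv]; exact inv_le_one_of_one_le₀ hz)
  simpa using this

theorem lift_all (n : ℕ) (p : ℕ → ℂ) {A : ℝ}
    (hA : ∀ x : ℝ, |x| ≤ 1 → ‖∑ j ∈ range (n + 1), p j * (x : ℂ) ^ j‖ ≤ A) {z : ℂ} {t : ℝ}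
    (ht : 1 ≤ t) (hz : ‖z‖ ≤ t) : ‖lift n p 1 z‖ ≤ t ^ (2 * n) * A := by
  have hA0 : 0 ≤ A := (norm_nonneg _).trans (hA 0 (by simp))
  rcases le_total 1 ‖z‖ with h | h
  · exact (lift_out n p hA h).trans (mul_le_mul_of_nonneg_right
      (pow_le_pow_left₀ (norm_nonneg _) hz _) hA0)
  · have h1 := lift_disc n p (s := 1) (by simp) hA h
    have h2 : A ≤ t ^ (2 * n) * A := le_mul_of_one_le_left hA0 (one_le_pow₀ ht)
    simpa using h1.trans (by simpa using h2)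

/-- the derivative of the lift at `1` -/
theorem lift_deriv (n : ℕ) (hn : 1 ≤ n) (p : ℕ → ℂ) :
    deriv (lift n p 1) 1 = n * p 0 + p 1 / I := by
  have hder : ∀ j ∈ range (n + 1), HasDerivAt
      (fun z : ℂ => p j * z ^ (n - j) * (1 * (z ^ 2 - 1) / (2 * I)) ^ j)
      (if j = 0 then n * p 0 else if j = 1 then p 1 / I else 0) 1 := by
    intro j hj
    have h1 : HasDerivAt (fun z : ℂ => p j * z ^ (n - j)) (p j * ((n - j : ℕ) : ℂ)) 1 :=
      ((hasDerivAt_pow (n - j) (1 : ℂ)).const_mul (p j)).congr_deriv (by simp)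
    have h2 : HasDerivAt (fun z : ℂ => 1 * (z ^ 2 - 1) / (2 * I)) (1 / I) 1 :=
      ((((hasDerivAt_pow 2 (1 : ℂ)).sub_const 1).const_mul 1).div_const (2 * I)).congr_deriv (by
        simp
        field_simp
        simp)
    have h3 : HasDerivAt (fun z : ℂ => (1 * (z ^ 2 - 1) / (2 * I)) ^ j)
        (if j = 1 then 1 / I else 0) 1 :=
      (h2.fun_pow j).congr_deriv (by
        rcases j with _ | _ | j
        · simp
        · simp
        · simp)
    refine (h1.fun_mul h3).congr_deriv ?_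
    rcases j with _ | _ | j
    · simp [mul_comm]
    · simp [div_eq_mul_inv]
    · simp
  have h5 : HasDerivAt (lift n p 1)
      (∑ j ∈ range (n + 1), if j = 0 then (n : ℂ) * p 0 else if j = 1 then p 1 / I else 0) 1 := by
    unfold lift
    exact HasDerivAt.fun_sum hder
  rw [h5.deriv]
  obtain ⟨m, rfl⟩ : ∃ m, n = m + 1 := ⟨n - 1, by omega⟩
  rw [Finset.sum_range_succ', Finset.sum_range_succ']
  simp
  ring

/-- **Bernstein type inequality** at the centre. -/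
theorem bern (n : ℕ) (hn : 1 ≤ n) (p : ℕ → ℂ) {A : ℝ}
    (hA : ∀ x : ℝ, |x| ≤ 1 → ‖∑ j ∈ range (n + 1), p j * (x : ℂ) ^ j‖ ≤ A) :
    ‖p 1‖ ≤ 7 * n * A := by
  have hA0 : 0 ≤ A := (norm_nonneg _).trans (hA 0 (by simp))
  have hn0 : (0 : ℝ) < n := by exact_mod_cast hn
  have hR : (0 : ℝ) < 1 / (2 * n) := by positivity
  have h0 : ‖p 0‖ ≤ A := by
    have := hA 0 (by simp)
    rw [Finset.sum_range_succ'] at this
    simpa using this
  have h1 : ‖deriv (lift n p 1) 1‖ ≤ (Real.exp 1 * A) / (1 / (2 * n)) := by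
    refine Complex.norm_deriv_le_of_forall_mem_sphere_norm_le hR
      (lift_diff n p 1).diffContOnCl ?_
    intro z hz
    have hz' : ‖z‖ ≤ 1 + 1 / (2 * n) := by
      rw [mem_sphere_iff_norm] at hz
      calc ‖z‖ = ‖1 + (z - 1)‖ := by ring_nf
        _ ≤ ‖(1 : ℂ)‖ + ‖z - 1‖ := norm_add_le _ _
        _ = 1 + 1 / (2 * n) := by rw [hz, norm_one]
    have h2 := lift_all n p hA (t := 1 + 1 / (2 * n)) (by linarith) hz'
    refine h2.trans (mul_le_mul_of_nonneg_right ?_ hA0)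
    calc (1 + 1 / (2 * (n : ℝ))) ^ (2 * n) ≤ (Real.exp (1 / (2 * n))) ^ (2 * n) := by
          refine pow_le_pow_left₀ (by positivity) ?_ _
          have := Real.add_one_le_exp (1 / (2 * (n : ℝ)))
          linarith
      _ = Real.exp 1 := by
          rw [← Real.exp_nat_mul]
          congr 1
          push_cast
          field_simp
  rw [lift_deriv n hn] at h1
  have h3 : ‖p 1‖ = ‖p 1 / I‖ := by rw [norm_div, Complex.norm_I, div_one]
  have h4 : p 1 / I = ((n : ℂ) * p 0 + p 1 / I) - n * p 0 := by ring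
  rw [h3, h4]
  calc ‖((n : ℂ) * p 0 + p 1 / I) - n * p 0‖ ≤ ‖(n : ℂ) * p 0 + p 1 / I‖ + ‖(n : ℂ) * p 0‖ :=
        norm_sub_le _ _
    _ ≤ (Real.exp 1 * A) / (1 / (2 * n)) + n * A := by
        refine add_le_add h1 ?_
        rw [norm_mul]
        have : ‖(n : ℂ)‖ = n := by simp
        rw [this]
        exact mul_le_mul_of_nonneg_left h0 hn0.le
    _ = (2 * Real.exp 1 + 1) * n * A := by field_simp
    _ ≤ 7 * n * A := by
        have h5 : Real.exp 1 < 3 := by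
          have := Real.exp_one_lt_d9
          linarith
        have : (2 * Real.exp 1 + 1) ≤ 7 := by linarith
        exact mul_le_mul_of_nonneg_right (mul_le_mul_of_nonneg_right this hn0.le) hA0

/-- version with the number of Taylor coefficients explicit -/
theorem deriv_n {f : ℂ → ℂ} {ρ C₀ δ : ℝ} (hρ : 0 < ρ) (hf : DifferentiableOn ℂ f (ball 0 ρ))
    (hC : ∀ z ∈ ball (0 : ℂ) ρ, ‖f z‖ ≤ C₀) (hδ : ∀ x : ℝ, |x| < ρ → ‖f x‖ ≤ δ) (n : ℕ)
    (hn : 1 ≤ n) (h2 : C₀ * (1 / 2) ^ n ≤ δ) : ‖deriv f 0‖ ≤ 56 / ρ * n * δ := by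
  have hC0 : 0 ≤ C₀ := (norm_nonneg _).trans (hC 0 (mem_ball_self hρ))
  set a : ℕ → ℂ := fun k => iteratedDeriv k f 0 / (k.factorial : ℂ) with ha
  have hsub : closedBall (0 : ℂ) (ρ / 2) ⊆ ball 0 ρ := closedBall_subset_ball (by linarith)
  have hcoef : ∀ k, ‖a k‖ ≤ C₀ / (ρ / 2) ^ k := by
    intro k
    have h := Complex.norm_iteratedDeriv_le_of_forall_mem_sphere_norm_le k (R := ρ / 2) (c := 0)
      (C := C₀) (f := f) (by positivity)
      (DifferentiableOn.diffContOnCl (by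
        rw [closure_ball (0 : ℂ) (by positivity)]
        exact hf.mono hsub))
      (fun z hz => hC z (hsub (sphere_subset_closedBall hz)))
    rw [ha]
    simp only
    rw [norm_div]
    have hk : ‖((k.factorial : ℕ) : ℂ)‖ = k.factorial := by simp
    rw [hk, div_le_iff₀ (by positivity)]
    calc ‖iteratedDeriv k f 0‖ ≤ k.factorial * C₀ / (ρ / 2) ^ k := h
      _ = C₀ / (ρ / 2) ^ k * k.factorial := by ring
  -- the Taylor remainder
  have hrem : ∀ x : ℝ, |x| ≤ ρ / 4 →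
      ‖f x - ∑ k ∈ range (n + 1), a k * (x : ℂ) ^ k‖ ≤ C₀ * (1 / 2) ^ n := by
    intro x hx
    have hxm : (x : ℂ) ∈ ball (0 : ℂ) ρ := by
      rw [mem_ball_zero_iff, Complex.norm_real, Real.norm_eq_abs]
      linarith
    have hs : HasSum (fun k : ℕ => a k * (x : ℂ) ^ k) (f x) := by
      have h := Complex.hasSum_taylorSeries_on_ball hf hxm
      have he : (fun k : ℕ => a k * (x : ℂ) ^ k) = fun n : ℕ =>
          (n.factorial : ℂ)⁻¹ • ((x : ℂ) - 0) ^ n • iteratedDeriv n f 0 := by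
        funext k
        simp only [ha, smul_eq_mul, sub_zero]
        ring
      rw [he]
      exact h
    have hs2 := (hasSum_nat_add_iff' (n + 1)).2 hs
    have hb : ∀ k, ‖a (k + (n + 1)) * (x : ℂ) ^ (k + (n + 1))‖ ≤
        C₀ * (1 / 2) ^ (n + 1) * (1 / 2) ^ k := by
      intro k
      rw [norm_mul, norm_pow, Complex.norm_real, Real.norm_eq_abs]
      calc ‖a (k + (n + 1))‖ * |x| ^ (k + (n + 1))
          ≤ C₀ / (ρ / 2) ^ (k + (n + 1)) * (ρ / 4) ^ (k + (n + 1)) :=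
            mul_le_mul (hcoef _) (pow_le_pow_left₀ (abs_nonneg _) hx _) (by positivity)
              (by positivity)
        _ = C₀ * (1 / 2) ^ (k + (n + 1)) := by
            rw [div_mul_eq_mul_div, mul_div_assoc, ← div_pow]
            congr 2
            field_simp
            norm_num
        _ = C₀ * (1 / 2) ^ (n + 1) * (1 / 2) ^ k := by rw [pow_add]; ring
    have hg : HasSum (fun k : ℕ => C₀ * (1 / 2) ^ (n + 1) * (1 / 2 : ℝ) ^ k)
        (C₀ * (1 / 2) ^ (n + 1) * 2) := (hasSum_geometric_two).mul_left _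
    have h3 := tsum_of_norm_bounded hg hb
    rw [hs2.tsum_eq] at h3
    refine h3.trans (le_of_eq ?_)
    rw [pow_succ]; ring
  have hpoly : ∀ x : ℝ, |x| ≤ 1 →
      ‖∑ k ∈ range (n + 1), (a k * ((ρ / 4 : ℝ) : ℂ) ^ k) * (x : ℂ) ^ k‖ ≤ 2 * δ := by
    intro x hx
    have hx4 : |ρ / 4 * x| ≤ ρ / 4 := by
      rw [abs_mul, abs_of_pos (by positivity)]
      exact mul_le_of_le_one_right (by positivity) hx
    have h5 := hrem (ρ / 4 * x) hx4
    have h6 := hδ (ρ / 4 * x) (by linarith)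
    have h7 : ∑ k ∈ range (n + 1), (a k * ((ρ / 4 : ℝ) : ℂ) ^ k) * (x : ℂ) ^ k =
        ∑ k ∈ range (n + 1), a k * (((ρ / 4 * x : ℝ)) : ℂ) ^ k := by
      refine Finset.sum_congr rfl fun k _ => ?_
      push_cast
      rw [mul_pow]
      ring
    rw [h7]
    calc ‖∑ k ∈ range (n + 1), a k * (((ρ / 4 * x : ℝ)) : ℂ) ^ k‖
        = ‖f (ρ / 4 * x : ℝ) - (f (ρ / 4 * x : ℝ) -
          ∑ k ∈ range (n + 1), a k * (((ρ / 4 * x : ℝ)) : ℂ) ^ k)‖ := by rw [sub_sub_cancel]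
      _ ≤ ‖f (ρ / 4 * x : ℝ)‖ + ‖f (ρ / 4 * x : ℝ) -
          ∑ k ∈ range (n + 1), a k * (((ρ / 4 * x : ℝ)) : ℂ) ^ k‖ := norm_sub_le _ _
      _ ≤ δ + C₀ * (1 / 2) ^ n := add_le_add h6 h5
      _ ≤ 2 * δ := by linarith
  have h8 := bern n hn (fun k => a k * ((ρ / 4 : ℝ) : ℂ) ^ k) hpoly
  have h9 : ‖a 1 * ((ρ / 4 : ℝ) : ℂ) ^ 1‖ = ‖deriv f 0‖ * (ρ / 4) := by
    rw [norm_mul, pow_one, Complex.norm_real, Real.norm_eq_abs, abs_of_pos (by positivity)]
    congr 1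
    simp [ha, iteratedDeriv_one]
  rw [h9] at h8
  have h10 : ‖deriv f 0‖ = ‖deriv f 0‖ * (ρ / 4) * (4 / ρ) := by field_simp
  rw [h10]
  calc ‖deriv f 0‖ * (ρ / 4) * (4 / ρ) ≤ 7 * n * (2 * δ) * (4 / ρ) :=
        mul_le_mul_of_nonneg_right h8 (by positivity)
    _ = 56 / ρ * n * δ := by ring

/-- **two constants**: linear in `log (C₀/δ)` -/
theorem deriv_two {f : ℂ → ℂ} {ρ C₀ δ : ℝ} (hρ : 0 < ρ) (hδ0 : 0 < δ) (hδC : δ ≤ C₀)
    (hf : DifferentiableOn ℂ f (ball 0 ρ)) (hC : ∀ z ∈ ball (0 : ℂ) ρ, ‖f z‖ ≤ C₀)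
    (hδ : ∀ x : ℝ, |x| < ρ → ‖f x‖ ≤ δ) :
    ‖deriv f 0‖ ≤ 112 / ρ * (1 + Real.log (C₀ / δ)) * δ := by
  have hq : 1 ≤ C₀ / δ := (one_le_div hδ0).2 hδC
  have hlog : 0 ≤ Real.log (C₀ / δ) := Real.log_nonneg hq
  have hl2 : 0 < Real.log 2 := Real.log_pos one_lt_two
  set n : ℕ := ⌈Real.log (C₀ / δ) / Real.log 2⌉₊ + 1 with hn
  have h1 : Real.log (C₀ / δ) / Real.log 2 ≤ n := by
    rw [hn]; push_cast
    have := Nat.le_ceil (Real.log (C₀ / δ) / Real.log 2)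
    linarith
  have h2 : C₀ * (1 / 2) ^ n ≤ δ := by
    have h3 : C₀ / δ ≤ 2 ^ n := by
      rw [div_le_iff₀ hl2, ← Real.log_pow] at h1
      exact (Real.log_le_log_iff (by positivity) (by positivity)).1 h1
    rw [div_le_iff₀ hδ0] at h3
    calc C₀ * (1 / 2) ^ n ≤ 2 ^ n * δ * (1 / 2) ^ n :=
          mul_le_mul_of_nonneg_right h3 (by positivity)
      _ = δ * ((2 : ℝ) * (1 / 2)) ^ n := by rw [mul_pow]; ring
      _ = δ := by norm_num
  have h4 := deriv_n hρ hf hC hδ n (by omega) h2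
  refine h4.trans ?_
  have h5 : (n : ℝ) ≤ 2 * (1 + Real.log (C₀ / δ)) := by
    have h6 : (n : ℝ) ≤ Real.log (C₀ / δ) / Real.log 2 + 2 := by
      rw [hn]; push_cast
      have := (Nat.ceil_lt_add_one (a := Real.log (C₀ / δ) / Real.log 2) (by positivity)).le
      linarith
    have h7 : Real.log (C₀ / δ) / Real.log 2 ≤ 2 * Real.log (C₀ / δ) := by
      rw [div_le_iff₀ hl2]
      have := Real.log_two_gt_d9
      nlinarith
    linarith
  calc 56 / ρ * n * δ ≤ 56 / ρ * (2 * (1 + Real.log (C₀ / δ))) * δ :=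
        mul_le_mul_of_nonneg_right (mul_le_mul_of_nonneg_left h5 (by positivity)) hδ0.le
    _ = 112 / ρ * (1 + Real.log (C₀ / δ)) * δ := by ring

/-- centred at any real point, function analytic in a strip around a segment -/
theorem deriv_two_at {f : ℂ → ℂ} {ρ C₀ δ x₀ : ℝ} (hρ : 0 < ρ) (hδ0 : 0 < δ) (hδC : δ ≤ C₀)
    (hf : DifferentiableOn ℂ f (ball (x₀ : ℂ) ρ)) (hC : ∀ z ∈ ball (x₀ : ℂ) ρ, ‖f z‖ ≤ C₀)
    (hδ : ∀ x : ℝ, |x - x₀| < ρ → ‖f x‖ ≤ δ) :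
    ‖deriv f x₀‖ ≤ 112 / ρ * (1 + Real.log (C₀ / δ)) * δ := by
  have hm : ∀ z ∈ ball (0 : ℂ) ρ, (x₀ : ℂ) + z ∈ ball (x₀ : ℂ) ρ := by
    intro z hz
    rw [mem_ball_iff_norm] at hz ⊢
    simpa using hz
  have h := deriv_two (f := fun z => f ((x₀ : ℂ) + z)) hρ hδ0 hδC
    (hf.comp ((differentiable_id.const_add _).differentiableOn) hm)
    (fun z hz => hC _ (hm z hz))
    (fun x hx => by
      have := hδ (x₀ + x) (by simpa using hx)
      simpa using this)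
  have h2 : deriv (fun z => f ((x₀ : ℂ) + z)) 0 = deriv f x₀ := by
    rw [deriv_comp_const_add]
    simp
  rwa [h2] at h

end Vale.Agent.P159.TM.H77
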