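import Vale.Agent.P159.TM.H77.FatTor

/-!
Numbers for the free arms: the difference of the averages over two neighbouring boxes has a second
moment bounded by a constant which depends on the upper bound of the inverse temperature only.
-/

open Finset

set_option linter.unusedSectionVars false

namespace Vale.Agent.P159.TM.H77

open Vale.Agent.P159 Vale.Agent.P159.H353
open Vale.Agent.P159.TM.H60 Vale.Agent.P159.TM.H504 Vale.Agent.P159.TM.H426

/-- difference of two averages in one dimension, arbitrary sets -/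
lemma avg_gen {p : ℤ} {M : ℕ} {I J : Finset ℤ} (hI : I ⊆ Ico p (p + M)) (hJ : J ⊆ Ico p (p + M))
    (cI : I.Nonempty) (cJ : J.Nonempty) :
    ∃ φ : ℤ → ℝ, (∀ t, |φ t| ≤ 1) ∧ ∀ f : ℤ → ℝ,
      ∑ t ∈ Ico p (p + M - 1), φ t * (f (t + 1) - f t) =
        (∑ x ∈ I, f x) / #I - (∑ x ∈ J, f x) / #J := by
  have hN0 : (0 : ℝ) < #I := by exact_mod_cast cI.card_pos
  have hM0 : (0 : ℝ) < #J := by exact_mod_cast cJ.card_pos
  refine ⟨fun t => (∑ u ∈ I, ∑ v ∈ J, kk v u t) / (#I * #J), fun t => ?_, fun f => ?_⟩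
  · rw [abs_div, abs_of_pos (mul_pos hN0 hM0), div_le_one (mul_pos hN0 hM0)]
    calc |∑ u ∈ I, ∑ v ∈ J, kk v u t| ≤ ∑ u ∈ I, ∑ v ∈ J, (1 : ℝ) := by
          refine (abs_sum_le_sum_abs _ _).trans (sum_le_sum fun u _ => ?_)
          exact (abs_sum_le_sum_abs _ _).trans (sum_le_sum fun v _ => abs_kk _ _ _)
      _ = #I * #J := by
          rw [sum_const, sum_const, nsmul_eq_mul, nsmul_eq_mul]
          ring
  · have h1 : ∀ u ∈ I, ∀ v ∈ J,
        ∑ t ∈ Ico p (p + M - 1), kk v u t * (f (t + 1) - f t) = f u - f v :=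
      fun u hu v hv => tele f (hI hu) (hJ hv)
    have h2 : ∑ t ∈ Ico p (p + M - 1), (∑ u ∈ I, ∑ v ∈ J, kk v u t) / (#I * #J) *
        (f (t + 1) - f t) = (∑ u ∈ I, ∑ v ∈ J,
          ∑ t ∈ Ico p (p + M - 1), kk v u t * (f (t + 1) - f t)) / (#I * #J) := by
      have : ∀ t, (∑ u ∈ I, ∑ v ∈ J, kk v u t) / (#I * #J) * (f (t + 1) - f t) =
          ∑ u ∈ I, ∑ v ∈ J, kk v u t * (f (t + 1) - f t) / (#I * #J) := by
        intro t
        rw [sum_div, sum_mul]
        refine sum_congr rfl fun u _ => ?_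
        rw [sum_div, sum_mul]
        refine sum_congr rfl fun v _ => ?_
        ring
      simp only [this]
      rw [sum_comm, sum_div]
      refine sum_congr rfl fun u _ => ?_
      rw [sum_comm, sum_div]
      refine sum_congr rfl fun v _ => ?_
      rw [sum_div]
    rw [h2, sum_congr rfl fun u hu => sum_congr rfl fun v hv => h1 u hu v hv]
    have h3 : ∑ u ∈ I, ∑ v ∈ J, (f u - f v) = #J * (∑ u ∈ I, f u) - #I * ∑ v ∈ J, f v := by
      simp only [sum_sub_distrib, sum_const, nsmul_eq_mul]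
      rw [← mul_sum]
    rw [h3]
    field_simp

/-- **flow between two neighbouring boxes** -/
theorem two_flow (p q : ℤ) {t : ℕ} (ht : 1 ≤ t) :
    ∃ a b : ℤ × ℤ → ℝ, (∀ u : ℤ × ℤ → ℝ, Dv p q (4 * t) a b u =
        (∑ z ∈ Bx p q t, u z) / (t : ℝ) ^ 2 - (∑ z ∈ Bx (p + 3 * t) q t, u z) / (t : ℝ) ^ 2) ∧
      (∀ z, |a z| ≤ 1 / t) ∧ (∀ z, |b z| ≤ 1 / t) ∧ Fe p q (4 * t) a b ≤ 4 := by
  have ht0 : (0 : ℝ) < t := by exact_mod_cast ht
  have hI : Ico p (p + (t : ℤ)) ⊆ Ico p (p + ((4 * t : ℕ) : ℤ)) := by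
    intro x hx
    rw [mem_Ico] at hx ⊢
    push_cast
    omega
  have hJ : Ico (p + 3 * (t : ℤ)) (p + 3 * t + (t : ℤ)) ⊆ Ico p (p + ((4 * t : ℕ) : ℤ)) := by
    intro x hx
    rw [mem_Ico] at hx ⊢
    push_cast
    omega
  have cI : ((#(Ico p (p + (t : ℤ))) : ℕ) : ℝ) = t := by simp
  have cJ : ((#(Ico (p + 3 * (t : ℤ)) (p + 3 * t + (t : ℤ))) : ℕ) : ℝ) = t := by simp
  obtain ⟨φ, hφ1, hφ2⟩ := avg_gen hI hJ ⟨p, by rw [mem_Ico]; omega⟩
    ⟨p + 3 * t, by rw [mem_Ico]; omega⟩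
  rw [cI, cJ] at hφ2
  have hsub : Ico q (q + (t : ℤ)) ⊆ Ico q (q + ((4 * t : ℕ) : ℤ)) := by
    intro y hy
    rw [mem_Ico] at hy ⊢
    push_cast
    omega
  refine ⟨fun z => if z.2 ∈ Ico q (q + t) then φ z.1 / t else 0, fun _ => 0,
    fun u => ?_, fun z => ?_, fun z => ?_, ?_⟩
  · unfold Dv Bx
    rw [sum_product, sum_product]
    have h1 : ∑ x ∈ Ico p (p + ((4 * t : ℕ) : ℤ) - 1), ∑ y ∈ Ico q (q + ((4 * t : ℕ) : ℤ)),
        (if (x, y).2 ∈ Ico q (q + (t : ℤ)) then φ (x, y).1 / t else 0) *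
          (u (x + 1, y) - u (x, y)) =
        (∑ y ∈ Ico q (q + (t : ℤ)), ((∑ x ∈ Ico p (p + (t : ℤ)), u (x, y)) / t -
          (∑ x ∈ Ico (p + 3 * (t : ℤ)) (p + 3 * t + (t : ℤ)), u (x, y)) / t)) / t := by
      rw [sum_comm, ← sum_subset hsub, sum_div]
      · refine sum_congr rfl fun y hy => ?_
        rw [← hφ2 fun x => u (x, y), sum_div]
        refine sum_congr rfl fun x _ => ?_
        simp only
        rw [if_pos hy]
        ring
      · intro y _ hy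
        refine sum_eq_zero fun x _ => ?_
        simp only
        rw [if_neg hy, zero_mul]
    rw [h1]
    simp only [zero_mul, sum_const_zero, add_zero]
    rw [sum_sub_distrib, ← sum_div, ← sum_div,
      sum_comm (s := Ico q (q + (t : ℤ))) (t := Ico p (p + (t : ℤ))),
      sum_comm (s := Ico q (q + (t : ℤ)))]
    field_simp
  · beta_reduce
    split_ifs
    · rw [abs_div, abs_of_pos ht0]
      exact div_le_div_of_nonneg_right (hφ1 _) ht0.le
    · rw [abs_zero]; positivity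
  · rw [abs_zero]; positivity
  · unfold Fe
    have hsq : ∀ x : ℝ, |x| ≤ 1 → x ^ 2 ≤ 1 := fun x hx => by
      rw [← sq_abs]; nlinarith [abs_nonneg x]
    have h0 : ((#(Ico p (p + ((4 * t : ℕ) : ℤ) - 1)) : ℕ) : ℝ) ≤ 4 * t := by
      rw [Int.card_Ico]
      have : (p + ((4 * t : ℕ) : ℤ) - 1 - p).toNat ≤ 4 * t := by omega
      exact_mod_cast this
    have hc : ((#(Ico q (q + (t : ℤ))) : ℕ) : ℝ) = t := by simp
    have h1 : ∑ x ∈ Ico p (p + ((4 * t : ℕ) : ℤ) - 1), ∑ y ∈ Ico q (q + ((4 * t : ℕ) : ℤ)),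
        (if (x, y).2 ∈ Ico q (q + (t : ℤ)) then φ (x, y).1 / t else 0) ^ 2 ≤ 4 := by
      calc _ ≤ ∑ x ∈ Ico p (p + ((4 * t : ℕ) : ℤ) - 1), (1 : ℝ) / t := by
            refine sum_le_sum fun x _ => ?_
            rw [← sum_subset hsub]
            · calc _ ≤ ∑ y ∈ Ico q (q + (t : ℤ)), (1 : ℝ) / t ^ 2 := by
                    refine sum_le_sum fun y hy => ?_
                    simp only
                    rw [if_pos hy, div_pow]
                    exact div_le_div_of_nonneg_right (hsq _ (hφ1 x)) (by positivity)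
                _ = 1 / t := by
                    rw [sum_const, nsmul_eq_mul, hc]
                    field_simp
            · intro y _ hy
              simp only
              rw [if_neg hy]
              simp
        _ ≤ 4 := by
            rw [sum_const, nsmul_eq_mul, mul_one_div, div_le_iff₀ ht0]
            exact h0
    simpa using h1

section

variable {n : ℕ} [NeZero n] {E : Type} [Fintype E] [DecidableEq E]
  {s t : E → ZMod n × ZMod n}

/-- exponential moment of a flow -/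
theorem mgf_flow {b : E → ℝ} {bb : ℝ} (hb : ∀ e, 0 ≤ b e) (hbb : ∀ e, b e ≤ bb) (hbb0 : 0 ≤ bb)
    {m : ZMod n × ZMod n → ℝ} (hm : ∀ v, 0 < m v) {α : E → ℝ} (hα : ∀ e, |α e| ≤ 1) :
    (Summable fun h : ZMod n × ZMod n → ℤ => W1h s t (fun e => wI (b e)) (ga m) h *
      Real.exp (∑ e, α e * ((h (t e) : ℝ) - h (s e)))) ∧
    ∑' h : ZMod n × ZMod n → ℤ, W1h s t (fun e => wI (b e)) (ga m) h *
      Real.exp (∑ e, α e * ((h (t e) : ℝ) - h (s e))) ≤
      Real.exp (bb * ∑ e, α e ^ 2) *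
        ∑' h : ZMod n × ZMod n → ℤ, W1h s t (fun e => wI (b e)) (ga m) h := by
  classical
  have hkey := bare_le s t hb ∅ (m := m) (fun x _ => hm x) α 0
  have e0 : ∀ (x : ZMod n × ZMod n) (l : ℤ), sA ∅ m x l = ga m x l := by
    intro x l
    unfold sA ga
    rw [if_neg (Finset.notMem_empty x)]
  simp only [e0, Pi.zero_apply, zero_mul, sum_const_zero, add_zero, ne_eq, OfNat.ofNat_ne_zero,
    not_false_eq_true, zero_pow, zero_div] at hkey
  refine ⟨hkey.1, hkey.2.trans ?_⟩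
  refine mul_le_mul_of_nonneg_right (Real.exp_le_exp.2 ?_) (tsum_nonneg fun h =>
    mul_nonneg (Finset.prod_nonneg fun e _ => wI_nonneg (hb e) _)
      (Finset.prod_nonneg fun x _ => (Real.exp_pos _).le))
  rw [mul_sum]
  refine sum_le_sum fun e _ => ?_
  exact mul_le_mul (hbb e) (cosh_sub_one_le (hα e)) (by linarith [Real.one_le_cosh (α e)]) hbb0

/-- **second moment of a flow** -/
theorem sq_flow {b : E → ℝ} {bb : ℝ} (hb : ∀ e, 0 ≤ b e) (hbb : ∀ e, b e ≤ bb) (hbb0 : 0 ≤ bb)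
    {m : ZMod n × ZMod n → ℝ} (hm : ∀ v, 0 < m v) {α : E → ℝ} (hα : ∀ e, |α e| ≤ 1) :
    (Summable fun h : ZMod n × ZMod n → ℤ => W1h s t (fun e => wI (b e)) (ga m) h *
      (∑ e, α e * ((h (t e) : ℝ) - h (s e))) ^ 2) ∧
    ∑' h : ZMod n × ZMod n → ℤ, W1h s t (fun e => wI (b e)) (ga m) h *
      (∑ e, α e * ((h (t e) : ℝ) - h (s e))) ^ 2 ≤
      4 * Real.exp (bb * ∑ e, α e ^ 2) *
        ∑' h : ZMod n × ZMod n → ℤ, W1h s t (fun e => wI (b e)) (ga m) h := by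
  have hα' : ∀ e, |(-α) e| ≤ 1 := fun e => by rw [Pi.neg_apply, abs_neg]; exact hα e
  obtain ⟨s1, l1⟩ := mgf_flow (s := s) (t := t) hb hbb hbb0 hm hα
  obtain ⟨s2, l2⟩ := mgf_flow (s := s) (t := t) hb hbb hbb0 hm hα'
  set W : (ZMod n × ZMod n → ℤ) → ℝ := fun h => W1h s t (fun e => wI (b e)) (ga m) h with hW
  have W0 : ∀ h, 0 ≤ W h := fun h => mul_nonneg (Finset.prod_nonneg fun e _ =>
    wI_nonneg (hb e) _) (Finset.prod_nonneg fun x _ => (Real.exp_pos _).le)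
  set X : (ZMod n × ZMod n → ℤ) → ℝ := fun h => ∑ e, α e * ((h (t e) : ℝ) - h (s e)) with hX
  have eX : ∀ h : ZMod n × ZMod n → ℤ, ∑ e, (-α) e * ((h (t e) : ℝ) - h (s e)) = -X h := by
    intro h
    rw [hX, ← sum_neg_distrib]
    exact sum_congr rfl fun e _ => by rw [Pi.neg_apply]; ring
  have eα : ∑ e, (-α) e ^ 2 = ∑ e, α e ^ 2 :=
    sum_congr rfl fun e _ => by rw [Pi.neg_apply, neg_sq]
  simp only [eX, eα] at s2 l2
  have ss := s1.add s2
  have b2 : ∀ h, W h * X h ^ 2 ≤ 2 * (W h * Real.exp (X h) + W h * Real.exp (-X h)) := by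
    intro h
    have h1 := mul_le_mul_of_nonneg_left (pow_two_le (X h)) (W0 h)
    linarith
  have S2 : Summable fun h => W h * X h ^ 2 :=
    Summable.of_nonneg_of_le (fun h => mul_nonneg (W0 h) (by positivity)) b2 (ss.mul_left _)
  refine ⟨S2, ?_⟩
  calc ∑' h, W h * X h ^ 2 ≤ ∑' h, 2 * (W h * Real.exp (X h) + W h * Real.exp (-X h)) :=
        S2.tsum_le_tsum b2 (ss.mul_left _)
    _ = 2 * (∑' h, W h * Real.exp (X h) + ∑' h, W h * Real.exp (-X h)) := by
        rw [tsum_mul_left, s1.tsum_add s2]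
    _ ≤ 2 * (Real.exp (bb * ∑ e, α e ^ 2) * (∑' h, W h) +
          Real.exp (bb * ∑ e, α e ^ 2) * ∑' h, W h) := by linarith
    _ = 4 * Real.exp (bb * ∑ e, α e ^ 2) * ∑' h, W h := by ring

/-- **second moment of the difference of the averages over two neighbouring boxes** -/
theorem diff_box {p q : ℤ} {L : ℕ} (hL : 1 ≤ L) {j : (ℤ × ℤ) × Bool → E}
    (G : Grid s t p q (4 * L) j) (hn : 4 * L ≤ n)
    {b : E → ℝ} {bb : ℝ} (hb : ∀ e, 0 ≤ b e) (hbb : ∀ e, b e ≤ bb) (hbb0 : 0 ≤ bb)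
    {m : ZMod n × ZMod n → ℝ} (hm : ∀ v, 0 < m v) :
    (Summable fun h : ZMod n × ZMod n → ℤ => W1h s t (fun e => wI (b e)) (ga m) h *
      ((bav n p q L fun x => (h x : ℝ)) - bav n (p + 3 * L) q L fun x => (h x : ℝ)) ^ 2) ∧
    ∑' h : ZMod n × ZMod n → ℤ, W1h s t (fun e => wI (b e)) (ga m) h *
      ((bav n p q L fun x => (h x : ℝ)) - bav n (p + 3 * L) q L fun x => (h x : ℝ)) ^ 2 ≤
      4 * Real.exp (4 * bb) *
        ∑' h : ZMod n × ZMod n → ℤ, W1h s t (fun e => wI (b e)) (ga m) h := by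
  have hL0 : (0 : ℝ) < L := by exact_mod_cast hL
  obtain ⟨a, c, h1, h2, h3, h4⟩ := two_flow p q hL
  obtain ⟨α, g1, g2, g3⟩ := grid_flow G hn a c (by positivity : (0 : ℝ) ≤ 1 / L) h2 h3
  have hL1 : (1 : ℝ) / L ≤ 1 := by
    rw [div_le_one hL0]
    exact_mod_cast hL
  have hα : ∀ e, |α e| ≤ 1 := fun e => (g2 e).trans hL1
  have e1 : ∀ h : ZMod n × ZMod n → ℤ, ∑ e, α e * ((h (t e) : ℝ) - h (s e)) =
      (bav n p q L fun x => (h x : ℝ)) - bav n (p + 3 * L) q L fun x => (h x : ℝ) := by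
    intro h
    rw [g1 fun x => (h x : ℝ), h1]
    rfl
  obtain ⟨s1, l1⟩ := sq_flow (s := s) (t := t) hb hbb hbb0 hm hα
  simp only [e1] at s1 l1
  refine ⟨s1, l1.trans ?_⟩
  refine mul_le_mul_of_nonneg_right ?_ (tsum_nonneg fun h =>
    mul_nonneg (Finset.prod_nonneg fun e _ => wI_nonneg (hb e) _)
      (Finset.prod_nonneg fun x _ => (Real.exp_pos _).le))
  refine mul_le_mul_of_nonneg_left (Real.exp_le_exp.2 ?_) (by norm_num)
  rw [g3]
  nlinarith

end

end Vale.Agent.P159.TM.H77
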