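import Vale.Agent.P159.TM.H77.TailTor

/-!
Row A1: exponential moments and the fourth moment of the average of the heights over a box.
-/

open Finset

namespace Vale.Agent.P159.TM.H77

open Vale.Agent.P159 Vale.Agent.P159.H353
open Vale.Agent.P159.TM.H60 Vale.Agent.P159.TM.H504

/-- difference of two averages in one dimension -/
lemma avg_one (p : ℤ) {N M : ℕ} (hN : 1 ≤ N) (hNM : N ≤ M) :
    ∃ φ : ℤ → ℝ, (∀ t, |φ t| ≤ 1) ∧ ∀ f : ℤ → ℝ,
      ∑ t ∈ Ico p (p + M - 1), φ t * (f (t + 1) - f t) =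
        (∑ x ∈ Ico p (p + N), f x) / N - (∑ x ∈ Ico p (p + M), f x) / M := by
  have hN0 : (0 : ℝ) < N := by exact_mod_cast hN
  have hM0 : (0 : ℝ) < M := by exact_mod_cast (hN.trans hNM)
  have cN : ((#(Ico p (p + N)) : ℕ) : ℝ) = N := by simp
  have cM : ((#(Ico p (p + M)) : ℕ) : ℝ) = M := by simp
  refine ⟨fun t => (∑ u ∈ Ico p (p + N), ∑ v ∈ Ico p (p + M), kk v u t) / (N * M),
    fun t => ?_, fun f => ?_⟩
  · rw [abs_div, abs_of_pos (mul_pos hN0 hM0), div_le_one (mul_pos hN0 hM0)]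
    calc |∑ u ∈ Ico p (p + N), ∑ v ∈ Ico p (p + M), kk v u t|
        ≤ ∑ u ∈ Ico p (p + N), ∑ v ∈ Ico p (p + M), (1 : ℝ) := by
          refine (abs_sum_le_sum_abs _ _).trans (sum_le_sum fun u _ => ?_)
          exact (abs_sum_le_sum_abs _ _).trans (sum_le_sum fun v _ => abs_kk _ _ _)
      _ = N * M := by
          rw [sum_const, sum_const, nsmul_eq_mul, nsmul_eq_mul, cN, cM]
          ring
  · have h1 : ∀ u ∈ Ico p (p + N), ∀ v ∈ Ico p (p + M),
        ∑ t ∈ Ico p (p + M - 1), kk v u t * (f (t + 1) - f t) = f u - f v := by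
      intro u hu v hv
      refine tele f ?_ hv
      rw [mem_Ico] at hu ⊢
      omega
    have h2 : ∑ t ∈ Ico p (p + M - 1), (∑ u ∈ Ico p (p + N), ∑ v ∈ Ico p (p + M), kk v u t) /
        (N * M) * (f (t + 1) - f t) = (∑ u ∈ Ico p (p + N), ∑ v ∈ Ico p (p + M),
          ∑ t ∈ Ico p (p + M - 1), kk v u t * (f (t + 1) - f t)) / (N * M) := by
      have : ∀ t, (∑ u ∈ Ico p (p + N), ∑ v ∈ Ico p (p + M), kk v u t) /
        (N * M) * (f (t + 1) - f t) = ∑ u ∈ Ico p (p + N), ∑ v ∈ Ico p (p + M),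
          kk v u t * (f (t + 1) - f t) / (N * M) := by
        intro t
        rw [sum_div, sum_mul]
        refine sum_congr rfl fun u _ => ?_
        rw [sum_div, sum_mul]
        refine sum_congr rfl fun v _ => ?_
        ring
      simp only [this]
      rw [sum_comm, sum_div]
      refine sum_congr rfl fun u _ => ?_
      rw [sum_comm, sum_div]
      refine sum_congr rfl fun v _ => ?_
      rw [sum_div]
    rw [h2, sum_congr rfl fun u hu => sum_congr rfl fun v hv => h1 u hu v hv]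
    have h3 : ∑ u ∈ Ico p (p + N), ∑ v ∈ Ico p (p + M), (f u - f v) =
        M * (∑ u ∈ Ico p (p + N), f u) - N * ∑ v ∈ Ico p (p + M), f v := by
      simp only [sum_sub_distrib, sum_const, nsmul_eq_mul, cN, cM]
      rw [← mul_sum]
    rw [h3]
    field_simp

/-- **flow from the uniform measure of a box to the uniform measure of a larger box** -/
theorem box_flow (p q : ℤ) {N M : ℕ} (hN : 1 ≤ N) (hNM : N ≤ M) :
    ∃ a b : ℤ × ℤ → ℝ, (∀ u : ℤ × ℤ → ℝ, Dv p q M a b u =
        (∑ z ∈ Bx p q N, u z) / (N : ℝ) ^ 2 - (∑ z ∈ Bx p q M, u z) / (M : ℝ) ^ 2) ∧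
      (∀ z, |a z| ≤ 1 / N) ∧ (∀ z, |b z| ≤ 1 / N) ∧ Fe p q M a b ≤ M / N + 1 := by
  have hN0 : (0 : ℝ) < N := by exact_mod_cast hN
  have hM0 : (0 : ℝ) < M := by exact_mod_cast (hN.trans hNM)
  have hNM' : (N : ℝ) ≤ M := by exact_mod_cast hNM
  obtain ⟨φ, hφ1, hφ2⟩ := avg_one p hN hNM
  obtain ⟨ψ, hψ1, hψ2⟩ := avg_one q hN hNM
  refine ⟨fun z => if z.2 ∈ Ico q (q + N) then φ z.1 / N else 0, fun z => ψ z.2 / M,
    fun u => ?_, fun z => ?_, fun z => ?_, ?_⟩
  · unfold Dv Bx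
    rw [sum_product, sum_product]
    have h1 : ∑ x ∈ Ico p (p + M - 1), ∑ y ∈ Ico q (q + M),
        (if (x, y).2 ∈ Ico q (q + N) then φ (x, y).1 / N else 0) * (u (x + 1, y) - u (x, y)) =
        (∑ y ∈ Ico q (q + N), ((∑ x ∈ Ico p (p + N), u (x, y)) / N -
          (∑ x ∈ Ico p (p + M), u (x, y)) / M)) / N := by
      rw [sum_comm]
      have hsub : Ico q (q + (N : ℤ)) ⊆ Ico q (q + (M : ℤ)) := by
        intro y hy
        rw [mem_Ico] at hy ⊢
        omega
      rw [← sum_subset hsub, sum_div]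
      · refine sum_congr rfl fun y hy => ?_
        rw [← hφ2 fun x => u (x, y), sum_div]
        refine sum_congr rfl fun x _ => ?_
        simp only
        rw [if_pos hy]
        ring
      · intro y _ hy
        refine sum_eq_zero fun x _ => ?_
        simp only
        rw [if_neg hy, zero_mul]
    have h2 : ∑ x ∈ Ico p (p + M), ∑ y ∈ Ico q (q + M - 1),
        ψ (x, y).2 / M * (u (x, y + 1) - u (x, y)) =
        (∑ x ∈ Ico p (p + M), ((∑ y ∈ Ico q (q + N), u (x, y)) / N -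
          (∑ y ∈ Ico q (q + M), u (x, y)) / M)) / M := by
      rw [sum_div]
      refine sum_congr rfl fun x _ => ?_
      rw [← hψ2 fun y => u (x, y), sum_div]
      refine sum_congr rfl fun y _ => ?_
      simp only
      ring
    rw [h1, h2, sum_sub_distrib, sum_sub_distrib, ← sum_div, ← sum_div, ← sum_div, ← sum_div,
      sum_comm (s := Ico q (q + (N : ℤ))) (t := Ico p (p + (N : ℤ))),
      sum_comm (s := Ico q (q + (N : ℤ))) (t := Ico p (p + (M : ℤ)))]
    field_simp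
    ring
  · beta_reduce
    split_ifs
    · rw [abs_div, abs_of_pos hN0]
      exact div_le_div_of_nonneg_right (hφ1 _) hN0.le
    · rw [abs_zero]; positivity
  · rw [abs_div, abs_of_pos hM0]
    calc |ψ z.2| / M ≤ 1 / M := div_le_div_of_nonneg_right (hψ1 _) hM0.le
      _ ≤ 1 / N := one_div_le_one_div_of_le hN0 hNM'
  · unfold Fe
    have h0 : ∀ r : ℤ, ((#(Ico r (r + M - 1)) : ℕ) : ℝ) ≤ M := by
      intro r
      rw [Int.card_Ico]
      have : (r + M - 1 - r).toNat ≤ M := by omega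
      exact_mod_cast this
    have hcN : ((#(Ico q (q + N)) : ℕ) : ℝ) = N := by simp
    have hcM : ((#(Ico p (p + M)) : ℕ) : ℝ) = M := by simp
    have hsq : ∀ x : ℝ, |x| ≤ 1 → x ^ 2 ≤ 1 := fun x hx => by
      rw [← sq_abs]; nlinarith [abs_nonneg x]
    have h1 : ∑ x ∈ Ico p (p + M - 1), ∑ y ∈ Ico q (q + M),
        (if (x, y).2 ∈ Ico q (q + N) then φ (x, y).1 / N else 0) ^ 2 ≤ M / N := by
      calc _ ≤ ∑ x ∈ Ico p (p + M - 1), (1 : ℝ) / N := by
            refine sum_le_sum fun x _ => ?_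
            have hsub : Ico q (q + (N : ℤ)) ⊆ Ico q (q + (M : ℤ)) := by
              intro y hy
              rw [mem_Ico] at hy ⊢
              omega
            rw [← sum_subset hsub]
            · calc _ ≤ ∑ y ∈ Ico q (q + (N : ℤ)), (1 : ℝ) / N ^ 2 := by
                    refine sum_le_sum fun y hy => ?_
                    simp only
                    rw [if_pos hy, div_pow]
                    exact div_le_div_of_nonneg_right (hsq _ (hφ1 x)) (by positivity)
                _ = 1 / N := by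
                    rw [sum_const, nsmul_eq_mul, hcN]
                    field_simp
            · intro y _ hy
              simp only
              rw [if_neg hy]
              simp
        _ ≤ M / N := by
            rw [sum_const, nsmul_eq_mul, mul_one_div]
            exact div_le_div_of_nonneg_right (h0 p) hN0.le
    have h2 : ∑ x ∈ Ico p (p + M), ∑ y ∈ Ico q (q + M - 1), (ψ (x, y).2 / M) ^ 2 ≤ 1 := by
      calc _ ≤ ∑ x ∈ Ico p (p + M), (1 : ℝ) / M := by
            refine sum_le_sum fun x _ => ?_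
            calc _ ≤ ∑ y ∈ Ico q (q + (M : ℤ) - 1), (1 : ℝ) / M ^ 2 := by
                  refine sum_le_sum fun y _ => ?_
                  rw [div_pow]
                  exact div_le_div_of_nonneg_right (hsq _ (hψ1 _)) (by positivity)
              _ ≤ 1 / M := by
                  rw [sum_const, nsmul_eq_mul]
                  calc _ ≤ (M : ℝ) * (1 / M ^ 2) :=
                        mul_le_mul_of_nonneg_right (h0 q) (by positivity)
                    _ = 1 / M := by field_simp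
        _ = 1 := by
            rw [sum_const, nsmul_eq_mul, hcM]
            field_simp
    exact add_le_add h1 h2

lemma Grid.mono {n : ℕ} {E : Type} {s t : E → ZMod n × ZMod n} {p q : ℤ} {N M : ℕ}
    {j : (ℤ × ℤ) × Bool → E} (G : Grid s t p q M j) (hNM : N ≤ M) : Grid s t p q N j where
  hor := fun z hz => G.hor z (by
    rw [Hz, mem_product, mem_Ico, mem_Ico] at hz ⊢
    omega)
  ver := fun z hz => G.ver z (by
    rw [Vz, mem_product, mem_Ico, mem_Ico] at hz ⊢
    omega)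

/-- the average over the box -/
noncomputable def bav (n : ℕ) (p q : ℤ) (N : ℕ) (u : ZMod n × ZMod n → ℝ) : ℝ :=
  (∑ z ∈ Bx p q N, u (pt n z)) / (N : ℝ) ^ 2

/-- **dyadic flow**: from a box of side `N` to a box of side `2^k N` -/
theorem dyadic_flow {n : ℕ} {E : Type} [Fintype E] [DecidableEq E] {s t : E → ZMod n × ZMod n}
    {p q : ℤ} {N : ℕ} (hN : 1 ≤ N) (k : ℕ) {j : (ℤ × ℤ) × Bool → E}
    (G : Grid s t p q (N * 2 ^ k) j) (hn : N * 2 ^ k ≤ n) :
    ∃ α : E → ℝ, (∀ u : ZMod n × ZMod n → ℝ,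
        bav n p q N u = ∑ e, α e * (u (t e) - u (s e)) + bav n p q (N * 2 ^ k) u) ∧
      (∀ e, |α e| ≤ 2 / N) ∧ ∑ e, α e ^ 2 ≤ 3 * (k : ℝ) ^ 2 := by
  have hN0 : (0 : ℝ) < N := by exact_mod_cast hN
  have hNi : ∀ i : ℕ, 1 ≤ N * 2 ^ i := fun i => Nat.mul_pos hN (by positivity)
  have hstep : ∀ i : ℕ, ∃ α : E → ℝ, i < k → (∀ u : ZMod n × ZMod n → ℝ,
      ∑ e, α e * (u (t e) - u (s e)) = bav n p q (N * 2 ^ i) u - bav n p q (N * 2 ^ (i + 1)) u) ∧
      (∀ e, |α e| ≤ (1 / N) * (1 / 2) ^ i) ∧ ∑ e, α e ^ 2 ≤ 3 := by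
    intro i
    by_cases hi : i < k
    · have hle : N * 2 ^ (i + 1) ≤ N * 2 ^ k :=
        Nat.mul_le_mul_left N (Nat.pow_le_pow_right (by norm_num) hi)
      have hle' : N * 2 ^ i ≤ N * 2 ^ (i + 1) :=
        Nat.mul_le_mul_left N (Nat.pow_le_pow_right (by norm_num) (Nat.le_succ i))
      obtain ⟨a, b, h1, h2, h3, h4⟩ := box_flow p q (hNi i) hle'
      have hMpos : (0 : ℝ) ≤ 1 / ((N * 2 ^ i : ℕ) : ℝ) := by positivity
      obtain ⟨α, g1, g2, g3⟩ := grid_flow (G.mono hle) (hle.trans hn) a b hMpos h2 h3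
      refine ⟨α, fun _ => ⟨fun u => ?_, fun e => (g2 e).trans (le_of_eq ?_), ?_⟩⟩
      · rw [g1 u, h1]
        rfl
      · push_cast
        rw [one_div_pow]
        field_simp
      · rw [g3]
        refine h4.trans (le_of_eq ?_)
        push_cast
        rw [pow_succ]
        field_simp
        norm_num
    · exact ⟨0, fun h => absurd h hi⟩
  choose α hα using hstep
  refine ⟨fun e => ∑ i ∈ range k, α i e, fun u => ?_, fun e => ?_, ?_⟩
  · have h1 : ∑ e, (∑ i ∈ range k, α i e) * (u (t e) - u (s e)) =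
        ∑ i ∈ range k, ∑ e, α i e * (u (t e) - u (s e)) := by
      rw [sum_comm]
      refine sum_congr rfl fun e _ => ?_
      rw [sum_mul]
    rw [h1, sum_congr rfl fun i hi => (hα i (mem_range.1 hi)).1 u]
    have h2 := Finset.sum_range_sub (fun i => bav n p q (N * 2 ^ i) u) k
    have h3 : ∑ i ∈ range k, (bav n p q (N * 2 ^ i) u - bav n p q (N * 2 ^ (i + 1)) u) =
        -(∑ i ∈ range k, (bav n p q (N * 2 ^ (i + 1)) u - bav n p q (N * 2 ^ i) u)) := by
      rw [← sum_neg_distrib]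
      exact sum_congr rfl fun i _ => by ring
    rw [h3, h2]
    simp only [pow_zero, mul_one]
    ring
  · calc |∑ i ∈ range k, α i e| ≤ ∑ i ∈ range k, (1 / N) * (1 / 2 : ℝ) ^ i := by
          refine (abs_sum_le_sum_abs _ _).trans (sum_le_sum fun i hi => ?_)
          exact (hα i (mem_range.1 hi)).2.1 e
      _ = (1 / N) * ∑ i ∈ range k, (1 / 2 : ℝ) ^ i := by rw [mul_sum]
      _ ≤ (1 / N) * 2 := by
          refine mul_le_mul_of_nonneg_left ?_ (by positivity)
          rw [geom_sum_eq (by norm_num)]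
          have : (0 : ℝ) ≤ (1 / 2) ^ k := by positivity
          rw [div_le_iff_of_neg (by norm_num)]
          linarith
      _ = 2 / N := by ring
  · calc ∑ e, (∑ i ∈ range k, α i e) ^ 2 ≤ ∑ e, (k : ℝ) * ∑ i ∈ range k, α i e ^ 2 := by
          refine sum_le_sum fun e _ => ?_
          have := sq_sum_le_card_mul_sum_sq (s := range k) (f := fun i => α i e)
          rwa [card_range] at this
      _ = k * ∑ i ∈ range k, ∑ e, α i e ^ 2 := by
          rw [← mul_sum, sum_comm]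
      _ ≤ k * ∑ i ∈ range k, (3 : ℝ) :=
          mul_le_mul_of_nonneg_left (sum_le_sum fun i hi => (hα i (mem_range.1 hi)).2.2)
            (Nat.cast_nonneg k)
      _ = 3 * (k : ℝ) ^ 2 := by
          rw [sum_const, card_range, nsmul_eq_mul]
          ring

/-! ### moments of the average over a box -/

section moments

open Vale.Agent.P159.TM.H426

/-- Gaussian site weights -/
noncomputable def ga {V : Type} (m : V → ℝ) (x : V) (n : ℤ) : ℝ :=
  Real.exp (-(m x / 2) * (n : ℝ) ^ 2)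

variable {n : ℕ} [NeZero n] {E : Type} [Fintype E] [DecidableEq E]
  {s t : E → ZMod n × ZMod n}

/-- the constant in the exponential moments -/
noncomputable def cst (bb : ℝ) (k : ℕ) (m0 : ℝ) (N : ℕ) : ℝ :=
  3 * (k : ℝ) ^ 2 * bb + 1 / (2 * m0 * ((N : ℝ) * 2 ^ k) ^ 2)

/-- **exponential moments of the average over a box** -/
theorem mgf_box {p q : ℤ} {N : ℕ} (hN : 1 ≤ N) (k : ℕ) {j : (ℤ × ℤ) × Bool → E}
    (G : Grid s t p q (N * 2 ^ k) j) (hn : N * 2 ^ k ≤ n)
    {b : E → ℝ} {bb : ℝ} (hb : ∀ e, 0 ≤ b e) (hbb : ∀ e, b e ≤ bb) (hbb0 : 0 ≤ bb)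
    {m : ZMod n × ZMod n → ℝ} {m0 : ℝ} (hm0 : 0 < m0) (hm : ∀ v, m0 ≤ m v) {θ : ℝ}
    (hθ : |θ| * (2 / N) ≤ 1) :
    (Summable fun h : ZMod n × ZMod n → ℤ => W1h s t (fun e => wI (b e)) (ga m) h *
      Real.exp (θ * bav n p q N fun x => (h x : ℝ))) ∧
    ∑' h : ZMod n × ZMod n → ℤ, W1h s t (fun e => wI (b e)) (ga m) h *
      Real.exp (θ * bav n p q N fun x => (h x : ℝ)) ≤
      Real.exp (θ ^ 2 * cst bb k m0 N) *
        ∑' h : ZMod n × ZMod n → ℤ, W1h s t (fun e => wI (b e)) (ga m) h := by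
  classical
  have hN0 : (0 : ℝ) < N := by exact_mod_cast hN
  obtain ⟨α, h1, h2, h3⟩ := dyadic_flow hN k G hn
  set N' : ℕ := N * 2 ^ k with hN'
  have hN'0 : (0 : ℝ) < N' := by
    have : 1 ≤ N' := Nat.mul_pos hN (by positivity)
    exact_mod_cast this
  set B : Finset (ZMod n × ZMod n) := (Bx p q N').image (pt n) with hB
  set ρ : ZMod n × ZMod n → ℝ := fun x => if x ∈ B then θ / (N' : ℝ) ^ 2 else 0 with hρ
  have hcB : (#B : ℝ) = (N' : ℝ) ^ 2 := by
    rw [hB, card_image_of_injOn (pt_inj hn), Bx, card_product]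
    simp
    ring
  have hkey := bare_le s t hb ∅ (m := m) (fun x _ => lt_of_lt_of_le hm0 (hm x))
    (fun e => θ * α e) ρ
  have e0 : ∀ (x : ZMod n × ZMod n) (l : ℤ), sA ∅ m x l = ga m x l := by
    intro x l
    unfold sA ga
    rw [if_neg (Finset.notMem_empty x)]
  have e1 : ∀ h : ZMod n × ZMod n → ℤ, ∑ e, θ * α e * ((h (t e) : ℝ) - h (s e)) +
      ∑ x, ρ x * h x = θ * bav n p q N fun x => (h x : ℝ) := by
    intro h
    rw [h1 fun x => (h x : ℝ), mul_add, mul_sum]
    congr 1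
    · exact sum_congr rfl fun e _ => by ring
    · rw [hρ]
      simp only [ite_mul, zero_mul]
      rw [sum_ite_mem, univ_inter, ← mul_sum, hB, sum_image (fun x hx y hy h => pt_inj hn hx hy h)]
      unfold bav
      ring
  simp only [e0, e1] at hkey
  refine ⟨hkey.1, hkey.2.trans ?_⟩
  refine mul_le_mul_of_nonneg_right (Real.exp_le_exp.2 ?_) (tsum_nonneg fun h =>
    mul_nonneg (Finset.prod_nonneg fun e _ => wI_nonneg (hb e) _)
      (Finset.prod_nonneg fun x _ => (Real.exp_pos _).le))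
  have h4 : ∑ e, b e * (Real.cosh (θ * α e) - 1) ≤ θ ^ 2 * (3 * (k : ℝ) ^ 2 * bb) := by
    calc ∑ e, b e * (Real.cosh (θ * α e) - 1) ≤ ∑ e, bb * (θ ^ 2 * α e ^ 2) := by
          refine sum_le_sum fun e _ => ?_
          have h5 : |θ * α e| ≤ 1 := by
            rw [abs_mul]
            exact (mul_le_mul_of_nonneg_left (h2 e) (abs_nonneg θ)).trans hθ
          have h6 := cosh_sub_one_le h5
          rw [mul_pow] at h6
          exact mul_le_mul (hbb e) h6 (by linarith [Real.one_le_cosh (θ * α e)]) hbb0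
      _ = bb * (θ ^ 2 * ∑ e, α e ^ 2) := by rw [mul_sum, mul_sum]
      _ ≤ bb * (θ ^ 2 * (3 * (k : ℝ) ^ 2)) :=
          mul_le_mul_of_nonneg_left (mul_le_mul_of_nonneg_left h3 (sq_nonneg _)) hbb0
      _ = _ := by ring
  have h7 : ∑ x ∈ (∅ : Finset (ZMod n × ZMod n))ᶜ, ρ x ^ 2 / (2 * m x) ≤
      θ ^ 2 * (1 / (2 * m0 * ((N : ℝ) * 2 ^ k) ^ 2)) := by
    rw [compl_empty]
    calc ∑ x, ρ x ^ 2 / (2 * m x) ≤ ∑ x, (if x ∈ B then (θ / (N' : ℝ) ^ 2) ^ 2 / (2 * m0)
            else 0) := by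
          refine sum_le_sum fun x _ => ?_
          rw [hρ]
          simp only
          split_ifs
          · exact div_le_div_of_nonneg_left (sq_nonneg _) (by positivity)
              (by linarith [hm x])
          · simp
      _ = (N' : ℝ) ^ 2 * ((θ / (N' : ℝ) ^ 2) ^ 2 / (2 * m0)) := by
          rw [sum_ite_mem, univ_inter, sum_const, nsmul_eq_mul, hcB]
      _ = θ ^ 2 * (1 / (2 * m0 * ((N : ℝ) * 2 ^ k) ^ 2)) := by
          have : (N : ℝ) * 2 ^ k = N' := by rw [hN']; push_cast; rfl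
          rw [this]
          field_simp
  unfold cst
  rw [mul_add]
  exact add_le_add h4 h7

/-- `x⁴ ≤ 24 (e^x + e^{-x})` -/
lemma pow_four_le (x : ℝ) : x ^ 4 ≤ 24 * (Real.exp x + Real.exp (-x)) := by
  have h1 := Real.pow_div_factorial_le_exp |x| (abs_nonneg x) 4
  have h2 : |x| ^ 4 = x ^ 4 := by
    rw [show (4 : ℕ) = 2 * 2 by norm_num, pow_mul, pow_mul, sq_abs]
  rw [h2] at h1
  have h3 : Real.exp |x| ≤ Real.exp x + Real.exp (-x) := by
    rcases abs_choice x with h | h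
    · rw [h]; linarith [Real.exp_pos (-x)]
    · rw [h]; linarith [Real.exp_pos x]
  have h4 : ((Nat.factorial 4 : ℕ) : ℝ) = 24 := by norm_num [Nat.factorial]
  rw [h4, div_le_iff₀ (by norm_num)] at h1
  nlinarith

/-- `x² ≤ 2 (e^x + e^{-x})` -/
lemma pow_two_le (x : ℝ) : x ^ 2 ≤ 2 * (Real.exp x + Real.exp (-x)) := by
  have h1 := Real.pow_div_factorial_le_exp |x| (abs_nonneg x) 2
  rw [sq_abs] at h1
  have h3 : Real.exp |x| ≤ Real.exp x + Real.exp (-x) := by
    rcases abs_choice x with h | h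
    · rw [h]; linarith [Real.exp_pos (-x)]
    · rw [h]; linarith [Real.exp_pos x]
  have h4 : ((Nat.factorial 2 : ℕ) : ℝ) = 2 := by norm_num [Nat.factorial]
  rw [h4, div_le_iff₀ (by norm_num)] at h1
  nlinarith

/-- **fourth moment of the average over a box** -/
theorem fourth_box {p q : ℤ} {N : ℕ} (hN : 1 ≤ N) (k : ℕ) {j : (ℤ × ℤ) × Bool → E}
    (G : Grid s t p q (N * 2 ^ k) j) (hn : N * 2 ^ k ≤ n)
    {b : E → ℝ} {bb : ℝ} (hb : ∀ e, 0 ≤ b e) (hbb : ∀ e, b e ≤ bb) (hbb0 : 0 ≤ bb)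
    {m : ZMod n × ZMod n → ℝ} {m0 : ℝ} (hm0 : 0 < m0) (hm : ∀ v, m0 ≤ m v)
    (hC : 4 ≤ (N : ℝ) ^ 2 * cst bb k m0 N) :
    (Summable fun h : ZMod n × ZMod n → ℤ => W1h s t (fun e => wI (b e)) (ga m) h) ∧
    (Summable fun h : ZMod n × ZMod n → ℤ => W1h s t (fun e => wI (b e)) (ga m) h *
      (bav n p q N fun x => (h x : ℝ)) ^ 2) ∧
    (Summable fun h : ZMod n × ZMod n → ℤ => W1h s t (fun e => wI (b e)) (ga m) h *
      (bav n p q N fun x => (h x : ℝ)) ^ 4) ∧
    ∑' h : ZMod n × ZMod n → ℤ, W1h s t (fun e => wI (b e)) (ga m) h *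
      (bav n p q N fun x => (h x : ℝ)) ^ 4 ≤ 144 * cst bb k m0 N ^ 2 *
        ∑' h : ZMod n × ZMod n → ℤ, W1h s t (fun e => wI (b e)) (ga m) h := by
  have hN0 : (0 : ℝ) < N := by exact_mod_cast hN
  set C := cst bb k m0 N with hCd
  have hC0 : 0 < C := by
    by_contra h
    have : (N : ℝ) ^ 2 * C ≤ 0 := mul_nonpos_of_nonneg_of_nonpos (by positivity) (not_lt.1 h)
    linarith
  set θ : ℝ := 1 / Real.sqrt C with hθ
  have hsC : 0 < Real.sqrt C := Real.sqrt_pos.2 hC0
  have hθ0 : 0 < θ := by positivity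
  have hθ2 : θ ^ 2 * C = 1 := by
    rw [hθ, div_pow, one_pow, Real.sq_sqrt hC0.le]
    field_simp
  have hθN : |θ| * (2 / N) ≤ 1 := by
    rw [abs_of_pos hθ0, hθ]
    have : 2 ≤ N * Real.sqrt C := by
      have h1 : Real.sqrt (N ^ 2 * C) = N * Real.sqrt C := by
        rw [Real.sqrt_mul (by positivity), Real.sqrt_sq hN0.le]
      rw [← h1]
      exact Real.le_sqrt_of_sq_le (by linarith)
    rw [div_mul_div_comm, one_mul, div_le_one (by positivity)]
    linarith [mul_comm (Real.sqrt C) (N : ℝ)]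
  have hθN' : |(-θ)| * (2 / N) ≤ 1 := by rwa [abs_neg]
  obtain ⟨s1, l1⟩ := mgf_box (s := s) (t := t) hN k G hn hb hbb hbb0 hm0 hm hθN
  obtain ⟨s2, l2⟩ := mgf_box (s := s) (t := t) hN k G hn hb hbb hbb0 hm0 hm hθN'
  have s0 : Summable fun h : ZMod n × ZMod n → ℤ => W1h s t (fun e => wI (b e)) (ga m) h := by
    have := (mgf_box (s := s) (t := t) (θ := 0) hN k G hn hb hbb hbb0 hm0 hm (by simp)).1
    simpa using this
  set W : (ZMod n × ZMod n → ℤ) → ℝ := fun h => W1h s t (fun e => wI (b e)) (ga m) h with hW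
  have W0 : ∀ h, 0 ≤ W h := fun h => mul_nonneg (Finset.prod_nonneg fun e _ =>
    wI_nonneg (hb e) _) (Finset.prod_nonneg fun x _ => (Real.exp_pos _).le)
  set X : (ZMod n × ZMod n → ℤ) → ℝ := fun h => bav n p q N fun x => (h x : ℝ) with hX
  have ss := s1.add s2
  have b4 : ∀ h, W h * X h ^ 4 ≤ 24 * C ^ 2 * (W h * Real.exp (θ * X h) +
      W h * Real.exp (-θ * X h)) := by
    intro h
    have h1 := pow_four_le (θ * X h)
    have h2 : (θ * X h) ^ 4 * C ^ 2 = X h ^ 4 := by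
      calc (θ * X h) ^ 4 * C ^ 2 = (θ ^ 2 * C) ^ 2 * X h ^ 4 := by ring
        _ = X h ^ 4 := by rw [hθ2]; ring
    rw [← h2, show -(θ * X h) = -θ * X h by ring] at *
    have h3 := mul_le_mul_of_nonneg_right h1 (sq_nonneg C)
    have h4 := mul_le_mul_of_nonneg_left h3 (W0 h)
    linarith
  have b2 : ∀ h, W h * X h ^ 2 ≤ 2 * C * (W h * Real.exp (θ * X h) +
      W h * Real.exp (-θ * X h)) := by
    intro h
    have h1 := pow_two_le (θ * X h)
    have h2 : (θ * X h) ^ 2 * C = X h ^ 2 := by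
      calc (θ * X h) ^ 2 * C = (θ ^ 2 * C) * X h ^ 2 := by ring
        _ = X h ^ 2 := by rw [hθ2]; ring
    rw [← h2, show -(θ * X h) = -θ * X h by ring] at *
    have h3 := mul_le_mul_of_nonneg_right h1 hC0.le
    have h4 := mul_le_mul_of_nonneg_left h3 (W0 h)
    linarith
  have S4 : Summable fun h => W h * X h ^ 4 :=
    Summable.of_nonneg_of_le (fun h => mul_nonneg (W0 h) (by positivity)) b4 (ss.mul_left _)
  have S2 : Summable fun h => W h * X h ^ 2 :=
    Summable.of_nonneg_of_le (fun h => mul_nonneg (W0 h) (by positivity)) b2 (ss.mul_left _)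
  refine ⟨s0, S2, S4, ?_⟩
  calc ∑' h, W h * X h ^ 4 ≤ ∑' h, 24 * C ^ 2 * (W h * Real.exp (θ * X h) +
        W h * Real.exp (-θ * X h)) := S4.tsum_le_tsum b4 (ss.mul_left _)
    _ = 24 * C ^ 2 * (∑' h, W h * Real.exp (θ * X h) + ∑' h, W h * Real.exp (-θ * X h)) := by
        rw [tsum_mul_left, s1.tsum_add s2]
    _ ≤ 24 * C ^ 2 * (Real.exp 1 * (∑' h, W h) + Real.exp 1 * ∑' h, W h) := by
        refine mul_le_mul_of_nonneg_left (add_le_add ?_ ?_) (by positivity)
        · rw [hθ2] at l1; exact l1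
        · rw [neg_sq, hθ2] at l2; exact l2
    _ ≤ 144 * C ^ 2 * ∑' h, W h := by
        have h5 : Real.exp 1 ≤ 3 := by linarith [Real.exp_one_lt_d9]
        have h6 : 0 ≤ ∑' h, W h := tsum_nonneg W0
        nlinarith [mul_nonneg (mul_nonneg (sq_nonneg C) h6) (sub_nonneg.2 h5)]

end moments

end Vale.Agent.P159.TM.H77
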