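import Mathlib

/-!
# Calculus of `∑ p / (q + r w)` (Stieltjes type sums) and the geometric sum on a ring
-/

open Finset Complex
open scoped BigOperators

namespace Vale.Agent.P159.TM.H77

section Stieltjes

variable {ι : Type*} [Fintype ι] (p q r : ι → ℝ) (c : ℝ)

/-- regular part -/
noncomputable def sP (w : ℝ) : ℝ := ∑ i, p i / (q i + r i * w)

/-- full function: a possible extra mass at `w = 0` -/
noncomputable def sG (w : ℝ) : ℝ := sP p q r w + if w = 0 then c else 0

variable {p q r c}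

theorem sP_nonneg (hp : ∀ i, 0 ≤ p i) (hq : ∀ i, 0 < q i) (hr : ∀ i, 0 ≤ r i) {w : ℝ}
    (hw : 0 ≤ w) : 0 ≤ sP p q r w :=
  Finset.sum_nonneg fun i _ => div_nonneg (hp i) (add_nonneg (hq i).le (mul_nonneg (hr i) hw))

theorem sP_anti (hp : ∀ i, 0 ≤ p i) (hq : ∀ i, 0 < q i) (hr : ∀ i, 0 ≤ r i) {w w' : ℝ}
    (hw : 0 ≤ w) (h : w ≤ w') : sP p q r w' ≤ sP p q r w := by
  refine Finset.sum_le_sum fun i _ => ?_
  have h1 : 0 < q i + r i * w := add_pos_of_pos_of_nonneg (hq i) (mul_nonneg (hr i) hw)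
  exact div_le_div_of_nonneg_left (hp i) h1 (by
    have := mul_le_mul_of_nonneg_left h (hr i)
    linarith)

theorem sP_mul_mono (hp : ∀ i, 0 ≤ p i) (hq : ∀ i, 0 < q i) (hr : ∀ i, 0 ≤ r i) {w w' : ℝ}
    (hw : 0 ≤ w) (h : w ≤ w') : w * sP p q r w ≤ w' * sP p q r w' := by
  unfold sP
  rw [Finset.mul_sum, Finset.mul_sum]
  refine Finset.sum_le_sum fun i _ => ?_
  have h1 : 0 < q i + r i * w := add_pos_of_pos_of_nonneg (hq i) (mul_nonneg (hr i) hw)
  have h2 : 0 < q i + r i * w' :=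
    add_pos_of_pos_of_nonneg (hq i) (mul_nonneg (hr i) (hw.trans h))
  rw [← mul_div_assoc, ← mul_div_assoc, div_le_div_iff₀ h1 h2]
  have h3 : 0 ≤ p i * q i * (w' - w) :=
    mul_nonneg (mul_nonneg (hp i) (hq i).le) (sub_nonneg.2 h)
  nlinarith [h3]

/-- harmonic mean concavity, one term -/
theorem term_le {p x y al : ℝ} (hp : 0 ≤ p) (hx : 0 < x) (hy : 0 < y) :
    p / (x + y) ≤ al ^ 2 * (p / x) + (1 - al) ^ 2 * (p / y) := by
  have h : al ^ 2 * (p / x) + (1 - al) ^ 2 * (p / y) - p / (x + y) =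
      p * (al * y - (1 - al) * x) ^ 2 / (x * y * (x + y)) := by
    field_simp
    ring
  have h2 : 0 ≤ p * (al * y - (1 - al) * x) ^ 2 / (x * y * (x + y)) := by positivity
  linarith

theorem sP_chord (hp : ∀ i, 0 ≤ p i) (hq : ∀ i, 0 < q i) (hr : ∀ i, 0 ≤ r i) {w0 w2 th : ℝ}
    (h0 : 0 ≤ w0) (h2 : 0 ≤ w2) (ht0 : 0 < th) (ht1 : th < 1) :
    sP p q r (th * w0 + (1 - th) * w2) * (th * sP p q r w2 + (1 - th) * sP p q r w0) ≤
      sP p q r w0 * sP p q r w2 := by
  set A := sP p q r w0 with hA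
  set B := sP p q r w2 with hB
  have hA0 : 0 ≤ A := sP_nonneg hp hq hr h0
  have hB0 : 0 ≤ B := sP_nonneg hp hq hr h2
  have ht1' : 0 < 1 - th := by linarith
  have key : ∀ al : ℝ, sP p q r (th * w0 + (1 - th) * w2) ≤
      al ^ 2 * (A / th) + (1 - al) ^ 2 * (B / (1 - th)) := by
    intro al
    rw [hA, hB]
    unfold sP
    rw [Finset.sum_div, Finset.sum_div, Finset.mul_sum, Finset.mul_sum, ← Finset.sum_add_distrib]
    refine Finset.sum_le_sum fun i _ => ?_
    have hx : 0 < q i + r i * w0 := add_pos_of_pos_of_nonneg (hq i) (mul_nonneg (hr i) h0)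
    have hy : 0 < q i + r i * w2 := add_pos_of_pos_of_nonneg (hq i) (mul_nonneg (hr i) h2)
    have h := term_le (al := al) (hp i) (mul_pos ht0 hx) (mul_pos ht1' hy)
    have e : q i + r i * (th * w0 + (1 - th) * w2) =
        th * (q i + r i * w0) + (1 - th) * (q i + r i * w2) := by ring
    rw [e]
    refine h.trans (le_of_eq ?_)
    rw [div_div, div_div, mul_comm th, mul_comm (1 - th)]
  rcases eq_or_lt_of_le hA0 with h | hApos
  · rcases eq_or_lt_of_le hB0 with h' | hBpos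
    · rw [← h, ← h']; simp
    · have := key 1
      rw [← h] at this ⊢
      have h3 : sP p q r (th * w0 + (1 - th) * w2) ≤ 0 := by simpa using this
      have h4 : 0 ≤ th * B + (1 - th) * 0 := by positivity
      rw [zero_mul]
      exact mul_nonpos_of_nonpos_of_nonneg h3 h4
  · have hden : 0 < th * B + (1 - th) * A := by positivity
    have h5 := key (th * B / (th * B + (1 - th) * A))
    have e : (th * B / (th * B + (1 - th) * A)) ^ 2 * (A / th) +
        (1 - th * B / (th * B + (1 - th) * A)) ^ 2 * (B / (1 - th)) =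
        A * B / (th * B + (1 - th) * A) := by
      field_simp
      ring
    rw [e, le_div_iff₀ hden] at h5
    exact h5

theorem sG_nonneg (hp : ∀ i, 0 ≤ p i) (hq : ∀ i, 0 < q i) (hr : ∀ i, 0 ≤ r i) (hc : 0 ≤ c)
    {w : ℝ} (hw : 0 ≤ w) : 0 ≤ sG p q r c w := by
  unfold sG
  have := sP_nonneg hp hq hr hw
  split_ifs <;> linarith

theorem sG_anti (hp : ∀ i, 0 ≤ p i) (hq : ∀ i, 0 < q i) (hr : ∀ i, 0 ≤ r i) (hc : 0 ≤ c)
    {w w' : ℝ} (hw : 0 ≤ w) (h : w ≤ w') : sG p q r c w' ≤ sG p q r c w := by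
  unfold sG
  have := sP_anti hp hq hr hw h
  by_cases h0 : w = 0
  · rw [if_pos h0]
    split_ifs <;> linarith
  · have h1 : w' ≠ 0 := fun h2 => h0 (le_antisymm (h2 ▸ h) hw)
    rw [if_neg h0, if_neg h1]
    linarith

theorem sG_mul_mono (hp : ∀ i, 0 ≤ p i) (hq : ∀ i, 0 < q i) (hr : ∀ i, 0 ≤ r i)
    {w w' : ℝ} (hw : 0 ≤ w) (h : w ≤ w') : w * sG p q r c w ≤ w' * sG p q r c w' := by
  have key : ∀ v : ℝ, v * sG p q r c v = v * sP p q r v := by
    intro v
    unfold sG
    by_cases h0 : v = 0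
    · rw [h0]; simp
    · rw [if_neg h0, add_zero]
  rw [key, key]
  exact sP_mul_mono hp hq hr hw h

theorem sG_chord (hp : ∀ i, 0 ≤ p i) (hq : ∀ i, 0 < q i) (hr : ∀ i, 0 ≤ r i) (hc : 0 ≤ c)
    {w0 w1 w2 th : ℝ} (h0 : 0 ≤ w0) (h2 : 0 ≤ w2) (ht0 : 0 ≤ th) (ht1 : th ≤ 1)
    (h1 : w1 = th * w0 + (1 - th) * w2) :
    sG p q r c w1 * (th * sG p q r c w2 + (1 - th) * sG p q r c w0) ≤
      sG p q r c w0 * sG p q r c w2 := by
  rcases eq_or_lt_of_le ht0 with h | htpos
  · rw [← h] at h1 ⊢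
    have e : w1 = w2 := by rw [h1]; ring
    rw [e]; nlinarith
  rcases eq_or_lt_of_le ht1 with h | htlt
  · rw [h] at h1 ⊢
    have e : w1 = w0 := by rw [h1]; ring
    rw [e]; nlinarith
  rcases eq_or_ne w0 w2 with h | hne
  · have e : w1 = w2 := by rw [h1, h]; ring
    rw [e, h]; nlinarith
  have hw1 : 0 < w1 := by
    rcases lt_or_gt_of_ne hne with h | h
    · have : 0 < w2 := lt_of_le_of_lt h0 h
      rw [h1]; have := mul_pos (sub_pos.2 htlt) this
      have := mul_nonneg ht0 h0; linarith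
    · have : 0 < w0 := lt_of_le_of_lt h2 h
      rw [h1]; have := mul_pos htpos this
      have := mul_nonneg (sub_pos.2 htlt).le h2; linarith
  have hch := sP_chord hp hq hr h0 h2 htpos htlt
  rw [← h1] at hch
  have e1 : sG p q r c w1 = sP p q r w1 := by
    unfold sG; rw [if_neg hw1.ne', add_zero]
  rw [e1]
  have g0 : sP p q r w0 ≤ sG p q r c w0 := by
    unfold sG; split_ifs <;> linarith
  have g2 : sP p q r w2 ≤ sG p q r c w2 := by
    unfold sG; split_ifs <;> linarith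
  set P1 := sP p q r w1
  set P0 := sP p q r w0
  set P2 := sP p q r w2
  set G0 := sG p q r c w0
  set G2 := sG p q r c w2
  have p1 : 0 ≤ P1 := sP_nonneg hp hq hr hw1.le
  have p0 : 0 ≤ P0 := sP_nonneg hp hq hr h0
  have p2 : 0 ≤ P2 := sP_nonneg hp hq hr h2
  have ht1' : 0 < 1 - th := by linarith
  -- P0 - th * P1 ≥ 0 and P2 - (1-th) P1 ≥ 0
  have k2 : (1 - th) * P1 ≤ P2 := by
    rcases eq_or_lt_of_le p0 with h | hpos
    · -- P0 = 0 forces P1 (th P2) ≤ 0
      rw [← h] at hch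
      rcases eq_or_lt_of_le p1 with h' | hp1
      · rw [← h']; simpa using p2
      · have h3 : th * P2 ≤ 0 := by
          by_contra hcon
          push Not at hcon
          nlinarith [mul_pos hp1 hcon]
        have h4 : P2 = 0 := le_antisymm (by nlinarith) p2
        -- P0 = 0 and p,q: then all p i = 0, so P1 = 0
        exfalso
        have hz : ∀ i, p i = 0 := by
          intro i
          have hs : P0 = 0 := h.symm
          have := (Finset.sum_eq_zero_iff_of_nonneg (fun i _ => div_nonneg (hp i)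
            (add_nonneg (hq i).le (mul_nonneg (hr i) h0)))).1 hs i (Finset.mem_univ i)
          have hx : 0 < q i + r i * w0 := add_pos_of_pos_of_nonneg (hq i) (mul_nonneg (hr i) h0)
          rcases div_eq_zero_iff.1 this with h5 | h5
          · exact h5
          · exact absurd h5 hx.ne'
        have : P1 = 0 := Finset.sum_eq_zero fun i _ => by rw [hz i, zero_div]
        linarith
    · have : 0 ≤ th * P1 * P2 := by positivity
      nlinarith
  have k0 : th * P1 ≤ P0 := by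
    rcases eq_or_lt_of_le p2 with h | hpos
    · rcases eq_or_lt_of_le p1 with h' | hp1
      · rw [← h']; simpa using p0
      · exfalso
        have hz : ∀ i, p i = 0 := by
          intro i
          have hs : P2 = 0 := h.symm
          have := (Finset.sum_eq_zero_iff_of_nonneg (fun i _ => div_nonneg (hp i)
            (add_nonneg (hq i).le (mul_nonneg (hr i) h2)))).1 hs i (Finset.mem_univ i)
          have hx : 0 < q i + r i * w2 := add_pos_of_pos_of_nonneg (hq i) (mul_nonneg (hr i) h2)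
          rcases div_eq_zero_iff.1 this with h5 | h5
          · exact h5
          · exact absurd h5 hx.ne'
        have : P1 = 0 := Finset.sum_eq_zero fun i _ => by rw [hz i, zero_div]
        linarith
    · have : 0 ≤ (1 - th) * P1 * P0 := by positivity
      nlinarith
  -- (G0 - th P1)(G2 - (1-th) P1) ≥ (P0 - th P1)(P2 - (1-th)P1) ≥ th (1-th) P1²
  have h6 : (P0 - th * P1) * (P2 - (1 - th) * P1) ≤ (G0 - th * P1) * (G2 - (1 - th) * P1) :=
    mul_le_mul (by linarith) (by linarith) (by linarith) (by linarith)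
  nlinarith

end Stieltjes

/-- the pair term of the ring -/
noncomputable def sS (N : ℕ) (l m w : ℝ) : ℝ :=
  if l = m then (if w = 0 then 2 * N * l ^ N else 0)
  else (l ^ N - m ^ N) * (l ^ 2 - m ^ 2) / ((l - m) ^ 2 + l * m * w)

/-- geometric sums on the ring -/
theorem geom_ring {N : ℕ} (hN : 0 < N) (l m : ℝ) (hl : 0 ≤ l) (hm : 0 ≤ m) {z : ℂ}
    (hz : z ^ N = 1) (hz1 : ‖z‖ = 1) :
    ∑ t ∈ range N, z ^ t * ((l : ℂ) ^ t * (m : ℂ) ^ (N - t) + (l : ℂ) ^ (N - t) * (m : ℂ) ^ t) =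
      (sS N l m (2 - 2 * z.re) : ℂ) := by
  have hz0 : z ≠ 0 := by
    intro h; rw [h] at hz1; simp at hz1
  have hA : ∀ x y : ℝ, (∑ t ∈ range N, z ^ t * ((x : ℂ) ^ t * (y : ℂ) ^ (N - t))) *
      (z * x - y) = y * ((x : ℂ) ^ N - (y : ℂ) ^ N) := by
    intro x y
    have h1 := geom_sum₂_mul (z * (x : ℂ)) (y : ℂ) N
    have h2 : ∑ t ∈ range N, z ^ t * ((x : ℂ) ^ t * (y : ℂ) ^ (N - t)) =
        y * ∑ t ∈ range N, (z * (x : ℂ)) ^ t * (y : ℂ) ^ (N - 1 - t) := by
      rw [Finset.mul_sum]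
      refine Finset.sum_congr rfl fun t ht => ?_
      have ht' := Finset.mem_range.1 ht
      have e : N - t = (N - 1 - t) + 1 := by omega
      rw [e, pow_succ, mul_pow]
      ring
    rw [h2, mul_assoc, h1, mul_pow, hz, one_mul]
  set S := ∑ t ∈ range N, z ^ t * ((l : ℂ) ^ t * (m : ℂ) ^ (N - t) +
    (l : ℂ) ^ (N - t) * (m : ℂ) ^ t) with hS
  have hsplit : S = (∑ t ∈ range N, z ^ t * ((l : ℂ) ^ t * (m : ℂ) ^ (N - t))) +
      ∑ t ∈ range N, z ^ t * ((m : ℂ) ^ t * (l : ℂ) ^ (N - t)) := by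
    rw [hS, ← Finset.sum_add_distrib]
    refine Finset.sum_congr rfl fun t _ => ?_
    ring
  have hD : S * ((z * l - m) * (z * m - l)) =
      z * ((l : ℂ) ^ N - (m : ℂ) ^ N) * ((m : ℂ) ^ 2 - (l : ℂ) ^ 2) := by
    rw [hsplit, add_mul]
    have h1 := hA l m
    have h2 := hA m l
    calc _ = ((∑ t ∈ range N, z ^ t * ((l : ℂ) ^ t * (m : ℂ) ^ (N - t))) * (z * l - m)) *
          (z * m - l) + ((∑ t ∈ range N, z ^ t * ((m : ℂ) ^ t * (l : ℂ) ^ (N - t))) *
          (z * m - l)) * (z * l - m) := by ring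
      _ = _ := by rw [h1, h2]; ring
  have hconj : z⁻¹ = (starRingEnd ℂ) z := by
    rw [Complex.inv_def, Complex.normSq_eq_norm_sq, hz1]
    simp
  have hzz : z + z⁻¹ = ((2 * z.re : ℝ) : ℂ) := by
    rw [hconj, Complex.add_conj]
  have hE : (z * (l : ℂ) - m) * (z * m - l) =
      -z * ((((l - m) ^ 2 + l * m * (2 - 2 * z.re) : ℝ)) : ℂ) := by
    have h3 : ((2 - 2 * z.re : ℝ) : ℂ) = 2 - (z + z⁻¹) := by
      rw [hzz]; push_cast; ring
    have h4 : ((((l - m) ^ 2 + l * m * (2 - 2 * z.re) : ℝ)) : ℂ) =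
        ((l : ℂ) - m) ^ 2 + l * m * (2 - (z + z⁻¹)) := by
      rw [← h3]; push_cast; ring
    rw [h4]
    have h5 : z * z⁻¹ = 1 := mul_inv_cancel₀ hz0
    linear_combination (-(l : ℂ) * m) * h5
  rw [hE] at hD
  have hfin : S * ((((l - m) ^ 2 + l * m * (2 - 2 * z.re) : ℝ)) : ℂ) =
      (((l ^ N - m ^ N) * (l ^ 2 - m ^ 2) : ℝ) : ℂ) := by
    have : z * (S * ((((l - m) ^ 2 + l * m * (2 - 2 * z.re) : ℝ)) : ℂ)) =
        z * (((l ^ N - m ^ N) * (l ^ 2 - m ^ 2) : ℝ) : ℂ) := by
      have e : z * (((l ^ N - m ^ N) * (l ^ 2 - m ^ 2) : ℝ) : ℂ) =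
          -(z * ((l : ℂ) ^ N - (m : ℂ) ^ N) * ((m : ℂ) ^ 2 - (l : ℂ) ^ 2)) := by
        push_cast; ring
      rw [e, ← hD]
      ring
    exact mul_left_cancel₀ hz0 this
  have hre : z.re ≤ 1 := by
    have := Complex.re_le_norm z
    rwa [hz1] at this
  have hw : 0 ≤ 2 - 2 * z.re := by linarith
  unfold sS
  by_cases hlm : l = m
  · rw [if_pos hlm]
    subst hlm
    by_cases hw0 : 2 - 2 * z.re = 0
    · rw [if_pos hw0]
      have hz2 : z = 1 := by
        have h6 : z.re = 1 := by linarith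
        have h7 : z.re ^ 2 + z.im ^ 2 = 1 := by
          have := Complex.sq_norm z
          rw [hz1, Complex.normSq_apply] at this
          nlinarith
        have h8 : z.im = 0 := by nlinarith
        exact Complex.ext (by simpa using h6) (by simpa using h8)
      rw [hS, hz2]
      have : ∀ t ∈ range N, (1 : ℂ) ^ t * ((l : ℂ) ^ t * (l : ℂ) ^ (N - t) +
          (l : ℂ) ^ (N - t) * (l : ℂ) ^ t) = 2 * (l : ℂ) ^ N := by
        intro t ht
        have ht' := Finset.mem_range.1 ht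
        have e : (l : ℂ) ^ t * (l : ℂ) ^ (N - t) = (l : ℂ) ^ N := by
          rw [← pow_add]; congr 1; omega
        rw [one_pow, one_mul, mul_comm ((l : ℂ) ^ (N - t)), e]
        ring
      rw [Finset.sum_congr rfl this, Finset.sum_const, Finset.card_range]
      push_cast
      rw [nsmul_eq_mul]
      ring
    · rw [if_neg hw0]
      rcases eq_or_ne l 0 with h0 | h0
      · rw [hS, h0]
        rw [Finset.sum_eq_zero]
        · simp
        · intro t ht
          have ht' := Finset.mem_range.1 ht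
          have e : N - t ≠ 0 := by omega
          simp [e]
      · have h9 : (l - l) ^ 2 + l * l * (2 - 2 * z.re) ≠ 0 := by
          have : l * l * (2 - 2 * z.re) ≠ 0 := mul_ne_zero (mul_ne_zero h0 h0) hw0
          simpa using this
        have h10 : S * ((((l - l) ^ 2 + l * l * (2 - 2 * z.re) : ℝ)) : ℂ) = 0 := by
          rw [hfin]; simp
        rcases mul_eq_zero.1 h10 with h11 | h11
        · rw [h11]; simp
        · exact absurd (Complex.ofReal_eq_zero.1 h11) h9
  · rw [if_neg hlm]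
    have hpos : 0 < (l - m) ^ 2 + l * m * (2 - 2 * z.re) := by
      have h1 : 0 < (l - m) ^ 2 := by
        have := sub_ne_zero.2 hlm
        positivity
      have h2 : 0 ≤ l * m * (2 - 2 * z.re) := by positivity
      linarith
    rw [Complex.ofReal_div, eq_div_iff (by exact_mod_cast hpos.ne')]
    exact hfin

end Vale.Agent.P159.TM.H77
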