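import Vale.Agent.P159.TM.H77.Pz
import Vale.Agent.P159.TM.H41.Ker

/-!
Row A1: variance of the average of the heights over a box of the torus, from `(H2)`.
-/

open Finset

namespace Vale.Agent.P159.TM.H77

open Vale.Agent.P159.TM.H504
open Vale.Agent.P159.TM.H764 (cN sN Gh frm dt pw ch hatu H2)

variable {N : ℕ} [NeZero N]

lemma normSq_ch (a : ZMod N) : Complex.normSq (ch a) = 1 := by
  have h : (Complex.normSq (ch a) : ℂ) = 1 := by
    rw [← Complex.mul_conj, H764.ch_conj, ← H764.ch_add, add_neg_cancel, H764.ch_zero]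
  exact_mod_cast h

omit [NeZero N] in
lemma dt_pt (j z : ℤ × ℤ) : dt (pt N j) (pt N z) = ((j.1 * z.1 + j.2 * z.2 : ℤ) : ZMod N) := by
  unfold H764.dt pt
  push_cast
  rfl

/-- the Fourier transform of a box at low momenta -/
theorem hat_box_low {p q : ℤ} {L : ℕ} (hL : L ≤ N) {j : ℤ × ℤ} {δ : ℝ}
    (h1 : |2 * Real.pi * j.1 / N| * L ≤ δ) (h2 : |2 * Real.pi * j.2 / N| * L ≤ δ) (hδ : δ ≤ 1) :
    (L : ℝ) ^ 4 / 4 ≤ Complex.normSq
      (hatu (fun x => if x ∈ (Bx p q L).image (pt N) then (1 : ℝ) else 0) (pt N j)) := by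
  classical
  set z0 : ℤ × ℤ := (p + ((L / 2 : ℕ) : ℤ), q + ((L / 2 : ℕ) : ℤ)) with hz0
  have hN : (0 : ℝ) < N := by exact_mod_cast NeZero.pos N
  have e1 : hatu (fun x => if x ∈ (Bx p q L).image (pt N) then (1 : ℝ) else 0) (pt N j) =
      ch (dt (pt N j) (pt N z0)) * ∑ z ∈ Bx p q L, ch (dt (pt N j) (pt N (z - z0))) := by
    unfold H764.hatu
    have h3 : ∀ x : ZMod N × ZMod N,
        (((if x ∈ (Bx p q L).image (pt N) then (1 : ℝ) else 0 : ℝ)) : ℂ) * ch (dt (pt N j) x) =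
        if x ∈ (Bx p q L).image (pt N) then ch (dt (pt N j) x) else 0 := by
      intro x
      split_ifs <;> simp
    simp only [h3]
    rw [sum_ite_mem, univ_inter, sum_image (fun x hx y hy h => pt_inj hL hx hy h), mul_sum]
    refine sum_congr rfl fun z _ => ?_
    rw [← H764.ch_add, ← H764.dt_add, ← pt_add]
    congr 3
    abel
  rw [e1, Complex.normSq_mul, normSq_ch, one_mul]
  have h4 : (L : ℝ) ^ 2 / 2 ≤ (∑ z ∈ Bx p q L, ch (dt (pt N j) (pt N (z - z0)))).re := by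
    rw [Complex.re_sum]
    have h5 : ∀ z ∈ Bx p q L, (1 : ℝ) / 2 ≤ (ch (dt (pt N j) (pt N (z - z0)))).re := by
      intro z hz
      rw [H764.ch_re, dt_pt, H764.cN_int]
      have hzb : |((z - z0).1 : ℝ)| ≤ L / 2 ∧ |((z - z0).2 : ℝ)| ≤ L / 2 := by
        rw [Bx, mem_product, mem_Ico, mem_Ico] at hz
        have a1 : 2 * |(z - z0).1| ≤ (L : ℤ) := by
          simp only [hz0, Prod.fst_sub]
          rcases abs_cases (z.1 - (p + ((L / 2 : ℕ) : ℤ))) with h | h <;> omega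
        have a2 : 2 * |(z - z0).2| ≤ (L : ℤ) := by
          simp only [hz0, Prod.snd_sub]
          rcases abs_cases (z.2 - (q + ((L / 2 : ℕ) : ℤ))) with h | h <;> omega
        have b1 : (2 : ℝ) * |((z - z0).1 : ℝ)| ≤ L := by exact_mod_cast a1
        have b2 : (2 : ℝ) * |((z - z0).2 : ℝ)| ≤ L := by exact_mod_cast a2
        constructor <;> linarith
      have hx : |2 * Real.pi * ((j.1 * (z - z0).1 + j.2 * (z - z0).2 : ℤ) : ℝ) / N| ≤ 1 := by
        have e2 : 2 * Real.pi * ((j.1 * (z - z0).1 + j.2 * (z - z0).2 : ℤ) : ℝ) / N =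
            2 * Real.pi * j.1 / N * ((z - z0).1 : ℝ) + 2 * Real.pi * j.2 / N * ((z - z0).2 : ℝ) := by
          push_cast
          ring
        rw [e2]
        refine (abs_add_le _ _).trans ?_
        rw [abs_mul, abs_mul]
        have c1 := mul_le_mul_of_nonneg_left hzb.1 (abs_nonneg (2 * Real.pi * j.1 / (N : ℝ)))
        have c2 := mul_le_mul_of_nonneg_left hzb.2 (abs_nonneg (2 * Real.pi * j.2 / (N : ℝ)))
        linarith
      have h6 := Real.one_sub_sq_div_two_le_cos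
        (x := 2 * Real.pi * ((j.1 * (z - z0).1 + j.2 * (z - z0).2 : ℤ) : ℝ) / N)
      have h7 : (2 * Real.pi * ((j.1 * (z - z0).1 + j.2 * (z - z0).2 : ℤ) : ℝ) / N) ^ 2 ≤ 1 := by
        rw [← sq_abs]
        nlinarith [abs_nonneg (2 * Real.pi * ((j.1 * (z - z0).1 + j.2 * (z - z0).2 : ℤ) : ℝ) / N)]
      linarith
    calc (L : ℝ) ^ 2 / 2 = ∑ _z ∈ Bx p q L, (1 : ℝ) / 2 := by
          rw [sum_const, nsmul_eq_mul, Bx, card_product]
          simp
          ring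
      _ ≤ _ := sum_le_sum h5
  rw [Complex.normSq_apply]
  nlinarith [mul_self_nonneg (∑ z ∈ Bx p q L, ch (dt (pt N j) (pt N (z - z0)))).im,
    mul_self_le_mul_self (by positivity : (0 : ℝ) ≤ (L : ℝ) ^ 2 / 2) h4]

/-- dyadic shells of modes -/
def shel (K i : ℕ) : Finset (ℕ × ℕ) := Ico (2 ^ i * K) (2 ^ (i + 1) * K) ×ˢ range (2 ^ i * K)

lemma card_shel (K i : ℕ) : #(shel K i) = 4 ^ i * K ^ 2 := by
  unfold shel
  rw [card_product, Nat.card_Ico, card_range]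
  have : 2 ^ (i + 1) * K - 2 ^ i * K = 2 ^ i * K := by
    rw [pow_succ]
    have : 2 ^ i * 2 * K = 2 ^ i * K + 2 ^ i * K := by ring
    omega
  rw [this, show (4 : ℕ) = 2 ^ 2 by norm_num, ← pow_mul]
  ring

lemma shel_disj (K : ℕ) {i i' : ℕ} (h : i ≠ i') : Disjoint (shel K i) (shel K i') := by
  wlog hlt : i < i' generalizing i i'
  · exact (this h.symm (lt_of_le_of_ne (not_lt.1 hlt) h.symm)).symm
  rw [disjoint_left]
  intro z hz hz'
  unfold shel at hz hz'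
  rw [mem_product, mem_Ico] at hz hz'
  have h1 : 2 ^ (i + 1) * K ≤ 2 ^ i' * K :=
    Nat.mul_le_mul_right K (Nat.pow_le_pow_right (by norm_num) hlt)
  omega

/-- **variance of a box from `(H2)`, kernel form** -/
theorem frm_box_low {G : ZMod N × ZMod N → ℝ} (hG : ∀ k, 0 ≤ Gh G k) {C2 W : ℝ} (hC : 0 < C2)
    {ξ K : ℕ} (hξ : 1 ≤ ξ) (hK : N = K * ξ) {k : ℕ} (hW : 8 * 2 ^ k ≤ W)
    (h2 : H2 C2 W (ξ : ℝ) G) {L : ℕ} (hL : 8 * 2 ^ k * L ≤ ξ) (p q : ℤ) :
    (k : ℝ) / (804 * C2) * (L : ℝ) ^ 4 ≤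
      frm G fun x => if x ∈ (Bx p q L).image (pt N) then (1 : ℝ) else 0 := by
  classical
  set u : ZMod N × ZMod N → ℝ := fun x => if x ∈ (Bx p q L).image (pt N) then (1 : ℝ) else 0
    with hu
  have hN0 : 0 < N := NeZero.pos N
  have hN : (0 : ℝ) < N := by exact_mod_cast hN0
  have hξ0 : (0 : ℝ) < ξ := by exact_mod_cast hξ
  have hK0 : 0 < K := by
    rcases Nat.eq_zero_or_pos K with h | h
    · rw [h, zero_mul] at hK; omega
    · exact h
  have hK0' : (0 : ℝ) < K := by exact_mod_cast hK0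
  have hNe : (N : ℝ) = K * ξ := by exact_mod_cast hK
  rcases Nat.eq_zero_or_pos L with hL0 | hL0
  · rw [hL0]
    simp only [Nat.cast_zero, ne_eq, OfNat.ofNat_ne_zero, not_false_eq_true, zero_pow, mul_zero]
    exact H764.frm_nonneg G hG u
  have h8k : 8 * 2 ^ k ≤ ξ := le_trans (Nat.le_mul_of_pos_right _ hL0) hL
  have hLN : L ≤ N := by
    have h1 : L ≤ 8 * 2 ^ k * L := Nat.le_mul_of_pos_left _ (by positivity)
    have h2 : ξ ≤ K * ξ := Nat.le_mul_of_pos_left _ hK0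
    omega
  -- the modes
  set S : Finset (ℕ × ℕ) := (range k).biUnion (shel K) with hS
  have hmem : ∀ i < k, ∀ z ∈ shel K i, z.1 < 2 ^ k * K ∧ z.2 < 2 ^ k * K := by
    intro i hi z hz
    unfold shel at hz
    rw [mem_product, mem_Ico, mem_range] at hz
    have h1 : 2 ^ (i + 1) * K ≤ 2 ^ k * K :=
      Nat.mul_le_mul_right K (Nat.pow_le_pow_right (by norm_num) hi)
    have h3 : 2 ^ i * K ≤ 2 ^ k * K :=
      Nat.mul_le_mul_right K (Nat.pow_le_pow_right (by norm_num) hi.le)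
    omega
  have h8 : 8 * (2 ^ k * K) ≤ N := by
    rw [hK]
    calc 8 * (2 ^ k * K) = K * (8 * 2 ^ k) := by ring
      _ ≤ K * ξ := Nat.mul_le_mul_left K h8k
  set φ : ℕ × ℕ → ZMod N × ZMod N := fun z => pt N ((z.1 : ℤ), (z.2 : ℤ)) with hφ
  have hinj : Set.InjOn φ S := by
    intro z hz z' hz' h
    rw [mem_coe, hS, mem_biUnion] at hz hz'
    obtain ⟨i, hi, hz⟩ := hz
    obtain ⟨i', hi', hz'⟩ := hz'
    have a := hmem i (mem_range.1 hi) z hz
    have a' := hmem i' (mem_range.1 hi') z' hz'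
    have h1 := congrArg Prod.fst h
    have h3 := congrArg Prod.snd h
    simp only [hφ, pt] at h1 h3
    have b1 := cast_inj_Ico (p := 0) N le_rfl (mem_Ico.2 ⟨by omega, by omega⟩)
      (mem_Ico.2 ⟨by omega, by omega⟩) h1
    have b3 := cast_inj_Ico (p := 0) N le_rfl (mem_Ico.2 ⟨by omega, by omega⟩)
      (mem_Ico.2 ⟨by omega, by omega⟩) h3
    exact Prod.ext (by exact_mod_cast b1) (by exact_mod_cast b3)
  -- one mode
  have hmode : ∀ i < k, ∀ z ∈ shel K i, (ξ : ℝ) ^ 2 / (201 * C2 * 4 ^ i) * ((L : ℝ) ^ 4 / 4) ≤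
      Gh G (φ z) * Complex.normSq (hatu u (φ z)) := by
    intro i hi z hz
    obtain ⟨m1, m2⟩ := hmem i hi z hz
    unfold shel at hz
    rw [mem_product, mem_Ico, mem_range] at hz
    have hpwv : ∀ x : ℕ, x < 2 ^ k * K → pw ((x : ℤ) : ZMod N) = 2 * Real.pi * x / N := by
      intro x hx
      unfold H764.pw
      have : (((x : ℤ) : ZMod N)).valMinAbs = (x : ℤ) := by
        rw [Int.cast_natCast]
        exact ZMod.valMinAbs_natCast_of_le_half (by omega)
      rw [this]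
      push_cast
      rfl
    have e1 : pw (φ z).1 = 2 * Real.pi * z.1 / N := hpwv _ m1
    have e2 : pw (φ z).2 = 2 * Real.pi * z.2 / N := hpwv _ m2
    have hpi := Real.pi_pos
    have hpi2 : Real.pi < 3.15 := Real.pi_lt_d2
    have z1 : (z.1 : ℝ) ≤ 2 ^ (i + 1) * K := by exact_mod_cast hz.1.2.le
    have z2 : (z.2 : ℝ) ≤ 2 ^ i * K := by exact_mod_cast hz.2.le
    have p1 : 2 * Real.pi * z.1 / N ≤ 2 * Real.pi * 2 ^ (i + 1) / ξ := by
      rw [hNe, div_le_div_iff₀ (by positivity) hξ0]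
      calc 2 * Real.pi * z.1 * ξ ≤ 2 * Real.pi * (2 ^ (i + 1) * K) * ξ := by gcongr
        _ = _ := by ring
    have p2 : 2 * Real.pi * z.2 / N ≤ 2 * Real.pi * 2 ^ i / ξ := by
      rw [hNe, div_le_div_iff₀ (by positivity) hξ0]
      calc 2 * Real.pi * z.2 * ξ ≤ 2 * Real.pi * (2 ^ i * K) * ξ := by gcongr
        _ = _ := by ring
    have p1' : 2 * Real.pi * 2 ^ (i + 1) / (ξ : ℝ) ≤ 8 * 2 ^ k / ξ := by
      have : (2 : ℝ) ^ (i + 1) ≤ 2 ^ k := pow_le_pow_right₀ (by norm_num) hi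
      gcongr
      linarith
    have p2' : 2 * Real.pi * 2 ^ i / (ξ : ℝ) ≤ 8 * 2 ^ k / ξ := by
      have : (2 : ℝ) ^ i ≤ 2 ^ k := pow_le_pow_right₀ (by norm_num) hi.le
      gcongr
      linarith
    have n1 : 0 ≤ 2 * Real.pi * z.1 / N := by positivity
    have n2 : 0 ≤ 2 * Real.pi * z.2 / N := by positivity
    have hWx : 8 * 2 ^ k / (ξ : ℝ) ≤ W / ξ := div_le_div_of_nonneg_right hW hξ0.le
    have hH := h2 (φ z) (by rw [e1, abs_of_nonneg n1]; exact p1.trans (p1'.trans hWx))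
      (by rw [e2, abs_of_nonneg n2]; exact p2.trans (p2'.trans hWx))
    rw [e1, e2] at hH
    have hsum : 1 / (ξ : ℝ) ^ 2 + (2 * Real.pi * z.1 / N) ^ 2 + (2 * Real.pi * z.2 / N) ^ 2 ≤
        201 * 4 ^ i / (ξ : ℝ) ^ 2 := by
      have q1 : (2 * Real.pi * z.1 / N) ^ 2 ≤ (2 * Real.pi * 2 ^ (i + 1) / ξ) ^ 2 :=
        pow_le_pow_left₀ n1 p1 2
      have q2 : (2 * Real.pi * z.2 / N) ^ 2 ≤ (2 * Real.pi * 2 ^ i / ξ) ^ 2 :=
        pow_le_pow_left₀ n2 p2 2
      have q3 : (2 * Real.pi * 2 ^ (i + 1) / (ξ : ℝ)) ^ 2 = 16 * Real.pi ^ 2 * 4 ^ i / ξ ^ 2 := by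
        rw [div_pow, pow_succ, show (4 : ℝ) = 2 ^ 2 by norm_num, ← pow_mul]
        ring
      have q4 : (2 * Real.pi * 2 ^ i / (ξ : ℝ)) ^ 2 = 4 * Real.pi ^ 2 * 4 ^ i / ξ ^ 2 := by
        rw [div_pow, show (4 : ℝ) = 2 ^ 2 by norm_num, ← pow_mul]
        ring
      have q5 : 1 / (ξ : ℝ) ^ 2 ≤ 4 ^ i / ξ ^ 2 := by
        gcongr
        exact one_le_pow₀ (by norm_num)
      rw [q3] at q1
      rw [q4] at q2
      have hpisq : Real.pi ^ 2 < 10 := by nlinarith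
      calc _ ≤ 4 ^ i / (ξ : ℝ) ^ 2 + 16 * Real.pi ^ 2 * 4 ^ i / ξ ^ 2 +
            4 * Real.pi ^ 2 * 4 ^ i / ξ ^ 2 := by linarith
        _ = (1 + 20 * Real.pi ^ 2) * 4 ^ i / ξ ^ 2 := by ring
        _ ≤ 201 * 4 ^ i / (ξ : ℝ) ^ 2 := by
            gcongr
            linarith
    have hGpos : (ξ : ℝ) ^ 2 / (201 * C2 * 4 ^ i) ≤ Gh G (φ z) := by
      have h3 : 1 ≤ C2 * (201 * 4 ^ i / (ξ : ℝ) ^ 2) * Gh G (φ z) := by
        refine hH.trans ?_
        exact mul_le_mul_of_nonneg_right (mul_le_mul_of_nonneg_left hsum hC.le) (hG _)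
      rw [div_le_iff₀ (by positivity)]
      have h4 : C2 * (201 * 4 ^ i / (ξ : ℝ) ^ 2) * Gh G (φ z) =
          Gh G (φ z) * (201 * C2 * 4 ^ i) / ξ ^ 2 := by ring
      rw [h4, le_div_iff₀ (by positivity), one_mul] at h3
      exact h3
    have hδ : (8 * 2 ^ k / (ξ : ℝ)) * L ≤ 1 := by
      rw [div_mul_eq_mul_div, div_le_one hξ0]
      exact_mod_cast hL
    have hbox := hat_box_low (N := N) (p := p) (q := q) (L := L) hLN
      (j := ((z.1 : ℤ), (z.2 : ℤ))) (δ := 1) (by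
        have : |2 * Real.pi * (((z.1 : ℤ), (z.2 : ℤ)).1 : ℝ) / N| = 2 * Real.pi * z.1 / N := by
          simp only [Int.cast_natCast]
          exact abs_of_nonneg n1
        rw [this]
        exact (mul_le_mul_of_nonneg_right (p1.trans p1') (Nat.cast_nonneg L)).trans hδ) (by
        have : |2 * Real.pi * (((z.1 : ℤ), (z.2 : ℤ)).2 : ℝ) / N| = 2 * Real.pi * z.2 / N := by
          simp only [Int.cast_natCast]
          exact abs_of_nonneg n2
        rw [this]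
        exact (mul_le_mul_of_nonneg_right (p2.trans p2') (Nat.cast_nonneg L)).trans hδ) le_rfl
    exact mul_le_mul hGpos hbox (by positivity) (hG _)
  have hpars := H764.parseval G u
  have h9 : (k : ℝ) * ((N : ℝ) ^ 2 * ((L : ℝ) ^ 4 / (804 * C2))) ≤
      ∑ k', Gh G k' * Complex.normSq (hatu u k') := by
    calc (k : ℝ) * ((N : ℝ) ^ 2 * ((L : ℝ) ^ 4 / (804 * C2)))
        = ∑ i ∈ range k, ∑ z ∈ shel K i,
            (ξ : ℝ) ^ 2 / (201 * C2 * 4 ^ i) * ((L : ℝ) ^ 4 / 4) := by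
          have : ∀ i ∈ range k, ∑ z ∈ shel K i,
            (ξ : ℝ) ^ 2 / (201 * C2 * 4 ^ i) * ((L : ℝ) ^ 4 / 4) =
            (N : ℝ) ^ 2 * ((L : ℝ) ^ 4 / (804 * C2)) := by
            intro i _
            rw [sum_const, nsmul_eq_mul, card_shel, hNe]
            push_cast
            field_simp
            norm_num
          rw [sum_congr rfl this, sum_const, card_range, nsmul_eq_mul]
      _ ≤ ∑ i ∈ range k, ∑ z ∈ shel K i, Gh G (φ z) * Complex.normSq (hatu u (φ z)) :=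
          sum_le_sum fun i hi => sum_le_sum fun z hz => hmode i (mem_range.1 hi) z hz
      _ = ∑ z ∈ S, Gh G (φ z) * Complex.normSq (hatu u (φ z)) := by
          rw [hS, sum_biUnion]
          intro i _ i' _ h
          exact shel_disj K h
      _ = ∑ k' ∈ S.image φ, Gh G k' * Complex.normSq (hatu u k') := by
          rw [sum_image (fun x hx y hy h => hinj hx hy h)]
      _ ≤ ∑ k', Gh G k' * Complex.normSq (hatu u k') :=
          sum_le_sum_of_subset_of_nonneg (subset_univ _) fun k' _ _ =>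
            mul_nonneg (hG _) (Complex.normSq_nonneg _)
  rw [← hpars] at h9
  have hN2 : (0 : ℝ) < (N : ℝ) ^ 2 := by positivity
  have h10 : (N : ℝ) ^ 2 * ((k : ℝ) / (804 * C2) * (L : ℝ) ^ 4) ≤ (N : ℝ) ^ 2 * frm G u := by
    refine le_trans (le_of_eq ?_) h9
    ring
  exact le_of_mul_le_mul_left h10 hN2

end Vale.Agent.P159.TM.H77
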